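import Vale.Agent.P226.H765.Core

set_option linter.all false

/-!
# P226, stability: the local step with constants independent of the number of cells
-/

open MeasureTheory ProbabilityTheory Set Filter Topology
open scoped RealInnerProductSpace

namespace Vale.Agent.P226.S765

open K3 Eqc

variable {E : Type*} [NormedAddCommGroup E] [InnerProductSpace ℝ E] [FiniteDimensional ℝ E]
  [MeasurableSpace E] [BorelSpace E]

/-- Upper bound of the mean maximum, with a constant independent of the number of vectors. -/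
theorem Phi_le_main' {k : ℕ} [Nonempty (Fin k)] (z : Fin k → E) {f : Fin 3 → Fin k}
    {u : Fin 3 → E} (hu : ∀ j, ‖u j‖ = 1)
    (hs : u 0 + u 1 + u 2 = 0) {t e : ℝ} (ht : 0 ≤ t) (he : 0 ≤ e)
    (hz : ∑ i ∈ Finset.univ.filter (fun i => ∀ j, f j ≠ i), ‖z i‖ ^ 2 ≤ t ^ 2)
    (hf : ∀ j, ‖z (f j) - rr • u j‖ ≤ e) :
    Phi z ≤ MM * ((‖z (f 0) - z (f 1)‖ + ‖z (f 1) - z (f 2)‖ + ‖z (f 0) - z (f 2)‖) / 3) +
      18 * 4 * (t + e) ^ 3 := by
  classical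
  obtain ⟨V, hV, hm⟩ := exists_plane (hu 0) (hu 1) (hu 2) hs
  have hr := rr_pos
  have hr2 := rr_sq
  have hρ := rho_lo
  set T : Finset (Fin k) := Finset.univ.filter (fun i => ∀ j, f j ≠ i) with hT
  let M3 : E → ℝ := fun x => max ⟪z (f 0), x⟫ (max ⟪z (f 1), x⟫ ⟪z (f 2), x⟫)
  let g : Fin k → E → ℝ := fun i x => max (⟪z i, x⟫ - rr / 4 * ‖V.starProjection x‖) 0
  let h : Fin 3 → E → ℝ := fun j x =>
    max (⟪-(z (f j) - rr • u j), x⟫ - rr / 4 * ‖V.starProjection x‖) 0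
  have hM3 : ∀ j x, ⟪z (f j), x⟫ ≤ M3 x := by
    intro j x
    fin_cases j
    · exact le_max_left _ _
    · exact (le_max_left _ _).trans (le_max_right _ _)
    · exact (le_max_right _ _).trans (le_max_right _ _)
  have hg0 : ∀ i x, 0 ≤ g i x := fun i x => le_max_right _ _
  have hh0 : ∀ j x, 0 ≤ h j x := fun i x => le_max_right _ _
  have hpt : ∀ x, mx z x ≤ M3 x + (∑ i ∈ T, g i x + ∑ j, h j x) := by
    intro x
    have hsum0 : 0 ≤ ∑ i ∈ T, g i x := Finset.sum_nonneg fun i _ => hg0 i x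
    have hsum1 : 0 ≤ ∑ j, h j x := Finset.sum_nonneg fun i _ => hh0 i x
    refine mx_le fun i => ?_
    by_cases hi : ∀ j, f j ≠ i
    · obtain ⟨j, hj⟩ := Finite.exists_max (fun j => ⟪u j, x⟫)
      have h1 := hm x ⟪u j, x⟫ (hj 0) (hj 1) (hj 2)
      have h2 : g i x ≤ ∑ i ∈ T, g i x :=
        Finset.single_le_sum (f := fun i => g i x) (fun i _ => hg0 i x)
          (show i ∈ T by rw [hT, Finset.mem_filter]; exact ⟨Finset.mem_univ _, hi⟩)
      have h3 : h j x ≤ ∑ j, h j x :=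
        Finset.single_le_sum (f := fun j => h j x) (fun j _ => hh0 j x) (Finset.mem_univ j)
      have h4 : ⟪-(z (f j) - rr • u j), x⟫ = rr * ⟪u j, x⟫ - ⟪z (f j), x⟫ := by
        rw [inner_neg_left, inner_sub_left, real_inner_smul_left]
        ring
      have h5 : ⟪z i, x⟫ - rr / 4 * ‖V.starProjection x‖ ≤ g i x := le_max_left _ _
      have h6 : ⟪-(z (f j) - rr • u j), x⟫ - rr / 4 * ‖V.starProjection x‖ ≤ h j x :=
        le_max_left _ _
      have h7 : rr / 2 * ‖V.starProjection x‖ ≤ rr / 2 * (2 * ⟪u j, x⟫) :=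
        mul_le_mul_of_nonneg_left h1 (by positivity)
      have h8 := hM3 j x
      linarith
    · push Not at hi
      obtain ⟨j, rfl⟩ := hi
      have h6 := hM3 j x
      linarith
  have hgi : ∀ i, Integrable (g i) (stdGaussian E) := fun i =>
    integrable_exc V _ (by positivity)
  have hhi : ∀ j, Integrable (h j) (stdGaussian E) := fun j =>
    integrable_exc V _ (by positivity)
  have hM3i : Integrable M3 (stdGaussian E) :=
    (integrable_inner_stdGaussian _).sup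
      ((integrable_inner_stdGaussian _).sup (integrable_inner_stdGaussian _))
  have hsi : Integrable (fun x => ∑ i ∈ T, g i x) (stdGaussian E) :=
    integrable_finset_sum _ fun i _ => hgi i
  have hti : Integrable (fun x => ∑ j, h j x) (stdGaussian E) :=
    integrable_finset_sum _ fun j _ => hhi j
  have h1 : Phi z ≤ ∫ x, (M3 x + (∑ i ∈ T, g i x + ∑ j, h j x)) ∂(stdGaussian E) :=
    integral_mono (integrable_mx z) (hM3i.add (hsi.add hti)) hpt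
  have h2 : ∫ x, (M3 x + (∑ i ∈ T, g i x + ∑ j, h j x)) ∂(stdGaussian E) =
      ∫ x, M3 x ∂(stdGaussian E) + (∑ i ∈ T, ∫ x, g i x ∂(stdGaussian E) +
        ∑ j, ∫ x, h j x ∂(stdGaussian E)) := by
    have e1 := integral_add hM3i (hsi.add hti)
    have e2 := integral_add hsi hti
    simp only [Pi.add_apply] at e1
    rw [e1, e2, integral_finset_sum _ fun i _ => hgi i, integral_finset_sum _ fun i _ => hhi i]
  have h3 : ∫ x, M3 x ∂(stdGaussian E) =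
      MM * ((‖z (f 0) - z (f 1)‖ + ‖z (f 1) - z (f 2)‖ + ‖z (f 0) - z (f 2)‖) / 3) := by
    rw [integral_max3, MM_eq]
    field_simp
  have hexc : ∀ (v : E) (c : ℝ), ‖v‖ ^ 3 ≤ c →
      ∫ x, max (⟪v, x⟫ - rr / 4 * ‖V.starProjection x‖) 0 ∂(stdGaussian E) ≤ 23 * c := by
    intro v c hv
    refine (excess_le hV v (c := rr / 4) (by positivity)).trans ?_
    have h6 : (rr / 4) ^ 2 = rho / 16 := by rw [div_pow, hr2]; norm_num
    rw [h6, div_le_iff₀ (by linarith)]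
    have h8 : 0 ≤ ‖v‖ ^ 3 := by positivity
    nlinarith
  have hzt : ∀ i ∈ T, ‖z i‖ ≤ t := by
    intro i hi
    refine le_of_sq_le_sq ?_ ht
    exact (Finset.single_le_sum (f := fun i => ‖z i‖ ^ 2) (fun i _ => by positivity) hi).trans hz
  have h4 : ∑ i ∈ T, ∫ x, g i x ∂(stdGaussian E) ≤ 23 * t ^ 3 := by
    calc ∑ i ∈ T, ∫ x, g i x ∂(stdGaussian E) ≤ ∑ i ∈ T, 23 * (t * ‖z i‖ ^ 2) := by
          refine Finset.sum_le_sum fun i hi => hexc (z i) _ ?_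
          have := mul_le_mul_of_nonneg_right (hzt i hi) (sq_nonneg ‖z i‖)
          calc ‖z i‖ ^ 3 = ‖z i‖ * ‖z i‖ ^ 2 := by ring
            _ ≤ _ := this
      _ = 23 * (t * ∑ i ∈ T, ‖z i‖ ^ 2) := by rw [← Finset.mul_sum, ← Finset.mul_sum]
      _ ≤ 23 * (t * t ^ 2) := by
          have := mul_le_mul_of_nonneg_left hz ht
          linarith
      _ = 23 * t ^ 3 := by ring
  have h5 : ∑ j, ∫ x, h j x ∂(stdGaussian E) ≤ 69 * e ^ 3 := by
    calc ∑ j, ∫ x, h j x ∂(stdGaussian E) ≤ ∑ _j : Fin 3, 23 * e ^ 3 := by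
          refine Finset.sum_le_sum fun j _ => hexc _ _ ?_
          rw [norm_neg]
          exact pow_le_pow_left₀ (norm_nonneg _) (hf j) 3
      _ = 69 * e ^ 3 := by
          rw [Finset.sum_const, Finset.card_univ, Fintype.card_fin, nsmul_eq_mul]
          push_cast
          ring
  have h6 : 23 * t ^ 3 + 69 * e ^ 3 ≤ 18 * 4 * (t + e) ^ 3 := by
    have a1 : 0 ≤ t ^ 3 := by positivity
    have a2 : 0 ≤ e ^ 3 := by positivity
    have a3 : 0 ≤ t ^ 2 * e := by positivity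
    have a4 : 0 ≤ t * e ^ 2 := by positivity
    nlinarith
  linarith

/-- **The local step.** -/
theorem boot {k : ℕ} [Nonempty (Fin k)] {A : Fin k → Set E} (hA : IsPart A) {f : Fin 3 → Fin k}
    (hf : Function.Injective f) {s : ℝ} (hs0 : 0 < s) (hs1 : s ≤ 1 / 1000000000)
    (hG : Gram3 (s ^ 2) (fm (A (f 0))) (fm (A (f 1))) (fm (A (f 2))))
    (hTs : ∑ i ∈ Finset.univ.filter (fun i => ∀ j, f j ≠ i), ‖fm (A i)‖ ^ 2 ≤ 36 * s ^ 2)
    (hD2 : MM ^ 2 - ∑ i, ‖fm (A i)‖ ^ 2 < 1 / 1000000) :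
    ∃ (u : Fin 3 → E), (∀ j, ‖u j‖ = 1) ∧ u 0 + u 1 + u 2 = 0 ∧
        (∀ j, ‖fm (A (f j)) - rr • u j‖ ≤ 252 * √(MM ^ 2 - ∑ i, ‖fm (A i)‖ ^ 2)) ∧
        ∑ i ∈ Finset.univ.filter (fun i => ∀ j, f j ≠ i), ‖fm (A i)‖ ^ 2 ≤
          2 * (MM ^ 2 - ∑ i, ‖fm (A i)‖ ^ 2) := by
  have hρ1 := rho_lo
  have hρ2 := rho_hi
  have hs2 : s ^ 2 ≤ 1 / 50 := by nlinarith
  have hG' : Gram3 (1 / 50) (fm (A (f 0))) (fm (A (f 1))) (fm (A (f 2))) :=
    ⟨hG.n0.trans hs2, hG.n1.trans hs2, hG.n2.trans hs2, hG.i01.trans hs2, hG.i12.trans hs2,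
      hG.i02.trans hs2⟩
  obtain ⟨u0, u1, u2, hu0, hu1, hu2, hus, hclose⟩ := exists_prop hG'
  -- notation
  obtain ⟨F, hF⟩ : ∃ F : ℝ, F = ∑ i, ‖fm (A i)‖ ^ 2 := ⟨_, rfl⟩
  obtain ⟨T, hT⟩ : ∃ T : ℝ, T = ∑ i ∈ Finset.univ.filter (fun i => ∀ j, f j ≠ i),
    ‖fm (A i)‖ ^ 2 := ⟨_, rfl⟩
  have hFM : F ≤ MM ^ 2 := by rw [hF, MM_sq]; exact bdd k _ hA
  have hT0 : 0 ≤ T := by rw [hT]; exact Finset.sum_nonneg fun i _ => by positivity
  have hsplit := sum_split hf (fun i => ‖fm (A i)‖ ^ 2)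
  rw [← hT] at hTs
  rw [← hF] at hD2 ⊢
  rw [← hT]
  obtain ⟨D, hDd⟩ : ∃ D : ℝ, D = MM ^ 2 - F := ⟨_, rfl⟩
  rw [← hDd] at hD2 ⊢
  have hD0 : 0 ≤ D := by rw [hDd]; linarith
  have hfF : (∑ i, ‖fm (A i)‖ ^ 2) = F := hF.symm
  rw [hfF, ← hT] at hsplit
  obtain ⟨t, ht⟩ : ∃ t : ℝ, t = √T := ⟨_, rfl⟩
  have ht0 : 0 ≤ t := by rw [ht]; exact Real.sqrt_nonneg T
  have ht2 : t ^ 2 = T := by rw [ht]; exact Real.sq_sqrt hT0
  have hts : t ≤ 6 * s := by
    refine le_of_sq_le_sq ?_ (by positivity)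
    rw [ht2]
    nlinarith
  -- a priori closeness
  have hsum2 : ‖fm (A (f 0)) + fm (A (f 1)) + fm (A (f 2))‖ ≤ 3 * s := by
    refine le_of_sq_le_sq ?_ (by positivity)
    have es : ‖fm (A (f 0)) + fm (A (f 1)) + fm (A (f 2))‖ ^ 2 = ‖fm (A (f 0))‖ ^ 2 +
        ‖fm (A (f 1))‖ ^ 2 + ‖fm (A (f 2))‖ ^ 2 + 2 * (⟪fm (A (f 0)), fm (A (f 1))⟫ +
        ⟪fm (A (f 1)), fm (A (f 2))⟫ + ⟪fm (A (f 0)), fm (A (f 2))⟫) := by
      rw [norm_add_sq_real, norm_add_sq_real, inner_add_left]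
      ring
    rw [es]
    have k0 := (abs_le.1 hG.n0).2
    have k1 := (abs_le.1 hG.n1).2
    have k2 := (abs_le.1 hG.n2).2
    have k01 := (abs_le.1 hG.i01).2
    have k12 := (abs_le.1 hG.i12).2
    have k02 := (abs_le.1 hG.i02).2
    nlinarith only [k0, k1, k2, k01, k12, k02]
  have hap := hclose (s ^ 2) (3 * s) hG hsum2
  -- the maximal distance
  obtain ⟨e, he⟩ : ∃ e : ℝ, e = max ‖fm (A (f 0)) - rr • u0‖
    (max ‖fm (A (f 1)) - rr • u1‖ ‖fm (A (f 2)) - rr • u2‖) := ⟨_, rfl⟩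
  have he0 : ‖fm (A (f 0)) - rr • u0‖ ≤ e := by rw [he]; exact le_max_left _ _
  have he1 : ‖fm (A (f 1)) - rr • u1‖ ≤ e := by
    rw [he]; exact (le_max_left _ _).trans (le_max_right _ _)
  have he2 : ‖fm (A (f 2)) - rr • u2‖ ≤ e := by
    rw [he]; exact (le_max_right _ _).trans (le_max_right _ _)
  have hen : 0 ≤ e := (norm_nonneg _).trans he0
  have hes : e ≤ 4 * s := by
    have h1 : 3 * s + 7 * s ^ 2 ≤ 4 * s := by nlinarith only [hs0, hs1]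
    rw [he]
    exact max_le (hap.1.trans h1) (max_le (hap.2.1.trans h1) (hap.2.2.trans h1))
  let u : Fin 3 → E := ![u0, u1, u2]
  have huj : ∀ j, ‖u j‖ = 1 := by
    intro j
    fin_cases j
    · exact hu0
    · exact hu1
    · exact hu2
  have hej : ∀ j, ‖fm (A (f j)) - rr • u j‖ ≤ e := by
    intro j
    fin_cases j
    · exact he0
    · exact he1
    · exact he2
  have hX := Phi_le_main' (fun i => fm (A i)) (f := f) huj (show u 0 + u 1 + u 2 = 0 from hus)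
    ht0 hen (by rw [ht2, hT]) hej
  have hmain := deficit_ineq hA hf hX
  rw [← hT, ← hF, ← hDd] at hmain
  obtain ⟨Q, hQ⟩ : ∃ Q : ℝ, Q = (‖fm (A (f 0)) - fm (A (f 1))‖ -
      ‖fm (A (f 1)) - fm (A (f 2))‖) ^ 2 +
       (‖fm (A (f 1)) - fm (A (f 2))‖ - ‖fm (A (f 0)) - fm (A (f 2))‖) ^ 2 +
       (‖fm (A (f 0)) - fm (A (f 1))‖ - ‖fm (A (f 0)) - fm (A (f 2))‖) ^ 2 +
        3 * ‖fm (A (f 0)) + fm (A (f 1)) + fm (A (f 2))‖ ^ 2 := ⟨_, rfl⟩
  rw [← hQ] at hmain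
  have q1 : (‖fm (A (f 0)) - fm (A (f 1))‖ - ‖fm (A (f 1)) - fm (A (f 2))‖) ^ 2 ≤ Q := by
    rw [hQ]
    have := sq_nonneg (‖fm (A (f 1)) - fm (A (f 2))‖ - ‖fm (A (f 0)) - fm (A (f 2))‖)
    have := sq_nonneg (‖fm (A (f 0)) - fm (A (f 1))‖ - ‖fm (A (f 0)) - fm (A (f 2))‖)
    have := sq_nonneg ‖fm (A (f 0)) + fm (A (f 1)) + fm (A (f 2))‖
    linarith
  have q2 : (‖fm (A (f 1)) - fm (A (f 2))‖ - ‖fm (A (f 0)) - fm (A (f 2))‖) ^ 2 ≤ Q := by
    rw [hQ]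
    have := sq_nonneg (‖fm (A (f 0)) - fm (A (f 1))‖ - ‖fm (A (f 1)) - fm (A (f 2))‖)
    have := sq_nonneg (‖fm (A (f 0)) - fm (A (f 1))‖ - ‖fm (A (f 0)) - fm (A (f 2))‖)
    have := sq_nonneg ‖fm (A (f 0)) + fm (A (f 1)) + fm (A (f 2))‖
    linarith
  have q3 : (‖fm (A (f 0)) - fm (A (f 1))‖ - ‖fm (A (f 0)) - fm (A (f 2))‖) ^ 2 ≤ Q := by
    rw [hQ]
    have := sq_nonneg (‖fm (A (f 0)) - fm (A (f 1))‖ - ‖fm (A (f 1)) - fm (A (f 2))‖)
    have := sq_nonneg (‖fm (A (f 1)) - fm (A (f 2))‖ - ‖fm (A (f 0)) - fm (A (f 2))‖)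
    have := sq_nonneg ‖fm (A (f 0)) + fm (A (f 1)) + fm (A (f 2))‖
    linarith
  have q4 : ‖fm (A (f 0)) + fm (A (f 1)) + fm (A (f 2))‖ ^ 2 ≤ Q := by
    rw [hQ]
    have := sq_nonneg (‖fm (A (f 0)) - fm (A (f 1))‖ - ‖fm (A (f 1)) - fm (A (f 2))‖)
    have := sq_nonneg (‖fm (A (f 1)) - fm (A (f 2))‖ - ‖fm (A (f 0)) - fm (A (f 2))‖)
    have := sq_nonneg (‖fm (A (f 0)) - fm (A (f 1))‖ - ‖fm (A (f 0)) - fm (A (f 2))‖)
    have := sq_nonneg ‖fm (A (f 0)) + fm (A (f 1)) + fm (A (f 2))‖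
    linarith
  have hQ0 : 0 ≤ Q := (sq_nonneg _).trans q1
  have hyK : 18 * 4 * (t + e) ≤ 1 / 1000000 := by
    linarith only [hts, hes, hs1]
  have hT1 : T ≤ 1 / 1000 := by
    nlinarith only [hTs, hs0, hs1]
  have hQ1 : Q ≤ 1 / 100 := by
    have h1 : 18 * 4 * (t + e) ^ 3 ≤ 1 / 1000000 * (t + e) ^ 2 := by
      have : 18 * 4 * (t + e) ^ 3 = (18 * 4 * (t + e)) * (t + e) ^ 2 := by ring
      rw [this]
      exact mul_le_mul_of_nonneg_right hyK (sq_nonneg _)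
    have h2 : t + e ≤ 1 := by
      linarith only [hts, hes, hs1]
    have h3 : (t + e) ^ 2 ≤ 1 := by
      have : 0 ≤ t + e := by positivity
      nlinarith only [h2, this]
    linarith only [hmain, h1, h3, hD2, hT0]
  obtain ⟨q, hq⟩ : ∃ q : ℝ, q = √Q + D + T := ⟨_, rfl⟩
  have hsQ : √Q ≤ 1 / 10 := by
    rw [Real.sqrt_le_left (by norm_num)]
    linarith only [hQ1]
  have hq0 : 0 ≤ q := by rw [hq]; positivity
  have hq1 : q ≤ 1 := by rw [hq]; linarith only [hsQ, hD2, hT1]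
  have hsq : ∀ a : ℝ, a ^ 2 ≤ Q → |a| ≤ q := by
    intro a ha
    have h1 : |a| ≤ √Q := Real.abs_le_sqrt ha
    rw [hq]
    linarith only [h1, hD0, hT0]
  have hSd : ‖fm (A (f 0))‖ ^ 2 + ‖fm (A (f 1))‖ ^ 2 + ‖fm (A (f 2))‖ ^ 2 - 3 * rho = -(D + T) := by
    rw [← MM_sq', hDd]
    linarith only [hsplit]
  have hG5 := gram3_of_q (q := q) hq0 hq1 (by
      rw [hSd, abs_neg, abs_of_nonneg (by positivity), hq]
      linarith only [Real.sqrt_nonneg Q]) (by linarith only [hSd, hD0, hT0])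
    (hsq _ q1) (hsq _ q2) (hsq _ q3) (by
      have := hsq _ q4
      rwa [abs_norm] at this)
  have hap2 := hclose (5 * q) q hG5 (by
      have := hsq _ q4
      rwa [abs_norm] at this)
  have heq : e ≤ 36 * (√Q + D + T) := by
    rw [← hq]
    have h1 : q + 7 * (5 * q) = 36 * q := by ring
    rw [h1] at hap2
    rw [he]
    exact max_le hap2.1 (max_le hap2.2.1 hap2.2.2)
  obtain ⟨r1, r2⟩ := absorb (K := 4) hT0 hQ0 hD0 (by linarith only [hD2]) (by linarith only [hT1])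
    hen ht0 ht2 (by norm_num) rfl hyK heq hmain
  have hsD0 := Real.sqrt_nonneg D
  have hsD : √D ^ 2 = D := Real.sq_sqrt hD0
  have hsD1 : √D ≤ 1 / 1000 := by
    rw [Real.sqrt_le_left (by norm_num)]
    linarith only [hD2]
  have hef : e ≤ 252 * √D := by
    have h1 : √Q ≤ 4 * √D := by
      rw [Real.sqrt_le_left (by positivity), mul_pow, hsD]
      linarith only [r2, hD0]
    have h2 : D + T ≤ 3 * √D := by
      have h3 : D ≤ √D := by nlinarith only [hsD, hsD0, hsD1]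
      linarith only [h3, r1]
    linarith only [heq, h1, h2]
  exact ⟨u, huj, hus, fun j => (hej j).trans hef, r1⟩

end Vale.Agent.P226.S765
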