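import Vale.Agent.P226.H765.Tail

set_option linter.all false

/-!
# P226, stability: the moments of a near maximiser
-/

open MeasureTheory ProbabilityTheory Set Filter Topology
open scoped RealInnerProductSpace

namespace Vale.Agent.P226.S765

open K3 Eqc

variable {E : Type*} [NormedAddCommGroup E] [InnerProductSpace ℝ E] [FiniteDimensional ℝ E]
  [MeasurableSpace E] [BorelSpace E]

/-- Pure arithmetic of the absorption step. `T = t²` tail, `Q` perimeter defect, `D` deficit. -/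
lemma absorb {T Q D e t y K : ℝ} (hT : 0 ≤ T) (hQ : 0 ≤ Q) (hD : 0 ≤ D) (hD1 : D ≤ 1)
    (hT1 : T ≤ 1) (he0 : 0 ≤ e) (ht0 : 0 ≤ t) (ht : t ^ 2 = T) (hK : 0 ≤ K)
    (hy : t + e = y) (hyK : 18 * K * y ≤ 1 / 1000000)
    (he : e ≤ 36 * (√Q + D + T))
    (hmain : T / 2 + Q / 18 ≤ D / 2 + 18 * K * y ^ 3) :
    T ≤ 2 * D ∧ Q ≤ 12 * D := by
  have hs : √Q ^ 2 = Q := Real.sq_sqrt hQ
  have hs0 := Real.sqrt_nonneg Q
  have h1 : (√Q + D + T) ^ 2 ≤ 3 * (Q + D + T) := by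
    have : (√Q + D + T) ^ 2 ≤ 3 * (√Q ^ 2 + D ^ 2 + T ^ 2) := by
      nlinarith [sq_nonneg (√Q - D), sq_nonneg (√Q - T), sq_nonneg (D - T)]
    rw [hs] at this
    nlinarith
  have h2 : e ^ 2 ≤ 1296 * (3 * (Q + D + T)) := by
    have h3 : e ^ 2 ≤ (36 * (√Q + D + T)) ^ 2 := pow_le_pow_left₀ he0 he 2
    nlinarith
  have h3 : y ^ 2 ≤ 2 * T + 2 * (1296 * (3 * (Q + D + T))) := by
    rw [← hy]
    nlinarith [sq_nonneg (t - e)]
  have hy0 : 0 ≤ y := by rw [← hy]; positivity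
  have h4 : 18 * K * y ^ 3 ≤ 1 / 1000000 * y ^ 2 := by
    have : 18 * K * y ^ 3 = (18 * K * y) * y ^ 2 := by ring
    rw [this]
    exact mul_le_mul_of_nonneg_right hyK (sq_nonneg y)
  constructor
  · linarith
  · linarith

universe u

theorem core (k : ℕ) [Nonempty (Fin k)] :
    ∃ δ : ℝ, 0 < δ ∧ ∀ (E : Type u) [NormedAddCommGroup E] [InnerProductSpace ℝ E]
      [FiniteDimensional ℝ E] [MeasurableSpace E] [BorelSpace E] (A : Fin k → Set E),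
      IsPart A → MM ^ 2 - ∑ i, ‖fm (A i)‖ ^ 2 < δ →
      ∃ (u : Fin 3 → E) (f : Fin 3 → Fin k), (∀ j, ‖u j‖ = 1) ∧ u 0 + u 1 + u 2 = 0 ∧
        Function.Injective f ∧
        (∀ j, ‖fm (A (f j)) - rr • u j‖ ≤ 252 * √(MM ^ 2 - ∑ i, ‖fm (A i)‖ ^ 2)) ∧
        ∀ i, (∀ j, f j ≠ i) → ‖fm (A i)‖ ≤ 2 * √(MM ^ 2 - ∑ i, ‖fm (A i)‖ ^ 2) := by
  obtain ⟨s, hs⟩ : ∃ s : ℝ, s = 1 / (1000000000 * (k + 10) ^ 2) := ⟨_, rfl⟩
  have hk0 : (0 : ℝ) ≤ k := Nat.cast_nonneg k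
  have hs0 : 0 < s := by rw [hs]; positivity
  have hsk : s * (k + 10) ^ 2 * 1000000000 = 1 := by
    rw [hs]
    field_simp
  have hs1 : s ≤ 1 / 100000000000 := by
    have h1 : (100 : ℝ) ≤ (k + 10) ^ 2 := by nlinarith
    nlinarith
  obtain ⟨δ, hδ, hn⟩ := near_of_part.{u} k (ε := s ^ 2) (by positivity)
  refine ⟨min δ (1 / 1000000), lt_min hδ (by norm_num), ?_⟩
  intro E _ _ _ _ _ A hA hD
  have hD1 := lt_of_lt_of_le hD (min_le_left _ _)
  have hD2 := lt_of_lt_of_le hD (min_le_right _ _)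
  obtain ⟨f, hf, g1, g2, g3⟩ := hn E A hA (by linarith)
  have hρ1 := rho_lo
  have hρ2 := rho_hi
  have hρ : 3 / (8 * Real.pi) = rho := rfl
  have hρ' : 3 / (16 * Real.pi) = rho / 2 := by
    rw [← hρ]
    field_simp
    norm_num
  rw [hρ] at g1
  rw [hρ'] at g2
  have hs2 : s ^ 2 ≤ 1 / 50 := by nlinarith
  have hG : Gram3 (s ^ 2) (fm (A (f 0))) (fm (A (f 1))) (fm (A (f 2))) :=
    ⟨(g1 0).le, (g1 1).le, (g1 2).le, (g2 0 1 (by decide)).le, (g2 1 2 (by decide)).le,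
      (g2 0 2 (by decide)).le⟩
  have hG' : Gram3 (1 / 50) (fm (A (f 0))) (fm (A (f 1))) (fm (A (f 2))) :=
    ⟨hG.n0.trans hs2, hG.n1.trans hs2, hG.n2.trans hs2, hG.i01.trans hs2, hG.i12.trans hs2,
      hG.i02.trans hs2⟩
  obtain ⟨u0, u1, u2, hu0, hu1, hu2, hus, hclose⟩ := exists_prop hG'
  -- notation
  obtain ⟨F, hF⟩ : ∃ F : ℝ, F = ∑ i, ‖fm (A i)‖ ^ 2 := ⟨_, rfl⟩
  obtain ⟨T, hT⟩ : ∃ T : ℝ, T = ∑ i ∈ Finset.univ.filter (fun i => ∀ j, f j ≠ i),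
    ‖fm (A i)‖ ^ 2 := ⟨_, rfl⟩
  have hFM : F ≤ MM ^ 2 := by rw [hF, MM_sq]; exact bdd k _ hA
  have hT0 : 0 ≤ T := by rw [hT]; exact Finset.sum_nonneg fun i _ => by positivity
  have hsplit := sum_split hf (fun i => ‖fm (A i)‖ ^ 2)
  rw [← hF] at hD1 hD2 ⊢
  obtain ⟨D, hDd⟩ : ∃ D : ℝ, D = MM ^ 2 - F := ⟨_, rfl⟩
  rw [← hDd] at hD1 hD2 ⊢
  have hD0 : 0 ≤ D := by rw [hDd]; linarith
  have hfF : (∑ i, ‖fm (A i)‖ ^ 2) = F := hF.symm
  rw [hfF, ← hT] at hsplit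
  have hTk : T ≤ k * s ^ 2 := by
    have h1 : T ≤ ∑ i ∈ Finset.univ.filter (fun i => ∀ j, f j ≠ i), s ^ 2 := by
      rw [hT]
      refine Finset.sum_le_sum fun i hi => ?_
      rw [Finset.mem_filter] at hi
      refine (g3 i ?_).le
      rintro ⟨j, hj⟩
      exact hi.2 j hj
    refine h1.trans ?_
    rw [Finset.sum_const, nsmul_eq_mul]
    have h2 : ((Finset.univ.filter (fun i => ∀ j, f j ≠ i)).card : ℝ) ≤ k := by
      have := Finset.card_le_univ (Finset.univ.filter (fun i : Fin k => ∀ j, f j ≠ i))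
      rw [Fintype.card_fin] at this
      exact_mod_cast this
    exact mul_le_mul_of_nonneg_right h2 (sq_nonneg s)
  have hti : ∀ i, (∀ j, f j ≠ i) → ‖fm (A i)‖ ^ 2 ≤ T := by
    intro i hi
    rw [hT]
    exact Finset.single_le_sum (f := fun i => ‖fm (A i)‖ ^ 2) (fun i _ => by positivity)
      (show i ∈ Finset.univ.filter (fun i => ∀ j, f j ≠ i) by
        rw [Finset.mem_filter]; exact ⟨Finset.mem_univ _, hi⟩)
  obtain ⟨t, ht⟩ : ∃ t : ℝ, t = √T := ⟨_, rfl⟩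
  have ht0 : 0 ≤ t := by rw [ht]; exact Real.sqrt_nonneg T
  have ht2 : t ^ 2 = T := by rw [ht]; exact Real.sq_sqrt hT0
  have hti' : ∀ i, (∀ j, f j ≠ i) → ‖fm (A i)‖ ≤ t := fun i hi =>
    le_of_sq_le_sq (by rw [ht2]; exact hti i hi) ht0
  have hts : t ≤ (k + 1) * s := by
    refine le_of_sq_le_sq ?_ (by positivity)
    rw [ht2]
    refine hTk.trans ?_
    nlinarith [sq_nonneg s]
  -- a priori closeness
  have hsum2 : ‖fm (A (f 0)) + fm (A (f 1)) + fm (A (f 2))‖ ≤ 3 * s := by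
    refine le_of_sq_le_sq ?_ (by positivity)
    have es : ‖fm (A (f 0)) + fm (A (f 1)) + fm (A (f 2))‖ ^ 2 = ‖fm (A (f 0))‖ ^ 2 +
        ‖fm (A (f 1))‖ ^ 2 + ‖fm (A (f 2))‖ ^ 2 + 2 * (⟪fm (A (f 0)), fm (A (f 1))⟫ +
        ⟪fm (A (f 1)), fm (A (f 2))⟫ + ⟪fm (A (f 0)), fm (A (f 2))⟫) := by
      rw [norm_add_sq_real, norm_add_sq_real, inner_add_left]
      ring
    rw [es]
    have k0 := (abs_le.1 hG.n0).2
    have k1 := (abs_le.1 hG.n1).2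
    have k2 := (abs_le.1 hG.n2).2
    have k01 := (abs_le.1 hG.i01).2
    have k12 := (abs_le.1 hG.i12).2
    have k02 := (abs_le.1 hG.i02).2
    nlinarith only [k0, k1, k2, k01, k12, k02]
  have hap := hclose (s ^ 2) (3 * s) hG hsum2
  -- the maximal distance
  obtain ⟨e, he⟩ : ∃ e : ℝ, e = max ‖fm (A (f 0)) - rr • u0‖
    (max ‖fm (A (f 1)) - rr • u1‖ ‖fm (A (f 2)) - rr • u2‖) := ⟨_, rfl⟩
  have he0 : ‖fm (A (f 0)) - rr • u0‖ ≤ e := by rw [he]; exact le_max_left _ _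
  have he1 : ‖fm (A (f 1)) - rr • u1‖ ≤ e := by
    rw [he]; exact (le_max_left _ _).trans (le_max_right _ _)
  have he2 : ‖fm (A (f 2)) - rr • u2‖ ≤ e := by
    rw [he]; exact (le_max_right _ _).trans (le_max_right _ _)
  have hen : 0 ≤ e := (norm_nonneg _).trans he0
  have hes : e ≤ 4 * s := by
    have h1 : 3 * s + 7 * s ^ 2 ≤ 4 * s := by nlinarith only [hs0, hs1]
    rw [he]
    exact max_le (hap.1.trans h1) (max_le (hap.2.1.trans h1) (hap.2.2.trans h1))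
  let u : Fin 3 → E := ![u0, u1, u2]
  have huj : ∀ j, ‖u j‖ = 1 := by
    intro j
    fin_cases j
    · exact hu0
    · exact hu1
    · exact hu2
  have hej : ∀ j, ‖fm (A (f j)) - rr • u j‖ ≤ e := by
    intro j
    fin_cases j
    · exact he0
    · exact he1
    · exact he2
  have hX := Phi_le_main (fun i => fm (A i)) (f := f) huj (show u 0 + u 1 + u 2 = 0 from hus)
    (y := t + e) (by positivity) (by
      intro i hi j
      have h1 := norm_sub_le (fm (A i)) (fm (A (f j)) - rr • u j)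
      have h2 := hti' i hi
      have h3 := hej j
      linarith)
  have hmain := deficit_ineq hA hf hX
  rw [← hT, ← hF, ← hDd] at hmain
  obtain ⟨Q, hQ⟩ : ∃ Q : ℝ, Q = (‖fm (A (f 0)) - fm (A (f 1))‖ -
      ‖fm (A (f 1)) - fm (A (f 2))‖) ^ 2 +
       (‖fm (A (f 1)) - fm (A (f 2))‖ - ‖fm (A (f 0)) - fm (A (f 2))‖) ^ 2 +
       (‖fm (A (f 0)) - fm (A (f 1))‖ - ‖fm (A (f 0)) - fm (A (f 2))‖) ^ 2 +
        3 * ‖fm (A (f 0)) + fm (A (f 1)) + fm (A (f 2))‖ ^ 2 := ⟨_, rfl⟩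
  rw [← hQ] at hmain
  have q1 : (‖fm (A (f 0)) - fm (A (f 1))‖ - ‖fm (A (f 1)) - fm (A (f 2))‖) ^ 2 ≤ Q := by
    rw [hQ]
    have := sq_nonneg (‖fm (A (f 1)) - fm (A (f 2))‖ - ‖fm (A (f 0)) - fm (A (f 2))‖)
    have := sq_nonneg (‖fm (A (f 0)) - fm (A (f 1))‖ - ‖fm (A (f 0)) - fm (A (f 2))‖)
    have := sq_nonneg ‖fm (A (f 0)) + fm (A (f 1)) + fm (A (f 2))‖
    linarith
  have q2 : (‖fm (A (f 1)) - fm (A (f 2))‖ - ‖fm (A (f 0)) - fm (A (f 2))‖) ^ 2 ≤ Q := by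
    rw [hQ]
    have := sq_nonneg (‖fm (A (f 0)) - fm (A (f 1))‖ - ‖fm (A (f 1)) - fm (A (f 2))‖)
    have := sq_nonneg (‖fm (A (f 0)) - fm (A (f 1))‖ - ‖fm (A (f 0)) - fm (A (f 2))‖)
    have := sq_nonneg ‖fm (A (f 0)) + fm (A (f 1)) + fm (A (f 2))‖
    linarith
  have q3 : (‖fm (A (f 0)) - fm (A (f 1))‖ - ‖fm (A (f 0)) - fm (A (f 2))‖) ^ 2 ≤ Q := by
    rw [hQ]
    have := sq_nonneg (‖fm (A (f 0)) - fm (A (f 1))‖ - ‖fm (A (f 1)) - fm (A (f 2))‖)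
    have := sq_nonneg (‖fm (A (f 1)) - fm (A (f 2))‖ - ‖fm (A (f 0)) - fm (A (f 2))‖)
    have := sq_nonneg ‖fm (A (f 0)) + fm (A (f 1)) + fm (A (f 2))‖
    linarith
  have q4 : ‖fm (A (f 0)) + fm (A (f 1)) + fm (A (f 2))‖ ^ 2 ≤ Q := by
    rw [hQ]
    have := sq_nonneg (‖fm (A (f 0)) - fm (A (f 1))‖ - ‖fm (A (f 1)) - fm (A (f 2))‖)
    have := sq_nonneg (‖fm (A (f 1)) - fm (A (f 2))‖ - ‖fm (A (f 0)) - fm (A (f 2))‖)
    have := sq_nonneg (‖fm (A (f 0)) - fm (A (f 1))‖ - ‖fm (A (f 0)) - fm (A (f 2))‖)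
    have := sq_nonneg ‖fm (A (f 0)) + fm (A (f 1)) + fm (A (f 2))‖
    linarith
  have hQ0 : 0 ≤ Q := (sq_nonneg _).trans q1
  have hyK : 18 * (k : ℝ) * (t + e) ≤ 1 / 1000000 := by
    have h1 : t + e ≤ (k + 10) * s := by
      have : (k + 1) * s + 4 * s ≤ (k + 10) * s := by nlinarith only [hs0]
      linarith
    have h2 : 18 * (k : ℝ) * (t + e) ≤ 18 * (k + 10) * ((k + 10) * s) :=
      mul_le_mul (by linarith) h1 (by positivity) (by positivity)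
    nlinarith only [h2, hsk]
  have hT1 : T ≤ 1 / 1000 := by
    have h2 : T ≤ ((k + 1) * s) ^ 2 := by rw [← ht2]; exact pow_le_pow_left₀ ht0 hts 2
    have h3 : (k + 1) * s ≤ 1 / 1000 := by nlinarith only [hsk, hs0, hk0]
    have h4 : 0 ≤ (k + 1) * s := by positivity
    nlinarith only [h2, h3, h4]
  have hQ1 : Q ≤ 1 / 100 := by
    have h1 : 18 * (k : ℝ) * (t + e) ^ 3 ≤ 1 / 1000000 * (t + e) ^ 2 := by
      have : 18 * (k : ℝ) * (t + e) ^ 3 = (18 * k * (t + e)) * (t + e) ^ 2 := by ring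
      rw [this]
      exact mul_le_mul_of_nonneg_right hyK (sq_nonneg _)
    have h2 : t + e ≤ 1 := by
      have h3 : (k + 1) * s ≤ 1 / 1000 := by nlinarith only [hsk, hs0, hk0]
      linarith only [hts, hes, h3, hs1]
    have h3 : (t + e) ^ 2 ≤ 1 := by
      have : 0 ≤ t + e := by positivity
      nlinarith only [h2, this]
    linarith only [hmain, h1, h3, hD2, hT0]
  obtain ⟨q, hq⟩ : ∃ q : ℝ, q = √Q + D + T := ⟨_, rfl⟩
  have hsQ : √Q ≤ 1 / 10 := by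
    rw [Real.sqrt_le_left (by norm_num)]
    linarith only [hQ1]
  have hq0 : 0 ≤ q := by rw [hq]; positivity
  have hq1 : q ≤ 1 := by rw [hq]; linarith only [hsQ, hD2, hT1]
  have hsq : ∀ a : ℝ, a ^ 2 ≤ Q → |a| ≤ q := by
    intro a ha
    have h1 : |a| ≤ √Q := Real.abs_le_sqrt ha
    rw [hq]
    linarith only [h1, hD0, hT0]
  have hSd : ‖fm (A (f 0))‖ ^ 2 + ‖fm (A (f 1))‖ ^ 2 + ‖fm (A (f 2))‖ ^ 2 - 3 * rho = -(D + T) := by
    rw [← MM_sq', hDd]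
    linarith only [hsplit]
  have hG5 := gram3_of_q (q := q) hq0 hq1 (by
      rw [hSd, abs_neg, abs_of_nonneg (by positivity), hq]
      linarith only [Real.sqrt_nonneg Q]) (by linarith only [hSd, hD0, hT0])
    (hsq _ q1) (hsq _ q2) (hsq _ q3) (by
      have := hsq _ q4
      rwa [abs_norm] at this)
  have hap2 := hclose (5 * q) q hG5 (by
      have := hsq _ q4
      rwa [abs_norm] at this)
  have heq : e ≤ 36 * (√Q + D + T) := by
    rw [← hq]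
    have h1 : q + 7 * (5 * q) = 36 * q := by ring
    rw [h1] at hap2
    rw [he]
    exact max_le hap2.1 (max_le hap2.2.1 hap2.2.2)
  obtain ⟨r1, r2⟩ := absorb hT0 hQ0 hD0 (by linarith only [hD2]) (by linarith only [hT1]) hen ht0
    ht2 hk0 rfl hyK heq hmain
  have hsD0 := Real.sqrt_nonneg D
  have hsD : √D ^ 2 = D := Real.sq_sqrt hD0
  have hsD1 : √D ≤ 1 / 1000 := by
    rw [Real.sqrt_le_left (by norm_num)]
    linarith only [hD2]
  have hef : e ≤ 252 * √D := by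
    have h1 : √Q ≤ 4 * √D := by
      rw [Real.sqrt_le_left (by positivity), mul_pow, hsD]
      linarith only [r2, hD0]
    have h2 : D + T ≤ 3 * √D := by
      have h3 : D ≤ √D := by nlinarith only [hsD, hsD0, hsD1]
      linarith only [h3, r1]
    linarith only [heq, h1, h2]
  refine ⟨u, f, huj, hus, hf, fun j => (hej j).trans hef, fun i hi => (hti' i hi).trans ?_⟩
  refine le_of_sq_le_sq ?_ (by positivity)
  rw [ht2, mul_pow, hsD]
  linarith only [r1, hD0]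

end Vale.Agent.P226.S765
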