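import Vale.Agent.P226.H765.Sets

set_option linter.all false

/-!
# P226, stability: assembly
-/

open MeasureTheory ProbabilityTheory Set Filter Topology
open scoped RealInnerProductSpace

namespace Vale.Agent.P226.S765

open K3 Eqc

universe u

variable {E : Type*} [NormedAddCommGroup E] [InnerProductSpace ℝ E] [FiniteDimensional ℝ E]
  [MeasurableSpace E] [BorelSpace E]

/-- The conclusion of the stability theorem. -/
def Concl {k : ℕ} (C : ℝ) (A : Fin k → Set E) : Prop :=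
  ∃ (u : Fin 3 → E) (f : Fin 3 → Fin k), (∀ j, ‖u j‖ = 1) ∧ ∑ j, u j = 0 ∧
    Function.Injective f ∧
    (∀ j, (stdGaussian E).real (symmDiff (A (f j)) {x | ∀ l, ⟪u l, x⟫ ≤ ⟪u j, x⟫}) ≤
      C * √(9 / (8 * Real.pi) - ∑ i, ‖∫ x in A i, x ∂(stdGaussian E)‖ ^ 2)) ∧
    (stdGaussian E).real (⋃ i ∈ (Set.range f)ᶜ, A i) ≤
      C * √(9 / (8 * Real.pi) - ∑ i, ‖∫ x in A i, x ∂(stdGaussian E)‖ ^ 2)

lemma Concl.mono {k : ℕ} {C C' : ℝ} {A : Fin k → Set E} (h : Concl C A) (hC : C ≤ C') :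
    Concl C' A := by
  obtain ⟨u, f, h1, h2, h3, h4, h5⟩ := h
  exact ⟨u, f, h1, h2, h3, fun j => (h4 j).trans (mul_le_mul_of_nonneg_right hC
    (Real.sqrt_nonneg _)), h5.trans (mul_le_mul_of_nonneg_right hC (Real.sqrt_nonneg _))⟩

omit [MeasurableSpace E] [BorelSpace E] in
lemma exists_propeller (hd : 2 ≤ Module.finrank ℝ E) :
    ∃ u : Fin 3 → E, (∀ j, ‖u j‖ = 1) ∧ ∑ j, u j = 0 := by
  obtain ⟨b, hb⟩ : ∃ b : Fin 2 → E, Orthonormal ℝ b := by
    let B := stdOrthonormalBasis ℝ E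
    exact ⟨fun i => B (Fin.castLE hd i), B.orthonormal.comp _ (Fin.castLE_injective hd)⟩
  have h0 : ‖b 0‖ = 1 := hb.1 0
  have h1 : ‖b 1‖ = 1 := hb.1 1
  have h01 : ⟪b 0, b 1⟫ = 0 := hb.2 (by decide)
  have hs3 : (√3 / 2) ^ 2 = (3 / 4 : ℝ) := by
    rw [div_pow, Real.sq_sqrt (by norm_num)]
    norm_num
  refine ⟨![b 0, (-(1 / 2) : ℝ) • b 0 + (√3 / 2) • b 1, (-(1 / 2) : ℝ) • b 0 + (-(√3 / 2)) • b 1],
    fun j => ?_, ?_⟩
  · fin_cases j
    · exact h0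
    · have h2 := norm_comb h0 h1 h01 (-(1 / 2)) (√3 / 2)
      rw [hs3] at h2
      have h3 : ‖(-(1 / 2) : ℝ) • b 0 + (√3 / 2) • b 1‖ ^ 2 = 1 := by rw [h2]; norm_num
      exact (pow_eq_one_iff_of_nonneg (norm_nonneg _) two_ne_zero).1 h3
    · have h2 := norm_comb h0 h1 h01 (-(1 / 2)) (-(√3 / 2))
      rw [neg_sq (√3 / 2), hs3] at h2
      have h3 : ‖(-(1 / 2) : ℝ) • b 0 + (-(√3 / 2)) • b 1‖ ^ 2 = 1 := by rw [h2]; norm_num
      exact (pow_eq_one_iff_of_nonneg (norm_nonneg _) two_ne_zero).1 h3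
  · rw [Fin.sum_univ_three]
    simp only [Matrix.cons_val_zero, Matrix.cons_val_one, Matrix.cons_val_two, Matrix.head_cons,
      Matrix.tail_cons, Matrix.cons_val]
    module

/-- Large deficit: nothing to prove. -/
lemma concl_triv {k : ℕ} (hk : 3 ≤ k) (hd : 2 ≤ Module.finrank ℝ E) {A : Fin k → Set E} {δ : ℝ}
    (hδ : 0 < δ) (h : δ ≤ 9 / (8 * Real.pi) - ∑ i, ‖∫ x in A i, x ∂(stdGaussian E)‖ ^ 2) :
    Concl (1 / √δ) A := by
  obtain ⟨u, h1, h2⟩ := exists_propeller hd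
  have hs : 0 < √δ := Real.sqrt_pos.2 hδ
  have h3 : 1 ≤ 1 / √δ * √(9 / (8 * Real.pi) - ∑ i, ‖∫ x in A i, x ∂(stdGaussian E)‖ ^ 2) := by
    have h4 := Real.sqrt_le_sqrt h
    rw [one_div, inv_mul_eq_div, one_le_div hs]
    exact h4
  exact ⟨u, fun j => Fin.castLE hk j, h1, h2, Fin.castLE_injective hk,
    fun j => measureReal_le_one.trans h3, measureReal_le_one.trans h3⟩

/-- Invariance under modification on null sets. -/
lemma Concl.congr {k : ℕ} {C : ℝ} {A B : Fin k → Set E} (h : Concl C A)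
    (hAB : ∀ i, A i =ᵐ[stdGaussian E] B i) : Concl C B := by
  obtain ⟨u, f, h1, h2, h3, h4, h5⟩ := h
  have e1 : ∀ i, ∫ x in A i, x ∂(stdGaussian E) = ∫ x in B i, x ∂(stdGaussian E) := fun i =>
    setIntegral_congr_set (hAB i)
  simp_rw [e1] at h4 h5
  refine ⟨u, f, h1, h2, h3, fun j => ?_, ?_⟩
  · refine le_trans (le_of_eq ?_) (h4 j)
    exact measureReal_congr ((hAB (f j)).symm.symmDiff (ae_eq_refl _))
  · refine le_trans (le_of_eq ?_) h5
    refine measureReal_congr ?_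
    exact EventuallyEq.countable_bUnion (Set.to_countable _) fun i _ => (hAB i).symm

/-- Small deficit. -/
lemma concl_near {k : ℕ} [Nonempty (Fin k)] {A : Fin k → Set E} (hA : IsPart A)
    {u : Fin 3 → E} {f : Fin 3 → Fin k} (hu : ∀ j, ‖u j‖ = 1) (hus : u 0 + u 1 + u 2 = 0)
    (hf : Function.Injective f)
    (hD : MM ^ 2 - ∑ i, ‖fm (A i)‖ ^ 2 ≤ 1 / 100000000)
    (h1 : ∀ j, ‖fm (A (f j)) - rr • u j‖ ≤ 252 * √(MM ^ 2 - ∑ i, ‖fm (A i)‖ ^ 2))
    (h2 : ∀ i, (∀ j, f j ≠ i) → ‖fm (A i)‖ ≤ 2 * √(MM ^ 2 - ∑ i, ‖fm (A i)‖ ^ 2)) :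
    Concl (20000 * (k + 3)) A := by
  classical
  obtain ⟨D, hDd⟩ : ∃ D : ℝ, D = MM ^ 2 - ∑ i, ‖fm (A i)‖ ^ 2 := ⟨_, rfl⟩
  rw [← hDd] at hD h1 h2
  have hs0 := Real.sqrt_nonneg D
  have hs1 : √D ≤ 1 / 10000 := by
    rw [Real.sqrt_le_left (by norm_num)]
    linarith
  have h3 : ∀ j i, f j ≠ i → (stdGaussian E).real (sec u j ∩ A i) ≤ 6100 * √D := by
    intro j i hij
    have h4 := sec_inter_le hA hu hus hf (c := 252 * √D) (by positivity) (by linarith) h1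
      (fun i hi => (h2 i hi).trans (by linarith)) j i hij
    rw [← hDd] at h4
    linarith
  obtain ⟨h4, h5⟩ := sets_le hA hf (by positivity) h3
  have hk0 : (0 : ℝ) ≤ k := Nat.cast_nonneg k
  have hDe : 9 / (8 * Real.pi) - ∑ i, ‖∫ x in A i, x ∂(stdGaussian E)‖ ^ 2 = D := by
    rw [hDd, MM_sq]
    rfl
  refine ⟨u, f, hu, by rw [Fin.sum_univ_three]; exact hus, hf, fun j => ?_, ?_⟩
  · rw [hDe]
    refine (h4 j).trans ?_
    nlinarith
  · rw [hDe]
    have hsub : (⋃ i ∈ (Set.range f)ᶜ, A i) ⊆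
        ⋃ i ∈ Finset.univ.filter (fun i => ∀ j, f j ≠ i), A i := by
      intro x hx
      simp only [mem_iUnion] at hx ⊢
      obtain ⟨i, hi, hx⟩ := hx
      refine ⟨i, ?_, hx⟩
      rw [Finset.mem_filter]
      exact ⟨Finset.mem_univ _, fun j hj => hi ⟨j, hj⟩⟩
    refine (measureReal_mono hsub (measure_ne_top _ _)).trans
      ((measureReal_biUnion_finset_le _ _).trans ?_)
    calc ∑ i ∈ Finset.univ.filter (fun i => ∀ j, f j ≠ i), (stdGaussian E).real (A i)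
        ≤ ∑ i ∈ Finset.univ.filter (fun i => ∀ j, f j ≠ i), 3 * (6100 * √D) :=
          Finset.sum_le_sum fun i hi => h5 i (by
            rw [Finset.mem_filter] at hi
            exact hi.2)
      _ ≤ ∑ _i : Fin k, 3 * (6100 * √D) :=
          Finset.sum_le_sum_of_subset_of_nonneg (Finset.filter_subset _ _)
            fun _ _ _ => by positivity
      _ = k * (3 * (6100 * √D)) := by
        rw [Finset.sum_const, Finset.card_univ, Fintype.card_fin, nsmul_eq_mul]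
      _ ≤ 20000 * (k + 3) * √D := by nlinarith

/-- **Stability, for each number of cells, in every dimension.** -/
theorem stab_k (k : ℕ) (hk : 3 ≤ k) :
    ∃ C : ℝ, 0 < C ∧ ∀ (E : Type u) [NormedAddCommGroup E] [InnerProductSpace ℝ E]
      [FiniteDimensional ℝ E] [MeasurableSpace E] [BorelSpace E], 2 ≤ Module.finrank ℝ E →
      ∀ A : Fin k → Set E, (∀ i, NullMeasurableSet (A i) (stdGaussian E)) →
      (Pairwise fun i j => AEDisjoint (stdGaussian E) (A i) (A j)) →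
      (∀ᵐ x ∂(stdGaussian E), x ∈ ⋃ i, A i) → Concl C A := by
  have : Nonempty (Fin k) := ⟨⟨0, by omega⟩⟩
  obtain ⟨δ, hδ, hc⟩ := core.{u} k
  set δ' := min δ (1 / 100000000) with hδ'
  have hδ'0 : 0 < δ' := lt_min hδ (by norm_num)
  refine ⟨max (1 / √δ') (20000 * (k + 3)), lt_max_of_lt_right (by positivity), ?_⟩
  intro E _ _ _ _ _ hE A hm hd hcov
  obtain ⟨B, hB, hBA⟩ := exists_isPart (Classical.arbitrary (Fin k)) hm
    (fun i j hij => hd hij) hcov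
  refine Concl.congr ?_ hBA
  rcases le_or_gt δ' (MM ^ 2 - ∑ i, ‖fm (B i)‖ ^ 2) with h | h
  · refine (concl_triv hk hE hδ'0 ?_).mono (le_max_left _ _)
    rw [MM_sq] at h
    exact h
  · obtain ⟨u, f, h1, h2, h3, h4, h5⟩ := hc E B hB (h.trans_le (min_le_left _ _))
    exact (concl_near hB h1 h2 h3 ((h.trans_le (min_le_right _ _)).le) h4 h5).mono
      (le_max_right _ _)

end Vale.Agent.P226.S765
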