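import Vale.Agent.P226.H765.Merge

set_option linter.all false

/-!
# P226, stability: the moments of near maximisers, uniformly in the number of cells
-/

open MeasureTheory ProbabilityTheory Set Filter Topology
open scoped RealInnerProductSpace

namespace Vale.Agent.P226.S765

open K3 Eqc

universe u

variable {E : Type*} [NormedAddCommGroup E] [InnerProductSpace ℝ E] [FiniteDimensional ℝ E]
  [MeasurableSpace E] [BorelSpace E]

/-- The map which merges `j` into `i`. -/
def mg {k : ℕ} (i j : Fin k) (l : Fin k) : Fin k := if l = j then i else l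

section merge

variable {k : ℕ} {A : Fin k → Set E} {i j : Fin k}

lemma fm_mg_i (hA : IsPart A) (hij : i ≠ j) : fm (push A (mg i j) i) = fm (A i) + fm (A j) := by
  classical
  rw [fm_push' hA]
  have : Finset.univ.filter (fun l => mg i j l = i) = {i, j} := by
    ext l
    simp only [Finset.mem_filter, Finset.mem_univ, true_and, Finset.mem_insert,
      Finset.mem_singleton, mg]
    by_cases h : l = j
    · simp [h]
    · simp [h]
  rw [this, Finset.sum_pair hij]

lemma fm_mg_j (hA : IsPart A) (hij : i ≠ j) : fm (push A (mg i j) j) = 0 := by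
  classical
  rw [fm_push' hA]
  have : Finset.univ.filter (fun l => mg i j l = j) = ∅ := by
    rw [Finset.filter_eq_empty_iff]
    intro l _
    simp only [mg]
    by_cases h : l = j
    · simp [h, hij]
    · simp [h]
  rw [this, Finset.sum_empty]

lemma fm_mg_of_ne (hA : IsPart A) {l : Fin k} (hi : l ≠ i) (hj : l ≠ j) :
    fm (push A (mg i j) l) = fm (A l) := by
  classical
  rw [fm_push' hA]
  have : Finset.univ.filter (fun m => mg i j m = l) = {l} := by
    ext m
    rw [Finset.mem_filter, Finset.mem_singleton]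
    constructor
    · rintro ⟨-, h1⟩
      unfold mg at h1
      by_cases h : m = j
      · rw [if_pos h] at h1
        exact absurd h1.symm hi
      · rwa [if_neg h] at h1
    · rintro rfl
      refine ⟨Finset.mem_univ _, ?_⟩
      unfold mg
      rw [if_neg hj]
  rw [this, Finset.sum_singleton]

lemma sum_mg (hA : IsPart A) (hij : i ≠ j) :
    ∑ l, ‖fm (push A (mg i j) l)‖ ^ 2 = ∑ l, ‖fm (A l)‖ ^ 2 + 2 * ⟪fm (A i), fm (A j)⟫ := by
  classical
  have hi : i ∈ Finset.univ.erase j := by simp [hij]
  rw [← Finset.add_sum_erase Finset.univ (fun l => ‖fm (push A (mg i j) l)‖ ^ 2)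
      (Finset.mem_univ j), ← Finset.add_sum_erase _ (fun l => ‖fm (push A (mg i j) l)‖ ^ 2) hi,
    ← Finset.add_sum_erase Finset.univ (fun l => ‖fm (A l)‖ ^ 2) (Finset.mem_univ j),
    ← Finset.add_sum_erase _ (fun l => ‖fm (A l)‖ ^ 2) hi]
  have h2 : ∑ l ∈ (Finset.univ.erase j).erase i, ‖fm (push A (mg i j) l)‖ ^ 2
      = ∑ l ∈ (Finset.univ.erase j).erase i, ‖fm (A l)‖ ^ 2 := by
    refine Finset.sum_congr rfl fun l hl => ?_
    rw [Finset.mem_erase, Finset.mem_erase] at hl
    rw [fm_mg_of_ne hA hl.1 hl.2.1]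
  rw [h2, fm_mg_i hA hij, fm_mg_j hA hij, norm_add_sq_real]
  simp only [norm_zero]
  ring

end merge

lemma exists_phi_set {k : ℕ} {S : Finset (Fin k)} (hc : S.card ≤ 4) :
    ∃ φ : Fin k → Fin 5, (∀ i j, φ i = φ j → φ i ≠ 4 → i = j) ∧ ∀ l, φ l = 4 → l ∉ S := by
  classical
  obtain ⟨g⟩ : Nonempty (S ↪ Fin 4) := by
    rw [Function.Embedding.nonempty_iff_card_le]
    simpa using hc
  refine ⟨fun i => if hi : i ∈ S then (g ⟨i, hi⟩).castSucc else 4, ?_, ?_⟩
  · intro i j hij hi4
    by_cases hi : i ∈ S
    · by_cases hj : j ∈ S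
      · simp only [dif_pos hi, dif_pos hj] at hij
        have h1 := g.injective (Fin.castSucc_injective _ hij)
        exact congrArg Subtype.val h1
      · exfalso
        apply hi4
        rw [hij]
        simp only [dif_neg hj]
    · exfalso
      apply hi4
      simp only [dif_neg hi]
  · intro i hi hiS
    simp only [dif_pos hiS] at hi
    have h2 : ((g ⟨i, hiS⟩).castSucc : Fin 5).val = 4 := by rw [hi]; rfl
    have h3 := (g ⟨i, hiS⟩).isLt
    simp only [Fin.val_castSucc] at h2
    omega

lemma exists_phi_merge {k : ℕ} (f : Fin 3 → Fin k) (j : Fin k) :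
    ∃ φ : Fin k → Fin 5, (∀ a b, φ a = φ b → φ a ≠ 4 → a = b) ∧
      ∀ l, φ l = 4 → l ≠ j ∧ ∀ m, f m ≠ l := by
  classical
  obtain ⟨φ, h1, h2⟩ := exists_phi_set (S := insert j (Finset.univ.image f)) (by
    refine (Finset.card_insert_le _ _).trans ?_
    have := Finset.card_image_le (s := (Finset.univ : Finset (Fin 3))) (f := f)
    rw [Finset.card_univ, Fintype.card_fin] at this
    omega)
  refine ⟨φ, h1, fun l hl => ⟨fun h => h2 l hl ?_, fun m hm => h2 l hl ?_⟩⟩
  · rw [h]; exact Finset.mem_insert_self _ _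
  · rw [← hm]
    exact Finset.mem_insert_of_mem (Finset.mem_image_of_mem f (Finset.mem_univ m))

/-- **The moments of a near maximiser, with constants independent of the number of cells and of the
dimension.** -/
theorem near_free : ∃ δ : ℝ, 0 < δ ∧ ∀ (E : Type u) [NormedAddCommGroup E]
      [InnerProductSpace ℝ E] [FiniteDimensional ℝ E] [MeasurableSpace E] [BorelSpace E] (k : ℕ)
      [Nonempty (Fin k)] (A : Fin k → Set E), IsPart A →
      MM ^ 2 - ∑ i, ‖fm (A i)‖ ^ 2 < δ →
      ∃ f : Fin 3 → Fin k, Function.Injective f ∧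
        Gram3 (s0 ^ 2) (fm (A (f 0))) (fm (A (f 1))) (fm (A (f 2))) ∧
        ∑ i ∈ Finset.univ.filter (fun i => ∀ j, f j ≠ i), ‖fm (A i)‖ ^ 2 ≤
          2 * (MM ^ 2 - ∑ i, ‖fm (A i)‖ ^ 2) := by
  obtain ⟨δ1, hδ1, h5⟩ := five.{u}
  refine ⟨min δ1 (1 / 1000000), lt_min hδ1 (by norm_num), ?_⟩
  intro E _ _ _ _ _ k _
  classical
  have main : ∀ (n : ℕ) (A : Fin k → Set E) (S : Finset (Fin k)), IsPart A →
      (∀ j, j ∈ S ↔ fm (A j) ≠ 0) → S.card = n →
      MM ^ 2 - ∑ i, ‖fm (A i)‖ ^ 2 < min δ1 (1 / 1000000) →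
      ∃ f : Fin 3 → Fin k, Function.Injective f ∧
        Gram3 (s0 ^ 2) (fm (A (f 0))) (fm (A (f 1))) (fm (A (f 2))) ∧
        ∑ i ∈ Finset.univ.filter (fun i => ∀ j, f j ≠ i), ‖fm (A i)‖ ^ 2 ≤
          2 * (MM ^ 2 - ∑ i, ‖fm (A i)‖ ^ 2) := by
    intro n
    induction n using Nat.strong_induction_on with
    | _ n ih =>
      intro A S hA hS hSn hD
      have hD1 := lt_of_lt_of_le hD (min_le_left _ _)
      have hD2 := lt_of_lt_of_le hD (min_le_right _ _)
      have hD0 : 0 ≤ MM ^ 2 - ∑ i, ‖fm (A i)‖ ^ 2 := by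
        have : ∑ i, ‖fm (A i)‖ ^ 2 ≤ MM ^ 2 := by rw [MM_sq]; exact bdd k _ hA
        linarith
      have fin : ∀ φ : Fin k → Fin 5, (∀ i j, φ i = φ j → φ i ≠ 4 → i = j) →
          ∑ i ∈ Finset.univ.filter (fun i => φ i = 4), ‖fm (A i)‖ ^ 2 ≤
            1000 * (MM ^ 2 - ∑ i, ‖fm (A i)‖ ^ 2) →
          ∃ f : Fin 3 → Fin k, Function.Injective f ∧
            Gram3 (s0 ^ 2) (fm (A (f 0))) (fm (A (f 1))) (fm (A (f 2))) ∧
            ∑ i ∈ Finset.univ.filter (fun i => ∀ j, f j ≠ i), ‖fm (A i)‖ ^ 2 ≤
              2 * (MM ^ 2 - ∑ i, ‖fm (A i)‖ ^ 2) := by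
        intro φ hφ hR
        obtain ⟨f, hf, hG, hT⟩ := h5 E k A φ hA hφ hR hD1
        obtain ⟨u, -, -, -, hT2⟩ := boot hA hf s0_pos (by unfold s0; norm_num) hG hT hD2
        exact ⟨f, hf, hG, hT2⟩
      by_cases hob : ∀ i j, i ≠ j → fm (A i) ≠ 0 → fm (A j) ≠ 0 → ⟪fm (A i), fm (A j)⟫ < 0
      · rcases le_total S.card 4 with hc | hc
        · obtain ⟨φ, hφ, hR⟩ := exists_phi_small hS hc
          exact fin φ hφ (by rw [hR]; positivity)
        · obtain ⟨φ, hφ, hR⟩ := exists_phi_big hA hob (by linarith) hS hc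
          exact fin φ hφ hR
      · push Not at hob
        obtain ⟨i, j, hij, hi0, hj0, hin⟩ := hob
        have hA' : IsPart (push A (mg i j)) := isPart_push hA _
        have hsum := sum_mg hA hij
        have hiS : i ∈ S := (hS i).2 hi0
        have hjS : j ∈ S := (hS j).2 hj0
        have hcard : (Finset.univ.filter fun l => fm (push A (mg i j) l) ≠ 0).card < n := by
          rw [← hSn]
          refine lt_of_le_of_lt (Finset.card_le_card (t := S.erase j) ?_)
            (Finset.card_erase_lt_of_mem hjS)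
          intro l hl
          rw [Finset.mem_filter] at hl
          have hlj : l ≠ j := by
            rintro rfl
            exact hl.2 (fm_mg_j hA hij)
          rw [Finset.mem_erase]
          refine ⟨hlj, ?_⟩
          by_cases hli : l = i
          · rw [hli]; exact hiS
          · rw [hS, ← fm_mg_of_ne hA hli hlj]
            exact hl.2
        obtain ⟨f, hf, hG, hT⟩ := ih _ hcard (push A (mg i j)) _ hA'
          (fun l => by simp) rfl (by rw [hsum]; linarith)
        rw [hsum] at hT
        have hρ1 := rho_lo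
        have hs2 := s0_sq
        have hfj : ∀ m, f m ≠ j := by
          intro m hm
          have hz : fm (push A (mg i j) (f m)) = 0 := by rw [hm]; exact fm_mg_j hA hij
          have hgm : |‖fm (push A (mg i j) (f m))‖ ^ 2 - rho| ≤ s0 ^ 2 := by
            fin_cases m
            · exact hG.n0
            · exact hG.n1
            · exact hG.n2
          have := (abs_le.1 hgm).1
          rw [hz, norm_zero] at this
          linarith
        by_cases hfi : ∃ m, f m = i
        · -- the merged cell is one of the three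
          obtain ⟨φ, hφi, hφ4⟩ := exists_phi_merge f j
          refine fin φ hφi ?_
          · have h6 : ∑ l ∈ Finset.univ.filter (fun l => φ l = 4), ‖fm (A l)‖ ^ 2 ≤
                ∑ l ∈ Finset.univ.filter (fun l => ∀ m, f m ≠ l),
                  ‖fm (push A (mg i j) l)‖ ^ 2 := by
              calc ∑ l ∈ Finset.univ.filter (fun l => φ l = 4), ‖fm (A l)‖ ^ 2
                  = ∑ l ∈ Finset.univ.filter (fun l => φ l = 4),
                    ‖fm (push A (mg i j) l)‖ ^ 2 := by
                    refine Finset.sum_congr rfl fun l hl => ?_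
                    have h7 := hφ4 l (Finset.mem_filter.1 hl).2
                    obtain ⟨m, hm⟩ := hfi
                    rw [fm_mg_of_ne hA (fun h => h7.2 m (by rw [hm, h])) h7.1]
                _ ≤ _ := by
                    refine Finset.sum_le_sum_of_subset_of_nonneg ?_ fun _ _ _ => by positivity
                    intro l hl
                    rw [Finset.mem_filter]
                    exact ⟨Finset.mem_univ _, (hφ4 l (Finset.mem_filter.1 hl).2).2⟩
            linarith
        · -- the merged cell belongs to the tail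
          push Not at hfi
          have hfe : ∀ m, fm (push A (mg i j) (f m)) = fm (A (f m)) := fun m =>
            fm_mg_of_ne hA (hfi m) (hfj m)
          rw [hfe, hfe, hfe] at hG
          refine ⟨f, hf, hG, ?_⟩
          have h1 := sum_split hf (fun l => ‖fm (A l)‖ ^ 2)
          have h2 := sum_split hf (fun l => ‖fm (push A (mg i j) l)‖ ^ 2)
          simp only [hfe] at h2
          linarith
  intro A hA hD
  exact main _ A (Finset.univ.filter fun l => fm (A l) ≠ 0) hA (fun l => by simp) rfl hD

end Vale.Agent.P226.S765
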