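import Vale.Agent.P226.H765.Geo

set_option linter.all false

/-!
# P226, stability: Gaussian estimates
-/

open MeasureTheory ProbabilityTheory Set
open scoped RealInnerProductSpace

namespace Vale.Agent.P226.S765

open K3

variable {E : Type*} [NormedAddCommGroup E] [InnerProductSpace ℝ E] [FiniteDimensional ℝ E]
  [MeasurableSpace E] [BorelSpace E]

lemma sub_arctan_le {s : ℝ} (hs : 0 ≤ s) : s - Real.arctan s ≤ s ^ 3 / 3 := by
  have hd : ∀ t : ℝ, HasDerivAt (fun t : ℝ => t ^ 3 / 3 - t + Real.arctan t)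
      (t ^ 2 - 1 + 1 / (1 + t ^ 2)) t := by
    intro t
    have h1 := (((hasDerivAt_id t).pow 3).div_const 3).sub (hasDerivAt_id t)
    have h2 := h1.add (Real.hasDerivAt_arctan t)
    convert! h2 using 1
    simp
  have hm : MonotoneOn (fun t : ℝ => t ^ 3 / 3 - t + Real.arctan t) (Ici 0) := by
    refine monotoneOn_of_deriv_nonneg (convex_Ici 0)
      (fun t _ => (hd t).continuousAt.continuousWithinAt)
      (fun t _ => (hd t).differentiableAt.differentiableWithinAt) fun t _ => ?_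
    rw [(hd t).deriv]
    have h3 : (0 : ℝ) < 1 + t ^ 2 := by positivity
    have h4 : t ^ 2 - 1 + 1 / (1 + t ^ 2) = t ^ 4 / (1 + t ^ 2) := by
      field_simp
      ring
    rw [h4]
    positivity
  have h5 := hm (mem_Ici.2 le_rfl) (mem_Ici.2 hs) hs
  simp only [Real.arctan_zero] at h5
  norm_num at h5
  linarith

lemma sqrt_two_pi_ge : 2 ≤ √(2 * Real.pi) :=
  Real.le_sqrt_of_sq_le (by nlinarith [Real.pi_gt_d2])

/-- The excess over a plane threshold. -/
lemma excess_le {V : Submodule ℝ E} (hV : Module.finrank ℝ V = 2) (v : E) {c : ℝ} (hc : 0 < c) :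
    ∫ x, max (⟪v, x⟫ - c * ‖V.starProjection x‖) 0 ∂(stdGaussian E) ≤ ‖v‖ ^ 3 / (6 * c ^ 2) := by
  have h1 := G2vBound.of_finrank hV (c⁻¹ • v)
  have h2 : ∀ x : E, max (⟪v, x⟫ - c * ‖V.starProjection x‖) 0 =
      c * max (⟪c⁻¹ • v, x⟫ - ‖V.starProjection x‖) 0 := by
    intro x
    rw [mul_max_of_nonneg _ _ hc.le, mul_zero, real_inner_smul_left, mul_sub, ← mul_assoc,
      mul_inv_cancel₀ hc.ne', one_mul]
  simp_rw [h2]
  rw [integral_const_mul]
  have hn : ‖c⁻¹ • v‖ = ‖v‖ / c := by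
    rw [norm_smul, norm_inv, Real.norm_eq_abs, abs_of_pos hc]
    ring
  rw [hn] at h1
  have h3 := sub_arctan_le (s := ‖v‖ / c) (by positivity)
  have h4 := sqrt_two_pi_ge
  set I := ∫ x, max (⟪c⁻¹ • v, x⟫ - ‖V.starProjection x‖) 0 ∂(stdGaussian E) with hI
  have hI0 : 0 ≤ I := integral_nonneg fun x => le_max_right _ _
  have h5 : 2 * I ≤ √(2 * Real.pi) * I := mul_le_mul_of_nonneg_right h4 hI0
  have h6 : I ≤ (‖v‖ / c) ^ 3 / 6 := by linarith
  calc c * I ≤ c * ((‖v‖ / c) ^ 3 / 6) := mul_le_mul_of_nonneg_left h6 hc.le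
    _ = ‖v‖ ^ 3 / (6 * c ^ 2) := by
        field_simp

omit [MeasurableSpace E] [BorelSpace E] in
/-- The hull of a propeller contains a disk. -/
lemma exists_plane {u0 u1 u2 : E} (h0 : ‖u0‖ = 1) (h1 : ‖u1‖ = 1) (h2 : ‖u2‖ = 1)
    (hs : u0 + u1 + u2 = 0) :
    ∃ V : Submodule ℝ E, Module.finrank ℝ V = 2 ∧ ∀ (x : E) (m : ℝ), ⟪u0, x⟫ ≤ m → ⟪u1, x⟫ ≤ m →
      ⟪u2, x⟫ ≤ m → ‖V.starProjection x‖ ≤ 2 * m := by
  have hu2 : u2 = -(u0 + u1) := by rw [eq_neg_iff_add_eq_zero, add_comm]; exact hs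
  have h01 : ⟪u0, u1⟫ = -(1 / 2) := by
    have := norm_add_sq_real u0 u1
    rw [hu2, norm_neg] at h2
    rw [h2, h0, h1] at this
    linarith
  have hs3 : √3 ^ 2 = (3 : ℝ) := Real.sq_sqrt (by norm_num)
  have hs3p : 0 < √3 := Real.sqrt_pos.2 (by norm_num)
  obtain ⟨b, hb⟩ : ∃ b : E, b = (√3)⁻¹ • (u0 + (2 : ℝ) • u1) := ⟨_, rfl⟩
  have hbn : ‖b‖ = 1 := by
    have h3 : ‖b‖ ^ 2 = 1 := by
      rw [hb, norm_smul, mul_pow, norm_add_sq_real, norm_smul, h0, h1, real_inner_smul_right, h01,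
        Real.norm_eq_abs, sq_abs, inv_pow, hs3]
      norm_num
    exact (pow_eq_one_iff_of_nonneg (norm_nonneg _) two_ne_zero).1 h3
  have h0b : ⟪u0, b⟫ = 0 := by
    rw [hb, real_inner_smul_right, inner_add_right, real_inner_smul_right, h01,
      real_inner_self_eq_norm_sq, h0]
    norm_num
  have hli : LinearIndependent ℝ ![u0, b] := by
    rw [LinearIndependent.pair_iff]
    intro s t hst
    have e1 : ⟪u0, s • u0 + t • b⟫ = 0 := by rw [hst, inner_zero_right]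
    have e2 : ⟪b, s • u0 + t • b⟫ = 0 := by rw [hst, inner_zero_right]
    rw [inner_add_right, real_inner_smul_right, real_inner_smul_right, h0b,
      real_inner_self_eq_norm_sq, h0] at e1
    rw [inner_add_right, real_inner_smul_right, real_inner_smul_right, real_inner_comm, h0b,
      real_inner_self_eq_norm_sq, hbn] at e2
    constructor <;> linarith
  refine ⟨Submodule.span ℝ (Set.range ![u0, b]), ?_, ?_⟩
  · rw [finrank_span_eq_card hli, Fintype.card_fin]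
  · intro x m hm0 hm1 hm2
    set V := Submodule.span ℝ (Set.range ![u0, b]) with hV
    have hmem : V.starProjection x ∈ V := Submodule.starProjection_apply_mem V x
    have hmem' : V.starProjection x ∈ Submodule.span ℝ ({u0, b} : Set E) := by
      have : Set.range ![u0, b] = {u0, b} := by simp [Set.pair_comm]
      rw [← this]; exact hmem
    obtain ⟨s, t, hst⟩ := Submodule.mem_span_pair.1 hmem'
    have hn : ‖V.starProjection x‖ ^ 2 = s ^ 2 + t ^ 2 := by
      rw [← hst, norm_comb h0 hbn h0b]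
    have hn2 : ‖V.starProjection x‖ ^ 2 = s * ⟪u0, x⟫ + t * ⟪b, x⟫ := by
      have h5 : ⟪V.starProjection x, x - V.starProjection x⟫ = 0 := by
        rw [real_inner_comm]
        exact Submodule.starProjection_inner_eq_zero x _ hmem
      rw [inner_sub_right, real_inner_self_eq_norm_sq] at h5
      have h6 : ⟪V.starProjection x, x⟫ = s * ⟪u0, x⟫ + t * ⟪b, x⟫ := by
        rw [← hst, inner_add_left, real_inner_smul_left, real_inner_smul_left]
      linarith
    have h2x : ⟪u2, x⟫ = -(⟪u0, x⟫ + ⟪u1, x⟫) := by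
      rw [hu2, inner_neg_left, inner_add_left]
    have hbx : √3 * ⟪b, x⟫ = ⟪u0, x⟫ + 2 * ⟪u1, x⟫ := by
      rw [hb, real_inner_smul_left, inner_add_left, real_inner_smul_left, ← mul_assoc,
        mul_inv_cancel₀ hs3p.ne', one_mul]
    rw [h2x] at hm2
    set p := ⟪u0, x⟫ with hp
    set r := ⟪u1, x⟫ with hr
    set y := ⟪b, x⟫ with hy
    have hy2 : 3 * y ^ 2 = (p + 2 * r) ^ 2 := by
      rw [← hbx, mul_pow, hs3]
    have hm : 0 ≤ m := by linarith
    -- `‖P x‖² ≤ p² + y²`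
    have k1 : ‖V.starProjection x‖ ^ 2 ≤ p ^ 2 + y ^ 2 := by
      nlinarith [sq_nonneg (s - p), sq_nonneg (t - y)]
    have k2 : p ^ 2 + y ^ 2 ≤ (2 * m) ^ 2 := by
      -- 3(p² + y²) = 4(p² + p r + r²)
      nlinarith [mul_nonneg (sub_nonneg.2 hm0) (sub_nonneg.2 hm1),
        mul_nonneg (sub_nonneg.2 hm0) (sub_nonneg.2 hm2),
        mul_nonneg (sub_nonneg.2 hm1) (sub_nonneg.2 hm2)]
    exact le_of_sq_le_sq (k1.trans k2) (by linarith)

/-- Anticoncentration of one Gaussian coordinate. -/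
lemma small_ball (a : E) (ha : a ≠ 0) {s : ℝ} (hs : 0 ≤ s) :
    (stdGaussian E).real {x | |⟪a, x⟫| < s * ‖a‖} ≤ s := by
  have hn : 0 < ‖a‖ := norm_pos_iff.2 ha
  have h1 : stdGaussian E {x | |⟪a, x⟫| < s * ‖a‖} = gaussianReal 0 1 (Ioo (-s) s) := by
    have h2 : {x : E | |⟪a, x⟫| < s * ‖a‖} = (fun x => ⟪a, x⟫) ⁻¹' {y : ℝ | |y| < s * ‖a‖} := rfl
    have hm : MeasurableSet {y : ℝ | |y| < s * ‖a‖} :=
      measurableSet_lt (by fun_prop) measurable_const
    rw [h2, ← Measure.map_apply (by fun_prop) hm, map_inner_stdGaussian,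
      Measure.map_apply (by fun_prop) hm]
    congr 1
    ext t
    simp only [mem_preimage, mem_setOf_eq, mem_Ioo, ← abs_lt]
    rw [abs_mul, abs_norm, mul_comm]
    exact mul_lt_mul_iff_left₀ hn
  have h3 : gaussianReal 0 1 (Ioo (-s) s) ≤ ENNReal.ofReal s := by
    rw [gaussianReal_apply 0 one_ne_zero]
    have h4 : ∀ x : ℝ, gaussianPDF 0 1 x ≤ ENNReal.ofReal (1 / 2) := by
      intro x
      unfold gaussianPDF
      refine ENNReal.ofReal_le_ofReal ?_
      simp only [gaussianPDFReal]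
      have h5 : Real.exp (-(x - 0) ^ 2 / (2 * ((1 : NNReal) : ℝ))) ≤ 1 := by
        rw [Real.exp_le_one_iff]
        simp only [NNReal.coe_one, sub_zero, mul_one]
        have := sq_nonneg x
        linarith
      have h6 : (√(2 * Real.pi * ((1 : NNReal) : ℝ)))⁻¹ ≤ 1 / 2 := by
        rw [NNReal.coe_one, mul_one, one_div]
        exact inv_anti₀ (by norm_num) sqrt_two_pi_ge
      calc _ ≤ (√(2 * Real.pi * ((1 : NNReal) : ℝ)))⁻¹ * 1 :=
            mul_le_mul_of_nonneg_left h5 (by positivity)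
        _ ≤ 1 / 2 := by linarith
    calc ∫⁻ x in Ioo (-s) s, gaussianPDF 0 1 x ≤ ∫⁻ _ in Ioo (-s) s, ENNReal.ofReal (1 / 2) :=
          lintegral_mono fun x => h4 x
      _ = ENNReal.ofReal (1 / 2) * ENNReal.ofReal (s - -s) := by
          rw [lintegral_const, Measure.restrict_apply MeasurableSet.univ, univ_inter,
            Real.volume_Ioo]
      _ = ENNReal.ofReal s := by
          rw [← ENNReal.ofReal_mul (by norm_num)]
          congr 1
          ring
  rw [Measure.real, h1]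
  exact ENNReal.toReal_le_of_le_ofReal hs h3

/-- A set on which a linear form has small mean is small. -/
lemma sq_le_integral (a : E) (ha : a ≠ 0) {B : Set E} (hB : MeasurableSet B) :
    (stdGaussian E).real B ^ 2 * ‖a‖ ≤ 4 * ∫ x in B, |⟪a, x⟫| ∂(stdGaussian E) := by
  set m := (stdGaussian E).real B with hm
  have hm0 : 0 ≤ m := measureReal_nonneg
  set T : Set E := {x | |⟪a, x⟫| < m / 2 * ‖a‖} with hT
  have hTm : MeasurableSet T := measurableSet_lt (by fun_prop) measurable_const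
  have h1 : (stdGaussian E).real T ≤ m / 2 := small_ball a ha (by positivity)
  have h2 : m - m / 2 ≤ (stdGaussian E).real (B \ T) := by
    have := le_measureReal_diff (μ := stdGaussian E) (s₁ := B) (s₂ := T)
    linarith
  have hI : Integrable (fun x : E => |⟪a, x⟫|) (stdGaussian E) :=
    (integrable_inner_stdGaussian a).abs
  have h3 : ∫ x in B \ T, |⟪a, x⟫| ∂(stdGaussian E) ≤ ∫ x in B, |⟪a, x⟫| ∂(stdGaussian E) :=
    setIntegral_mono_set hI.integrableOn (Filter.Eventually.of_forall fun x => abs_nonneg _)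
      (Filter.Eventually.of_forall fun x hx => hx.1)
  have h4 : ∫ x in B \ T, m / 2 * ‖a‖ ∂(stdGaussian E) ≤
      ∫ x in B \ T, |⟪a, x⟫| ∂(stdGaussian E) := by
    refine setIntegral_mono_on (integrable_const _).integrableOn hI.integrableOn (hB.diff hTm)
      fun x hx => ?_
    have := hx.2
    simp only [hT, mem_setOf_eq, not_lt] at this
    exact this
  rw [setIntegral_const, smul_eq_mul] at h4
  have h5 : m / 2 * (m / 2 * ‖a‖) ≤ (stdGaussian E).real (B \ T) * (m / 2 * ‖a‖) :=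
    mul_le_mul_of_nonneg_right (by linarith) (by positivity)
  nlinarith

/-- The wedge between two almost equal half spaces. -/
lemma wedge_le {a b : E} (ha : a ≠ 0) (hb : ‖a‖ / 2 ≤ ‖b‖) :
    (stdGaussian E).real {x | 0 ≤ ⟪a, x⟫ ∧ ⟪b, x⟫ < 0} ≤ 4 * (‖a - b‖ / ‖a‖) := by
  have hn : 0 < ‖a‖ := norm_pos_iff.2 ha
  have hbn : 0 < ‖b‖ := by linarith
  have hb0 : b ≠ 0 := norm_pos_iff.1 hbn
  set W1 : Set E := {x | 0 ≤ ⟪a, x⟫ ∧ ⟪b, x⟫ < 0 ∧ ⟪a, x⟫ ≤ -⟪b, x⟫} with hW1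
  set W2 : Set E := {x | 0 ≤ ⟪a, x⟫ ∧ ⟪b, x⟫ < 0 ∧ -⟪b, x⟫ < ⟪a, x⟫} with hW2
  have m1 : MeasurableSet W1 := by
    have e1 : W1 = {x : E | 0 ≤ ⟪a, x⟫} ∩ ({x | ⟪b, x⟫ < 0} ∩ {x | ⟪a, x⟫ ≤ -⟪b, x⟫}) := rfl
    rw [e1]
    exact (measurableSet_le measurable_const (by fun_prop)).inter
      ((measurableSet_lt (by fun_prop) measurable_const).inter
        (measurableSet_le (by fun_prop) (by fun_prop)))
  have m2 : MeasurableSet W2 := by
    have e1 : W2 = {x : E | 0 ≤ ⟪a, x⟫} ∩ ({x | ⟪b, x⟫ < 0} ∩ {x | -⟪b, x⟫ < ⟪a, x⟫}) := rfl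
    rw [e1]
    exact (measurableSet_le measurable_const (by fun_prop)).inter
      ((measurableSet_lt (by fun_prop) measurable_const).inter
        (measurableSet_lt (by fun_prop) (by fun_prop)))
  have hsub : {x : E | 0 ≤ ⟪a, x⟫ ∧ ⟪b, x⟫ < 0} ⊆ W1 ∪ W2 := by
    intro x hx
    rcases le_or_gt ⟪a, x⟫ (-⟪b, x⟫) with h | h
    · exact Or.inl ⟨hx.1, hx.2, h⟩
    · exact Or.inr ⟨hx.1, hx.2, h⟩
  have hle : (stdGaussian E).real {x | 0 ≤ ⟪a, x⟫ ∧ ⟪b, x⟫ < 0} ≤
      (stdGaussian E).real W1 + (stdGaussian E).real W2 :=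
    (measureReal_mono hsub).trans (measureReal_union_le _ _)
  -- the defect function
  let g : E → ℝ := fun x => |⟪a, x⟫| + |⟪b, x⟫| - |⟪a + b, x⟫|
  have hIa := (integrable_inner_stdGaussian a).abs
  have hIb := (integrable_inner_stdGaussian b).abs
  have hIab := (integrable_inner_stdGaussian (a + b)).abs
  have hg : Integrable g (stdGaussian E) := (hIa.add hIb).sub hIab
  have hg0 : ∀ x, 0 ≤ g x := by
    intro x
    have := abs_add_le ⟪a, x⟫ ⟪b, x⟫
    simp only [g]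
    rw [inner_add_left]
    linarith
  have hgi : ∫ x, g x ∂(stdGaussian E) = 2 / √(2 * Real.pi) * (‖a‖ + ‖b‖ - ‖a + b‖) := by
    simp only [g]
    have e3 := integral_sub (hIa.add hIb) hIab
    have e4 := integral_add hIa hIb
    simp only [Pi.add_apply] at e3
    rw [e3, e4, integral_abs_inner_stdGaussian,
      integral_abs_inner_stdGaussian, integral_abs_inner_stdGaussian]
    ring
  have hδ0 : 0 ≤ ‖a‖ + ‖b‖ - ‖a + b‖ := by have := norm_add_le a b; linarith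
  have hδ : (‖a‖ + ‖b‖ - ‖a + b‖) * ‖a‖ ≤ ‖a - b‖ ^ 2 := by
    have e1 := norm_sub_sq_real a b
    have e2 := norm_add_sq_real a b
    have h5 : (‖a‖ + ‖b‖ - ‖a + b‖) * ‖a‖ ≤ (‖a‖ + ‖b‖ - ‖a + b‖) * (‖a‖ + ‖b‖ + ‖a + b‖) :=
      mul_le_mul_of_nonneg_left (by have := norm_nonneg (a + b); linarith) hδ0
    nlinarith [sq_nonneg (‖a‖ - ‖b‖)]
  have hgle : ∫ x, g x ∂(stdGaussian E) ≤ ‖a‖ + ‖b‖ - ‖a + b‖ := by
    rw [hgi]
    have h6 : 2 / √(2 * Real.pi) ≤ 1 := by
      rw [div_le_one (by positivity)]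
      exact sqrt_two_pi_ge
    calc _ ≤ 1 * (‖a‖ + ‖b‖ - ‖a + b‖) := mul_le_mul_of_nonneg_right h6 hδ0
      _ = _ := one_mul _
  have i1 : 2 * ∫ x in W1, |⟪a, x⟫| ∂(stdGaussian E) ≤ ∫ x, g x ∂(stdGaussian E) := by
    rw [← integral_const_mul]
    refine le_trans ?_ (setIntegral_le_integral hg (Filter.Eventually.of_forall hg0) (s := W1))
    refine setIntegral_mono_on (hIa.const_mul 2).integrableOn hg.integrableOn m1 fun x hx => ?_
    obtain ⟨x1, x2, x3⟩ := hx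
    simp only [g]
    rw [inner_add_left, abs_of_nonneg x1, abs_of_neg x2, abs_of_nonpos (by linarith)]
    linarith
  have i2 : 2 * ∫ x in W2, |⟪b, x⟫| ∂(stdGaussian E) ≤ ∫ x, g x ∂(stdGaussian E) := by
    rw [← integral_const_mul]
    refine le_trans ?_ (setIntegral_le_integral hg (Filter.Eventually.of_forall hg0) (s := W2))
    refine setIntegral_mono_on (hIb.const_mul 2).integrableOn hg.integrableOn m2 fun x hx => ?_
    obtain ⟨x1, x2, x3⟩ := hx
    simp only [g]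
    rw [inner_add_left, abs_of_nonneg x1, abs_of_neg x2, abs_of_pos (by linarith)]
    linarith
  have j1 := sq_le_integral a ha m1
  have j2 := sq_le_integral b hb0 m2
  set δ := ‖a‖ + ‖b‖ - ‖a + b‖ with hδd
  set p := (stdGaussian E).real W1 with hp
  set q := (stdGaussian E).real W2 with hq
  set κ := ‖a - b‖ / ‖a‖ with hκ
  have hκ0 : 0 ≤ κ := by positivity
  have hκa : κ * ‖a‖ = ‖a - b‖ := by rw [hκ]; field_simp
  have k1 : p ^ 2 * ‖a‖ ≤ 2 * δ := by linarith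
  have k2 : q ^ 2 * ‖b‖ ≤ 2 * δ := by linarith
  have hδκ : δ ≤ κ ^ 2 * ‖a‖ := by
    have h7 : δ * ‖a‖ ≤ (κ ^ 2 * ‖a‖) * ‖a‖ := by
      calc δ * ‖a‖ ≤ ‖a - b‖ ^ 2 := hδ
        _ = (κ ^ 2 * ‖a‖) * ‖a‖ := by rw [← hκa]; ring
    exact le_of_mul_le_mul_right h7 hn
  have p1 : p ≤ 2 * κ := by
    have h8 : p ^ 2 * ‖a‖ ≤ (2 * κ ^ 2) * ‖a‖ := by linarith
    have h9 := le_of_mul_le_mul_right h8 hn
    refine le_of_sq_le_sq ?_ (by positivity)
    nlinarith [sq_nonneg κ]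
  have q1 : q ≤ 2 * κ := by
    have h8 : q ^ 2 * (‖a‖ / 2) ≤ (2 * κ ^ 2) * ‖a‖ :=
      calc q ^ 2 * (‖a‖ / 2) ≤ q ^ 2 * ‖b‖ := mul_le_mul_of_nonneg_left hb (by positivity)
        _ ≤ _ := by linarith
    have h9 : q ^ 2 * ‖a‖ ≤ (4 * κ ^ 2) * ‖a‖ := by linarith
    have h10 := le_of_mul_le_mul_right h9 hn
    refine le_of_sq_le_sq ?_ (by positivity)
    nlinarith
  linarith

end Vale.Agent.P226.S765
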