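import Vale.Agent.P226.H765.Glob

set_option linter.all false

/-!
# P226, stability: elementary geometry of almost regular triples
-/

open Set
open scoped RealInnerProductSpace

namespace Vale.Agent.P226.S765

open Eqc

variable {E : Type*} [NormedAddCommGroup E] [InnerProductSpace ℝ E]

/-- `3/(8π)`. -/
noncomputable def rho : ℝ := 3 / (8 * Real.pi)

lemma rho_lo : 0.119 < rho := by
  unfold rho
  have := Real.pi_lt_d2
  rw [lt_div_iff₀ (by positivity)]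
  nlinarith

lemma rho_hi : rho < 0.1195 := by
  unfold rho
  have := Real.pi_gt_d2
  rw [div_lt_iff₀ (by positivity)]
  nlinarith

lemma MM_sq' : MM ^ 2 = 3 * rho := by
  rw [MM_sq, rho]; ring

/-- Size of the moments of a propeller. -/
noncomputable def rr : ℝ := √rho

lemma rr_sq : rr ^ 2 = rho := Real.sq_sqrt (by have := rho_lo; linarith)

lemma rr_pos : 0 < rr := Real.sqrt_pos.2 (by have := rho_lo; linarith)

lemma rr_lo : 0.34 < rr := by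
  have h1 := rr_sq
  have h2 := rho_lo
  have h3 := rr_pos
  by_contra hc
  push Not at hc
  nlinarith

lemma rr_hi : rr < 0.35 := by
  have h1 := rr_sq
  have h2 := rho_hi
  have h3 := rr_pos
  by_contra hc
  push Not at hc
  nlinarith

/-- `|a - b| ≤ |a² - b²| / c` if `c ≤ a + b`. -/
lemma abs_sub_le_of_sq {a b c η : ℝ} (hc : 0 < c) (ha : 0 ≤ a) (hb : 0 ≤ b) (h : c ≤ a + b)
    (hη : |a ^ 2 - b ^ 2| ≤ c * η) : |a - b| ≤ η := by
  have h1 : |a ^ 2 - b ^ 2| = |a - b| * (a + b) := by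
    rw [sq_sub_sq, abs_mul, abs_of_nonneg (add_nonneg ha hb)]
    ring
  rw [h1] at hη
  have h2 : |a - b| * c ≤ |a - b| * (a + b) := mul_le_mul_of_nonneg_left h (abs_nonneg _)
  have h3 : c * |a - b| ≤ c * η := by linarith
  exact le_of_mul_le_mul_left h3 hc

/-- The Gram matrix of a triple is within `η` of the one of a propeller. -/
structure Gram3 (η : ℝ) (z0 z1 z2 : E) : Prop where
  n0 : |‖z0‖ ^ 2 - rho| ≤ η
  n1 : |‖z1‖ ^ 2 - rho| ≤ η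
  n2 : |‖z2‖ ^ 2 - rho| ≤ η
  i01 : |⟪z0, z1⟫ + rho / 2| ≤ η
  i12 : |⟪z1, z2⟫ + rho / 2| ≤ η
  i02 : |⟪z0, z2⟫ + rho / 2| ≤ η

/-- Orthonormal frame of an almost regular triple. -/
theorem exists_frame {z0 z1 z2 : E} (h : Gram3 (1 / 50) z0 z1 z2) :
    ∃ (u0 e : E) (n α m : ℝ), ‖u0‖ = 1 ∧ ‖e‖ = 1 ∧ ⟪u0, e⟫ = 0 ∧ z0 = n • u0 ∧
      z1 - z2 = α • u0 + m • e ∧ 0.3 ≤ n ∧ 0.5 ≤ m ∧ n = ‖z0‖ ∧
      n * α = ⟪z0, z1⟫ - ⟪z0, z2⟫ ∧ α ^ 2 ≤ 0.018 ∧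
      m ^ 2 = ‖z1‖ ^ 2 - 2 * ⟪z1, z2⟫ + ‖z2‖ ^ 2 - α ^ 2 := by
  have hρ1 := rho_lo
  have hρ2 := rho_hi
  have g0 := abs_le.1 h.n0
  have g1 := abs_le.1 h.n1
  have g2 := abs_le.1 h.n2
  have g01 := abs_le.1 h.i01
  have g12 := abs_le.1 h.i12
  have g02 := abs_le.1 h.i02
  obtain ⟨n, hn⟩ : ∃ n : ℝ, n = ‖z0‖ := ⟨_, rfl⟩
  rw [← hn] at g0
  have hnn : 0 ≤ n := by rw [hn]; exact norm_nonneg _
  have hn3 : 0.3 ≤ n := by
    refine le_of_sq_le_sq ?_ hnn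
    linarith only [g0.1, hρ1]
  have hn0 : 0 < n := by linarith only [hn3]
  obtain ⟨u0, hu0⟩ : ∃ u0 : E, u0 = n⁻¹ • z0 := ⟨_, rfl⟩
  have hz0 : z0 = n • u0 := by rw [hu0, smul_smul, mul_inv_cancel₀ hn0.ne', one_smul]
  have hu0n : ‖u0‖ = 1 := by
    rw [hu0, norm_smul, norm_inv, Real.norm_eq_abs, abs_of_pos hn0, ← hn, inv_mul_cancel₀ hn0.ne']
  obtain ⟨α, hα⟩ : ∃ α : ℝ, α = ⟪u0, z1 - z2⟫ := ⟨_, rfl⟩
  have hαn : n * α = ⟪z0, z1⟫ - ⟪z0, z2⟫ := by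
    rw [hα, ← real_inner_smul_left, ← hz0, inner_sub_right]
  have hdd : ‖z1 - z2‖ ^ 2 = ‖z1‖ ^ 2 - 2 * ⟪z1, z2⟫ + ‖z2‖ ^ 2 := norm_sub_sq_real _ _
  have hd' : ‖(z1 - z2) - α • u0‖ ^ 2 = ‖z1 - z2‖ ^ 2 - α ^ 2 := by
    rw [norm_sub_sq_real, norm_smul, mul_pow, Real.norm_eq_abs, sq_abs, hu0n, real_inner_smul_right,
      real_inner_comm, ← hα]
    ring
  obtain ⟨m, hm⟩ : ∃ m : ℝ, m = ‖(z1 - z2) - α • u0‖ := ⟨_, rfl⟩
  rw [← hm, hdd] at hd'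
  have hα0 : α ^ 2 ≤ 0.018 := by
    have h1 : |n * α| ≤ 2 / 50 := by
      rw [hαn, abs_le]
      constructor
      · linarith only [g01.1, g02.2]
      · linarith only [g01.2, g02.1]
    have h2 : (n * α) ^ 2 ≤ (2 / 50) ^ 2 := by
      rw [← sq_abs]
      exact pow_le_pow_left₀ (abs_nonneg _) h1 2
    have h3 : 0.09 * α ^ 2 ≤ (n * α) ^ 2 := by
      rw [mul_pow]
      have : 0.09 ≤ n ^ 2 := by nlinarith only [hn3]
      exact mul_le_mul_of_nonneg_right this (sq_nonneg α)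
    linarith only [h2, h3]
  have hmn : 0 ≤ m := by rw [hm]; exact norm_nonneg _
  have hm5 : 0.5 ≤ m := by
    refine le_of_sq_le_sq ?_ hmn
    linarith only [hd', hα0, g1.1, g2.1, g12.2, hρ1]
  have hm0 : 0 < m := by linarith only [hm5]
  obtain ⟨e, he⟩ : ∃ e : E, e = m⁻¹ • ((z1 - z2) - α • u0) := ⟨_, rfl⟩
  have hme : m • e = (z1 - z2) - α • u0 := by
    rw [he, smul_smul, mul_inv_cancel₀ hm0.ne', one_smul]
  have hde : z1 - z2 = α • u0 + m • e := by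
    rw [hme]
    abel
  have hen : ‖e‖ = 1 := by
    rw [he, norm_smul, norm_inv, Real.norm_eq_abs, abs_of_pos hm0, ← hm, inv_mul_cancel₀ hm0.ne']
  have hue : ⟪u0, e⟫ = 0 := by
    rw [he, real_inner_smul_right, inner_sub_right, real_inner_smul_right,
      real_inner_self_eq_norm_sq, hu0n, ← hα]
    ring
  exact ⟨u0, e, n, α, m, hu0n, hen, hue, hz0, hde, hn3, hm5, hn, hαn, hα0, hd'⟩

lemma norm_comb {u0 e : E} (hu0n : ‖u0‖ = 1) (hen : ‖e‖ = 1) (hue : ⟪u0, e⟫ = 0) (a b : ℝ) :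
    ‖a • u0 + b • e‖ ^ 2 = a ^ 2 + b ^ 2 := by
  rw [norm_add_sq_real, norm_smul, norm_smul, mul_pow, mul_pow, hu0n, hen,
    real_inner_smul_left, real_inner_smul_right, hue, Real.norm_eq_abs, Real.norm_eq_abs,
    sq_abs, sq_abs]
  ring

lemma three_terms {s a b c : E} {τ η : ℝ} (h1 : ‖s‖ ≤ τ) (h2 : ‖a‖ ≤ η) (h3 : ‖b‖ ≤ 7 / 2 * η)
    (h4 : ‖c‖ ≤ 5 / 2 * η) : ‖s - a + (b + c)‖ ≤ τ + 7 * η ∧ ‖s - a - (b + c)‖ ≤ τ + 7 * η := by
  have t2 := norm_sub_le s a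
  have t3 := norm_add_le b c
  constructor
  · have t1 := norm_add_le (s - a) (b + c)
    linarith
  · have t1 := norm_sub_le (s - a) (b + c)
    linarith

/-- Construction of a propeller close to an almost regular triple. -/
theorem exists_prop {z0 z1 z2 : E} (h : Gram3 (1 / 50) z0 z1 z2) :
    ∃ u0 u1 u2 : E, ‖u0‖ = 1 ∧ ‖u1‖ = 1 ∧ ‖u2‖ = 1 ∧ u0 + u1 + u2 = 0 ∧
      ∀ η τ : ℝ, Gram3 η z0 z1 z2 → ‖z0 + z1 + z2‖ ≤ τ →
        ‖z0 - rr • u0‖ ≤ τ + 7 * η ∧ ‖z1 - rr • u1‖ ≤ τ + 7 * η ∧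
          ‖z2 - rr • u2‖ ≤ τ + 7 * η := by
  obtain ⟨u0, e, n, α, m, hu0n, hen, hue, hz0, hde, hn3, hm5, hn, hαn, hα0, hm2⟩ :=
    exists_frame h
  have hr1 := rr_lo
  have hrs := rr_sq
  have hn0 : 0 < n := by linarith only [hn3]
  have hm0 : 0 < m := by linarith only [hm5]
  obtain ⟨c, hc⟩ : ∃ c : ℝ, c = √3 / 2 := ⟨_, rfl⟩
  have hs3 : √3 ^ 2 = (3 : ℝ) := Real.sq_sqrt (by norm_num)
  have hcs : c ^ 2 = 3 / 4 := by rw [hc, div_pow, hs3]; norm_num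
  have hc1 : 1.7 ≤ √3 := Real.le_sqrt_of_sq_le (by norm_num)
  refine ⟨u0, (-(1 / 2) : ℝ) • u0 + c • e, (-(1 / 2) : ℝ) • u0 + (-c) • e, hu0n, ?_, ?_, ?_, ?_⟩
  · have h1 := norm_comb hu0n hen hue (-(1 / 2)) c
    rw [hcs] at h1
    have h2 : ‖(-(1 / 2) : ℝ) • u0 + c • e‖ ^ 2 = 1 := by rw [h1]; norm_num
    exact (pow_eq_one_iff_of_nonneg (norm_nonneg _) two_ne_zero).1 h2
  · have h1 := norm_comb hu0n hen hue (-(1 / 2)) (-c)
    rw [show (-c) ^ 2 = 3 / 4 by rw [neg_sq]; exact hcs] at h1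
    have h2 : ‖(-(1 / 2) : ℝ) • u0 + (-c) • e‖ ^ 2 = 1 := by rw [h1]; norm_num
    exact (pow_eq_one_iff_of_nonneg (norm_nonneg _) two_ne_zero).1 h2
  · module
  · intro η τ hG hτ
    have k0 := hG.n0
    have k1 := abs_le.1 hG.n1
    have k2 := abs_le.1 hG.n2
    have k01 := abs_le.1 hG.i01
    have k12 := abs_le.1 hG.i12
    have k02 := abs_le.1 hG.i02
    have hη : 0 ≤ η := (abs_nonneg _).trans hG.n0
    have hτ0 : 0 ≤ τ := (norm_nonneg _).trans hτ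
    have a1 : |n - rr| ≤ 2 * η := by
      refine abs_sub_le_of_sq (c := 1 / 2) (by norm_num) hn0.le (by linarith only [hr1])
        (by linarith only [hr1, hn3]) ?_
      rw [hrs, hn]
      linarith only [k0]
    have a2 : |n * α| ≤ 2 * η := by
      rw [hαn, abs_le]
      constructor
      · linarith only [k01.1, k02.2]
      · linarith only [k01.2, k02.1]
    have a3 : |α| ≤ 7 * η := by
      rw [abs_mul, abs_of_pos hn0] at a2
      have : 0.3 * |α| ≤ n * |α| := mul_le_mul_of_nonneg_right hn3 (abs_nonneg _)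
      linarith only [a2, this, hη]
    have a4 : α ^ 2 ≤ η := by
      rcases le_or_gt η (1 / 50) with hb | hb
      · have : α ^ 2 ≤ (7 * η) ^ 2 := by
          rw [← sq_abs]
          exact pow_le_pow_left₀ (abs_nonneg _) a3 2
        nlinarith only [this, hb, hη]
      · linarith only [hα0, hb]
    have a5 : |m - √3 * rr| ≤ 5 * η := by
      have b1 : 0.5 ≤ √3 * rr := by nlinarith only [hc1, hr1]
      refine abs_sub_le_of_sq (c := 1) (by norm_num) hm0.le (by linarith only [b1])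
        (by linarith only [b1, hm5]) ?_
      rw [mul_pow, hs3, hrs, hm2, one_mul, abs_le]
      have := sq_nonneg α
      constructor
      · linarith only [this, a4, k1.1, k2.1, k12.2, hη]
      · linarith only [this, a4, k1.2, k2.2, k12.1, hη]
    have b1 : (1 / 2 : ℝ) • (z1 - z2) = (1 / 2 * α) • u0 + (1 / 2 * m) • e := by
      rw [hde, smul_add, smul_smul, smul_smul]
    have b3 : (1 / 2 : ℝ) • z0 = (1 / 2 * n) • u0 := by
      rw [mul_smul, ← hz0]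
    have e0 : z0 - rr • u0 = (n - rr) • u0 := by
      rw [sub_smul, ← hz0]
    have e1 : z1 - rr • ((-(1 / 2) : ℝ) • u0 + c • e) =
        (1 / 2 : ℝ) • (z0 + z1 + z2) - (1 / 2 * (n - rr)) • u0 + ((1 / 2 * α) • u0 +
          (1 / 2 * (m - √3 * rr)) • e) := by
      have b2 : z1 = (1 / 2 : ℝ) • (z0 + z1 + z2) - (1 / 2 : ℝ) • z0 + (1 / 2 : ℝ) • (z1 - z2) := by
        module
      rw [b1, b3] at b2
      calc z1 - rr • ((-(1 / 2) : ℝ) • u0 + c • e) = ((1 / 2 : ℝ) • (z0 + z1 + z2)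
            - (1 / 2 * n) • u0 + ((1 / 2 * α) • u0 + (1 / 2 * m) • e))
            - rr • ((-(1 / 2) : ℝ) • u0 + c • e) := by rw [← b2]
        _ = _ := by rw [hc]; module
    have e2 : z2 - rr • ((-(1 / 2) : ℝ) • u0 + (-c) • e) =
        (1 / 2 : ℝ) • (z0 + z1 + z2) - (1 / 2 * (n - rr)) • u0 - ((1 / 2 * α) • u0 +
          (1 / 2 * (m - √3 * rr)) • e) := by
      have b2 : z2 = (1 / 2 : ℝ) • (z0 + z1 + z2) - (1 / 2 : ℝ) • z0 - (1 / 2 : ℝ) • (z1 - z2) := by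
        module
      rw [b1, b3] at b2
      calc z2 - rr • ((-(1 / 2) : ℝ) • u0 + (-c) • e) = ((1 / 2 : ℝ) • (z0 + z1 + z2)
            - (1 / 2 * n) • u0 - ((1 / 2 * α) • u0 + (1 / 2 * m) • e))
            - rr • ((-(1 / 2) : ℝ) • u0 + (-c) • e) := by rw [← b2]
        _ = _ := by rw [hc]; module
    have f1 : ‖(1 / 2 : ℝ) • (z0 + z1 + z2)‖ ≤ τ := by
      rw [norm_smul, Real.norm_eq_abs, abs_of_pos (by norm_num : (0 : ℝ) < 1 / 2)]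
      linarith only [hτ, hτ0]
    have f2 : ‖(1 / 2 * (n - rr)) • u0‖ ≤ η := by
      rw [norm_smul, hu0n, mul_one, Real.norm_eq_abs, abs_mul,
        abs_of_pos (by norm_num : (0 : ℝ) < 1 / 2)]
      linarith only [a1]
    have f3 : ‖(1 / 2 * α) • u0‖ ≤ 7 / 2 * η := by
      rw [norm_smul, hu0n, mul_one, Real.norm_eq_abs, abs_mul,
        abs_of_pos (by norm_num : (0 : ℝ) < 1 / 2)]
      linarith only [a3]
    have f4 : ‖(1 / 2 * (m - √3 * rr)) • e‖ ≤ 5 / 2 * η := by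
      rw [norm_smul, hen, mul_one, Real.norm_eq_abs, abs_mul,
        abs_of_pos (by norm_num : (0 : ℝ) < 1 / 2)]
      linarith only [a5]
    obtain ⟨r1, r2⟩ := three_terms f1 f2 f3 f4
    refine ⟨?_, ?_, ?_⟩
    · rw [e0, norm_smul, hu0n, mul_one, Real.norm_eq_abs]
      linarith only [a1, hη, hτ0]
    · rw [e1]
      exact r1
    · rw [e2]
      exact r2

/-- From the defect of the perimeter inequality to the Gram matrix. -/
theorem gram3_of_q {z0 z1 z2 : E} {q : ℝ} (hq0 : 0 ≤ q) (hq1 : q ≤ 1)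
    (hS : |‖z0‖ ^ 2 + ‖z1‖ ^ 2 + ‖z2‖ ^ 2 - 3 * rho| ≤ q)
    (hS1 : ‖z0‖ ^ 2 + ‖z1‖ ^ 2 + ‖z2‖ ^ 2 ≤ 3 * rho)
    (h1 : |‖z0 - z1‖ - ‖z1 - z2‖| ≤ q) (h2 : |‖z1 - z2‖ - ‖z0 - z2‖| ≤ q)
    (h3 : |‖z0 - z1‖ - ‖z0 - z2‖| ≤ q) (hs : ‖z0 + z1 + z2‖ ≤ q) :
    Gram3 (5 * q) z0 z1 z2 := by
  have hρ2 := rho_hi
  have e01 := norm_sub_sq_real z0 z1
  have e12 := norm_sub_sq_real z1 z2
  have e02 := norm_sub_sq_real z0 z2
  have es : ‖z0 + z1 + z2‖ ^ 2 = ‖z0‖ ^ 2 + ‖z1‖ ^ 2 + ‖z2‖ ^ 2 +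
      2 * (⟪z0, z1⟫ + ⟪z1, z2⟫ + ⟪z0, z2⟫) := by
    rw [norm_add_sq_real, norm_add_sq_real, inner_add_left]
    ring
  have n0 : 0 ≤ ‖z0‖ ^ 2 := by positivity
  have n1 : 0 ≤ ‖z1‖ ^ 2 := by positivity
  have n2 : 0 ≤ ‖z2‖ ^ 2 := by positivity
  have cs : ∀ a b : E, |⟪a, b⟫| ≤ (‖a‖ ^ 2 + ‖b‖ ^ 2) / 2 := by
    intro a b
    have := abs_real_inner_le_norm a b
    nlinarith only [this, sq_nonneg (‖a‖ - ‖b‖)]
  have c01 := (abs_le.1 (cs z0 z1)).1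
  have c12 := (abs_le.1 (cs z1 z2)).1
  have c02 := (abs_le.1 (cs z0 z2)).1
  have l01 : ‖z0 - z1‖ ≤ 1 := by
    refine (sq_le_one_iff₀ (norm_nonneg _)).1 ?_
    linarith only [e01, c01, hS1, hρ2, n0, n1, n2]
  have l12 : ‖z1 - z2‖ ≤ 1 := by
    refine (sq_le_one_iff₀ (norm_nonneg _)).1 ?_
    linarith only [e12, c12, hS1, hρ2, n0, n1, n2]
  have l02 : ‖z0 - z2‖ ≤ 1 := by
    refine (sq_le_one_iff₀ (norm_nonneg _)).1 ?_
    linarith only [e02, c02, hS1, hρ2, n0, n1, n2]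
  have key : ∀ a b : ℝ, 0 ≤ a → 0 ≤ b → a ≤ 1 → b ≤ 1 → |a - b| ≤ q →
      |a ^ 2 - b ^ 2| ≤ 2 * q := by
    intro a b ha hb ha1 hb1 hab
    have : |a ^ 2 - b ^ 2| = |a - b| * (a + b) := by
      rw [sq_sub_sq, abs_mul, abs_of_nonneg (add_nonneg ha hb)]
      ring
    rw [this]
    have h5 : |a - b| * (a + b) ≤ q * 2 :=
      mul_le_mul hab (by linarith) (by linarith) hq0
    linarith
  have a1 := abs_le.1 (key _ _ (norm_nonneg _) (norm_nonneg _) l01 l12 h1)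
  have a2 := abs_le.1 (key _ _ (norm_nonneg _) (norm_nonneg _) l12 l02 h2)
  have a3 := abs_le.1 (key _ _ (norm_nonneg _) (norm_nonneg _) l01 l02 h3)
  have hs2 : ‖z0 + z1 + z2‖ ^ 2 ≤ q := by
    have h5 : ‖z0 + z1 + z2‖ ^ 2 ≤ q ^ 2 := pow_le_pow_left₀ (norm_nonneg _) hs 2
    nlinarith only [h5, hq0, hq1]
  have hs0 : 0 ≤ ‖z0 + z1 + z2‖ ^ 2 := by positivity
  have m1 : ∀ z : E, ‖z‖ ^ 2 ≤ 3 * rho → |⟪z, z0 + z1 + z2⟫| ≤ q := by
    intro z hz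
    have h5 := abs_real_inner_le_norm z (z0 + z1 + z2)
    have h6 : ‖z‖ ≤ 1 := (sq_le_one_iff₀ (norm_nonneg _)).1 (by linarith only [hz, hρ2])
    have h7 : ‖z‖ * ‖z0 + z1 + z2‖ ≤ 1 * q := mul_le_mul h6 hs (norm_nonneg _) zero_le_one
    linarith
  have s0 := abs_le.1 (m1 z0 (by linarith))
  have s1 := abs_le.1 (m1 z1 (by linarith))
  have s2 := abs_le.1 (m1 z2 (by linarith))
  have t0 : ⟪z0, z0 + z1 + z2⟫ = ‖z0‖ ^ 2 + ⟪z0, z1⟫ + ⟪z0, z2⟫ := by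
    rw [inner_add_right, inner_add_right, real_inner_self_eq_norm_sq]
  have t1 : ⟪z1, z0 + z1 + z2⟫ = ⟪z0, z1⟫ + ‖z1‖ ^ 2 + ⟪z1, z2⟫ := by
    rw [inner_add_right, inner_add_right, real_inner_self_eq_norm_sq, real_inner_comm z0 z1]
  have t2 : ⟪z2, z0 + z1 + z2⟫ = ⟪z0, z2⟫ + ⟪z1, z2⟫ + ‖z2‖ ^ 2 := by
    rw [inner_add_right, inner_add_right, real_inner_self_eq_norm_sq, real_inner_comm z0 z2,
      real_inner_comm z1 z2]
  rw [t0] at s0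
  rw [t1] at s1
  rw [t2] at s2
  have hS' := abs_le.1 hS
  rw [e01, e12] at a1
  rw [e12, e02] at a2
  rw [e01, e02] at a3
  rw [es] at hs2 hs0
  obtain ⟨a11, a12⟩ := a1
  obtain ⟨a21, a22⟩ := a2
  obtain ⟨a31, a32⟩ := a3
  obtain ⟨s01, s02⟩ := s0
  obtain ⟨s11, s12⟩ := s1
  obtain ⟨s21, s22⟩ := s2
  obtain ⟨S1, S2⟩ := hS'
  constructor <;> rw [abs_le] <;> constructor <;>
    linarith only [a11, a12, a21, a22, a31, a32, s01, s02, s11, s12, s21, s22, S1, S2, hs2, hs0,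
      hq0]

end Vale.Agent.P226.S765
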