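import Vale.Agent.P226.H765.Phi

set_option linter.all false

/-!
# P226, stability: the compactness step
-/

open MeasureTheory ProbabilityTheory Set Filter Topology
open scoped RealInnerProductSpace

namespace Vale.Agent.P226.S765

open K3 Eqc

variable {E : Type*} [NormedAddCommGroup E] [InnerProductSpace ℝ E] [FiniteDimensional ℝ E]
  [MeasurableSpace E] [BorelSpace E]

/-- The integral of an integrable function over the cells of a partition. -/
lemma integral_eq_sum {ι : Type*} [Fintype ι] {A : ι → Set E} (h : IsPart A) {f : E → ℝ}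
    (hf : Integrable f (stdGaussian E)) :
    ∫ x, f x ∂(stdGaussian E) = ∑ i, ∫ x in A i, f x ∂(stdGaussian E) := by
  rw [← setIntegral_univ, ← h.cover, integral_iUnion_fintype h.meas h.disj
    fun i => hf.integrableOn]

/-- The argmax cells, ties broken by the index. -/
def amc {k : ℕ} (w : Fin k → E) (i : Fin k) : Set E :=
  {x | (∀ j, ⟪w j, x⟫ ≤ ⟪w i, x⟫) ∧ ∀ j < i, ⟪w j, x⟫ < ⟪w i, x⟫}

lemma isPart_amc {k : ℕ} [Nonempty (Fin k)] (w : Fin k → E) : IsPart (amc w) where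
  meas i := by
    have e1 : amc w i = (⋂ j, {x : E | ⟪w j, x⟫ ≤ ⟪w i, x⟫}) ∩ ⋂ j, ⋂ (_ : j < i),
          {x : E | ⟪w j, x⟫ < ⟪w i, x⟫} := by
      ext x
      simp only [amc, Set.mem_setOf_eq, Set.mem_inter_iff, Set.mem_iInter]
    rw [e1]
    refine MeasurableSet.inter ?_ ?_
    · exact MeasurableSet.iInter fun j => measurableSet_le (by fun_prop) (by fun_prop)
    · exact MeasurableSet.iInter fun j => MeasurableSet.iInter fun _ =>
        measurableSet_lt (by fun_prop) (by fun_prop)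
  disj i j hij := by
    change Disjoint (amc w i) (amc w j)
    rw [Set.disjoint_left]
    rintro x ⟨h1, h2⟩ ⟨h3, h4⟩
    rcases lt_or_gt_of_ne hij with h | h
    · exact absurd (h4 i h) (not_lt.2 (h1 j))
    · exact absurd (h2 j h) (not_lt.2 (h3 i))
  cover := by
    classical
    refine Set.eq_univ_of_forall fun x => Set.mem_iUnion.2 ?_
    let S : Finset (Fin k) := Finset.univ.filter fun i => ∀ j, ⟪w j, x⟫ ≤ ⟪w i, x⟫
    have hS : S.Nonempty := by
      obtain ⟨i, hi⟩ := exists_mx w x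
      exact ⟨i, by simp only [S, Finset.mem_filter, Finset.mem_univ, true_and]
                   intro j; rw [← hi]; exact le_mx w j x⟩
    have hm := S.min'_mem hS
    have hm' : ∀ j, ⟪w j, x⟫ ≤ ⟪w (S.min' hS), x⟫ := by
      simpa only [S, Finset.mem_filter, Finset.mem_univ, true_and] using hm
    refine ⟨S.min' hS, hm', fun j hj => ?_⟩
    by_contra hc
    push Not at hc
    have hjS : j ∈ S := by
      simp only [S, Finset.mem_filter, Finset.mem_univ, true_and]
      exact fun l => (hm' l).trans hc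
    exact absurd (S.min'_le j hjS) (not_le.2 hj)

lemma mx_eq_of_mem {k : ℕ} [Nonempty (Fin k)] {w : Fin k → E} {i : Fin k} {x : E}
    (h : x ∈ amc w i) : mx w x = ⟪w i, x⟫ :=
  le_antisymm (mx_le h.1) (le_mx w i x)

lemma Phi_eq_amc {k : ℕ} [Nonempty (Fin k)] (w : Fin k → E) :
    Phi w = ∑ i, ⟪w i, fm (amc w i)⟫ := by
  unfold Phi
  rw [integral_eq_sum (isPart_amc w) (integrable_mx w)]
  refine Finset.sum_congr rfl fun i _ => ?_
  rw [inner_fm]
  exact setIntegral_congr_fun ((isPart_amc w).meas i) fun x hx => mx_eq_of_mem hx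

/-- The gap. -/
lemma Phi_sub {k : ℕ} [Nonempty (Fin k)] {A : Fin k → Set E} (h : IsPart A) (w : Fin k → E) :
    Phi w - ∑ i, ⟪w i, fm (A i)⟫ =
      ∑ i, ∫ x in A i, (mx w x - ⟪w i, x⟫) ∂(stdGaussian E) := by
  unfold Phi
  rw [integral_eq_sum h (integrable_mx w), ← Finset.sum_sub_distrib]
  refine Finset.sum_congr rfl fun i _ => ?_
  rw [inner_fm, integral_sub (integrable_mx w).integrableOn
    (integrable_inner_stdGaussian _).integrableOn]

lemma sum_inner_le_Phi {k : ℕ} [Nonempty (Fin k)] {A : Fin k → Set E} (h : IsPart A)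
    (w : Fin k → E) : ∑ i, ⟪w i, fm (A i)⟫ ≤ Phi w := by
  have h1 := Phi_sub h w
  have h2 : 0 ≤ ∑ i, ∫ x in A i, (mx w x - ⟪w i, x⟫) ∂(stdGaussian E) :=
    Finset.sum_nonneg fun i _ => integral_nonneg fun x => sub_nonneg.2 (le_mx w i x)
  linarith

/-- The constant `√(9/(8π))`. -/
noncomputable def MM : ℝ := √(9 / (8 * Real.pi))

lemma MM_sq : MM ^ 2 = 9 / (8 * Real.pi) := Real.sq_sqrt (by positivity)

lemma MM_pos : 0 < MM := Real.sqrt_pos.2 (by positivity)

/-- `‖fm B - M w‖²` summed. -/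
lemma sum_sq_sub {k : ℕ} [Nonempty (Fin k)] (w : Fin k → E) (c : ℝ) :
    ∑ i, ‖fm (amc w i) - c • w i‖ ^ 2 =
      ∑ i, ‖fm (amc w i)‖ ^ 2 - 2 * c * Phi w + c ^ 2 * ∑ i, ‖w i‖ ^ 2 := by
  rw [Phi_eq_amc, Finset.mul_sum, Finset.mul_sum, ← Finset.sum_sub_distrib,
    ← Finset.sum_add_distrib]
  refine Finset.sum_congr rfl fun i _ => ?_
  rw [norm_sub_sq_real, norm_smul, mul_pow, Real.norm_eq_abs, sq_abs, real_inner_smul_right,
    real_inner_comm]
  ring

lemma amc_le {k : ℕ} [Nonempty (Fin k)] (w : Fin k → E) :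
    ∑ i, ‖fm (amc w i)‖ ^ 2 ≤ MM ^ 2 := by
  rw [MM_sq]
  exact bdd k _ (isPart_amc w)

lemma Phi_le {k : ℕ} [Nonempty (Fin k)] (w : Fin k → E) :
    2 * Phi w ≤ MM * (1 + ∑ i, ‖w i‖ ^ 2) := by
  have h1 := sum_sq_sub w MM
  have h2 : 0 ≤ ∑ i, ‖fm (amc w i) - MM • w i‖ ^ 2 := Finset.sum_nonneg fun i _ => by positivity
  have h3 := amc_le w
  have h4 := MM_pos
  have h5 : 0 ≤ MM * (MM * (1 + ∑ i, ‖w i‖ ^ 2) - 2 * Phi w) := by nlinarith
  have h6 := (mul_nonneg_iff_of_pos_left h4).1 h5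
  linarith

/-- Gram closeness to a propeller. -/
def Near {k : ℕ} (ε : ℝ) (z : Fin k → E) : Prop :=
  ∃ f : Fin 3 → Fin k, Function.Injective f ∧
    (∀ j, |‖z (f j)‖ ^ 2 - 3 / (8 * Real.pi)| < ε) ∧
    (∀ i j, i ≠ j → |⟪z (f i), z (f j)⟫ + 3 / (16 * Real.pi)| < ε) ∧
    ∀ i, i ∉ Set.range f → ‖z i‖ ^ 2 < ε

lemma near_of_eq {k : ℕ} [Nonempty (Fin k)] {w : Fin k → E} (h1 : ∑ i, ‖w i‖ ^ 2 = 1)
    (h2 : Phi w = MM) {ε : ℝ} (hε : 0 < ε) : Near ε (fun i => MM • w i) := by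
  classical
  have h3 := sum_sq_sub w MM
  have h4 := amc_le w
  rw [h1, h2] at h3
  have h5 : ∑ i, ‖fm (amc w i) - MM • w i‖ ^ 2 ≤ 0 := by nlinarith
  have h6 : ∀ i, fm (amc w i) = MM • w i := by
    intro i
    have h7 := Finset.single_le_sum (f := fun i => ‖fm (amc w i) - MM • w i‖ ^ 2)
      (fun i _ => by positivity) (Finset.mem_univ i)
    have h8 : ‖fm (amc w i) - MM • w i‖ ^ 2 = 0 := le_antisymm (h7.trans h5) (by positivity)
    exact sub_eq_zero.1 (norm_eq_zero.1 (pow_eq_zero_iff two_ne_zero |>.1 h8))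
  have h0 : 0 ≤ ∑ i, ‖fm (amc w i) - MM • w i‖ ^ 2 := Finset.sum_nonneg fun i _ => by positivity
  have hmax : Eqc.IsMax (amc w) := ⟨isPart_amc w, by
    rw [← MM_sq]
    nlinarith⟩
  obtain ⟨v, hs, e1, e2, hp, f, hf, hfj, hfn⟩ := hmax.exists_three (by convert hmax.card_le_three)
  have hnorm : ∀ j, ‖v j‖ = ‖v 0‖ := by
    intro j
    fin_cases j
    · rfl
    · exact e1.symm
    · exact (e1.trans e2).symm
  have hsum : 3 * ‖v 0‖ ^ 2 = 9 / (8 * Real.pi) := by
    rw [← hmax.2, ← Fintype.sum_of_injective f hf (fun j => ‖v j‖ ^ 2)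
      (fun i => ‖fm (amc w i)‖ ^ 2) (fun i hi => by rw [hfn i hi]; simp)
      (fun j => by rw [hfj]), Fin.sum_univ_three, hnorm 1, hnorm 2]
    ring
  have hr : ‖v 0‖ ^ 2 = 3 / (8 * Real.pi) := by
    have : (9 : ℝ) / (8 * Real.pi) = 3 * (3 / (8 * Real.pi)) := by ring
    linarith
  rw [Fin.sum_univ_three] at hs
  have hin : ∀ a b c : E, ‖a‖ ^ 2 = 3 / (8 * Real.pi) → ‖b‖ ^ 2 = 3 / (8 * Real.pi) →
      ‖c‖ ^ 2 = 3 / (8 * Real.pi) → a + b + c = 0 → ⟪a, b⟫ = - (3 / (16 * Real.pi)) := by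
    intro a b c ha hb hc hsum
    have h7 : c = -(a + b) := by rw [eq_neg_iff_add_eq_zero, add_comm]; exact hsum
    have h8 := norm_add_sq_real a b
    rw [h7, norm_neg] at hc
    have : (3 : ℝ) / (8 * Real.pi) = 2 * (3 / (16 * Real.pi)) := by field_simp; norm_num
    linarith
  have hv : ∀ j, ‖v j‖ ^ 2 = 3 / (8 * Real.pi) := fun j => by rw [hnorm j, hr]
  have h01 : ⟪v 0, v 1⟫ = - (3 / (16 * Real.pi)) := hin _ _ _ (hv _) (hv _) (hv 2) hs
  have h12 : ⟪v 1, v 2⟫ = - (3 / (16 * Real.pi)) := hin _ _ _ (hv _) (hv _) (hv 0) (by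
    rw [← hs]; abel)
  have h02 : ⟪v 0, v 2⟫ = - (3 / (16 * Real.pi)) := hin _ _ _ (hv _) (hv _) (hv 1) (by
    rw [← hs]; abel)
  have hij : ∀ i j, i ≠ j → ⟪v i, v j⟫ = - (3 / (16 * Real.pi)) := by
    intro i j hij
    fin_cases i <;> fin_cases j
    · exact absurd rfl hij
    · exact h01
    · exact h02
    · rw [real_inner_comm]; exact h01
    · exact absurd rfl hij
    · exact h12
    · rw [real_inner_comm]; exact h02
    · rw [real_inner_comm]; exact h12
    · exact absurd rfl hij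
  refine ⟨f, hf, fun j => ?_, fun i j hne => ?_, fun i hi => ?_⟩
  · simp only
    rw [← h6, hfj, hv, sub_self, abs_zero]
    exact hε
  · simp only
    rw [← h6, ← h6, hfj, hfj, hij i j hne, neg_add_cancel, abs_zero]
    exact hε
  · simp only
    rw [← h6, hfn i hi, norm_zero]
    simpa using hε

lemma abs_Phi_sub_le {k : ℕ} [Nonempty (Fin k)] (w w' : Fin k → E) :
    |Phi w - Phi w'| ≤ ∑ i, 2 / √(2 * Real.pi) * ‖w i - w' i‖ := by
  unfold Phi
  rw [← integral_sub (integrable_mx w) (integrable_mx w')]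
  have hI : ∀ i, Integrable (fun x => |⟪w i - w' i, x⟫|) (stdGaussian E) := fun i =>
    (integrable_inner_stdGaussian _).abs
  have h1 : ∑ i, 2 / √(2 * Real.pi) * ‖w i - w' i‖ =
      ∫ x, ∑ i, |⟪w i - w' i, x⟫| ∂(stdGaussian E) := by
    rw [integral_finset_sum _ fun i _ => hI i]
    exact Finset.sum_congr rfl fun i _ => (integral_abs_inner_stdGaussian _).symm
  rw [h1]
  refine (abs_integral_le_integral_abs).trans (integral_mono
    ((integrable_mx w).sub (integrable_mx w')).abs (integrable_finset_sum _ fun i _ => hI i)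
    fun x => ?_)
  have key : ∀ a b : Fin k → E, mx a x - mx b x ≤ ∑ i, |⟪a i - b i, x⟫| := by
    intro a b
    obtain ⟨i, hi⟩ := exists_mx a x
    have h2 := le_mx b i x
    have h3 : |⟪a i - b i, x⟫| ≤ ∑ i, |⟪a i - b i, x⟫| :=
      Finset.single_le_sum (f := fun i => |⟪a i - b i, x⟫|) (fun i _ => abs_nonneg _)
      (Finset.mem_univ i)
    have h4 := le_abs_self ⟪a i - b i, x⟫
    have h5 : ⟪a i - b i, x⟫ = ⟪a i, x⟫ - ⟪b i, x⟫ := inner_sub_left _ _ _
    linarith
  rw [abs_le]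
  constructor
  · have := key w' w
    have h5 : ∑ i, |⟪w' i - w i, x⟫| = ∑ i, |⟪w i - w' i, x⟫| :=
      Finset.sum_congr rfl fun i _ => by rw [← neg_sub, inner_neg_left, abs_neg]
    rw [h5] at this
    linarith
  · exact key w w'

lemma continuous_Phi {k : ℕ} [Nonempty (Fin k)] :
    Continuous (Phi : (Fin k → E) → ℝ) := by
  rw [continuous_iff_continuousAt]
  intro w'
  rw [ContinuousAt, tendsto_iff_dist_tendsto_zero]
  have h1 : Tendsto (fun w : Fin k → E => ∑ i, 2 / √(2 * Real.pi) * ‖w i - w' i‖) (𝓝 w')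
      (𝓝 (∑ i, 2 / √(2 * Real.pi) * ‖w' i - w' i‖)) := by
    have : Continuous (fun w : Fin k → E => ∑ i, 2 / √(2 * Real.pi) * ‖w i - w' i‖) := by
      fun_prop
    exact this.tendsto w'
  simp only [sub_self, norm_zero, mul_zero, Finset.sum_const_zero] at h1
  exact squeeze_zero (fun _ => dist_nonneg) (fun w => abs_Phi_sub_le w w') h1

lemma isOpen_near {k : ℕ} (ε : ℝ) :
    IsOpen {w : Fin k → E | Near ε (fun i => MM • w i)} := by
  rw [isOpen_iff_mem_nhds]
  rintro w ⟨f, hf, h1, h2, h3⟩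
  have e1 : ∀ᶠ v : Fin k → E in 𝓝 w, ∀ j, |‖MM • v (f j)‖ ^ 2 - 3 / (8 * Real.pi)| < ε :=
    eventually_all.2 fun j => by
      have hc : Continuous fun v : Fin k → E => |‖MM • v (f j)‖ ^ 2 - 3 / (8 * Real.pi)| := by
        fun_prop
      exact hc.continuousAt.eventually_lt continuousAt_const (h1 j)
  have e2 : ∀ᶠ v : Fin k → E in 𝓝 w, ∀ i j, i ≠ j →
      |⟪MM • v (f i), MM • v (f j)⟫ + 3 / (16 * Real.pi)| < ε :=
    eventually_all.2 fun i => eventually_all.2 fun j => by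
      by_cases hij : i = j
      · exact Eventually.of_forall fun v hne => absurd hij hne
      · have hc : Continuous fun v : Fin k → E =>
            |⟪MM • v (f i), MM • v (f j)⟫ + 3 / (16 * Real.pi)| := by
          fun_prop
        exact (hc.continuousAt.eventually_lt continuousAt_const
          (h2 i j hij)).mono fun v hv _ => hv
  have e3 : ∀ᶠ v : Fin k → E in 𝓝 w, ∀ i, i ∉ Set.range f → ‖MM • v i‖ ^ 2 < ε :=
    eventually_all.2 fun i => by
      by_cases hi : i ∈ Set.range f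
      · exact Eventually.of_forall fun v hne => absurd hi hne
      · have hc : Continuous fun v : Fin k → E => ‖MM • v i‖ ^ 2 := by
          fun_prop
        exact (hc.continuousAt.eventually_lt continuousAt_const
          (h3 i hi)).mono fun v hv _ => hv
  filter_upwards [e1, e2, e3] with v a1 a2 a3
  exact ⟨f, hf, a1, a2, a3⟩

/-- **Compactness.** -/
theorem compact_step (k : ℕ) [Nonempty (Fin k)] {ε : ℝ} (hε : 0 < ε) :
    ∃ δ : ℝ, 0 < δ ∧ ∀ w : Fin k → EuclideanSpace ℝ (Fin k), ∑ i, ‖w i‖ ^ 2 = 1 →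
      MM - δ < Phi w → Near ε (fun i => MM • w i) := by
  let S : Set (Fin k → EuclideanSpace ℝ (Fin k)) := {w | ∑ i, ‖w i‖ ^ 2 = 1}
  let U : Set (Fin k → EuclideanSpace ℝ (Fin k)) := {w | Near ε (fun i => MM • w i)}
  have hS : IsCompact S := by
    refine Metric.isCompact_of_isClosed_isBounded (isClosed_eq (by fun_prop) continuous_const) ?_
    refine (Metric.isBounded_closedBall (x := (0 : Fin k → EuclideanSpace ℝ (Fin k)))
      (r := 1)).subset fun w hw => ?_
    rw [mem_closedBall_zero_iff, pi_norm_le_iff_of_nonneg zero_le_one]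
    intro i
    have h1 : ‖w i‖ ^ 2 ≤ ∑ i, ‖w i‖ ^ 2 :=
      Finset.single_le_sum (f := fun i => ‖w i‖ ^ 2) (fun i _ => by positivity)
      (Finset.mem_univ i)
    have h2 : ∑ i, ‖w i‖ ^ 2 = 1 := hw
    rw [h2] at h1
    exact (sq_le_one_iff₀ (norm_nonneg _)).1 h1
  have hK : IsCompact (S \ U) := hS.diff (isOpen_near ε)
  rcases (S \ U).eq_empty_or_nonempty with he | hne
  · refine ⟨1, one_pos, fun w hw _ => ?_⟩
    by_contra hc
    have : w ∈ S \ U := ⟨hw, hc⟩
    rw [he] at this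
    exact this
  · obtain ⟨w₀, hw₀, hmax⟩ := hK.exists_isMaxOn hne continuous_Phi.continuousOn
    have hle : Phi w₀ ≤ MM := by
      have h1 := Phi_le w₀
      have h2 : ∑ i, ‖w₀ i‖ ^ 2 = 1 := hw₀.1
      rw [h2] at h1
      linarith
    have hlt : Phi w₀ < MM := by
      refine lt_of_le_of_ne hle fun hc => hw₀.2 ?_
      exact near_of_eq hw₀.1 hc hε
    refine ⟨MM - Phi w₀, sub_pos.2 hlt, fun w hw h => ?_⟩
    by_contra hc
    have h1 : Phi w ≤ Phi w₀ := hmax ⟨hw, hc⟩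
    linarith

end Vale.Agent.P226.S765
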