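import Vale.Agent.P226.H765.NearPart
import Vale.Agent.P226.H765.Gau

set_option linter.all false

/-!
# P226, stability: the mean maximum is the perimeter term plus a cubic error
-/

open MeasureTheory ProbabilityTheory Set Filter Topology
open scoped RealInnerProductSpace

namespace Vale.Agent.P226.S765

open K3 Eqc

variable {E : Type*} [NormedAddCommGroup E] [InnerProductSpace ℝ E] [FiniteDimensional ℝ E]
  [MeasurableSpace E] [BorelSpace E]

lemma MM_eq : MM = 3 / (2 * √(2 * Real.pi)) := by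
  have h1 : (3 / (2 * √(2 * Real.pi))) ^ 2 = 9 / (8 * Real.pi) := by
    rw [div_pow, mul_pow, Real.sq_sqrt (by positivity)]
    field_simp
    norm_num
  rw [MM, ← h1, Real.sqrt_sq (by positivity)]

lemma sum_split {k : ℕ} {f : Fin 3 → Fin k} (hf : Function.Injective f) (g : Fin k → ℝ) :
    ∑ i, g i = (g (f 0) + g (f 1) + g (f 2)) +
      ∑ i ∈ Finset.univ.filter (fun i => ∀ j, f j ≠ i), g i := by
  classical
  rw [← Finset.sum_filter_not_add_sum_filter Finset.univ (fun i => ∀ j, f j ≠ i)]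
  congr 1
  have : Finset.univ.filter (fun i => ¬ ∀ j, f j ≠ i) = Finset.univ.image f := by
    ext i
    simp
  rw [this, Finset.sum_image (fun _ _ _ _ h => hf h), Fin.sum_univ_three]

lemma integrable_exc (V : Submodule ℝ E) (v : E) {c : ℝ} (hc : 0 ≤ c) :
    Integrable (fun x => max (⟪v, x⟫ - c * ‖V.starProjection x‖) 0) (stdGaussian E) := by
  have hcont : Continuous (fun x : E => max (⟪v, x⟫ - c * ‖V.starProjection x‖) 0) := by
    fun_prop
  refine (integrable_inner_stdGaussian v).abs.mono' hcont.aestronglyMeasurable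
    (Filter.Eventually.of_forall fun x => ?_)
  rw [Real.norm_eq_abs, abs_of_nonneg (le_max_right _ _)]
  refine max_le ?_ (abs_nonneg _)
  have h1 := le_abs_self ⟪v, x⟫
  have h2 : 0 ≤ c * ‖V.starProjection x‖ := by positivity
  linarith

/-- Upper bound of the mean maximum. -/
theorem Phi_le_main {k : ℕ} [Nonempty (Fin k)] (z : Fin k → E) {f : Fin 3 → Fin k}
    {u : Fin 3 → E} (hu : ∀ j, ‖u j‖ = 1)
    (hs : u 0 + u 1 + u 2 = 0) {y : ℝ} (hy : 0 ≤ y)
    (hz : ∀ i, (∀ j, f j ≠ i) → ∀ j, ‖z i - (z (f j) - rr • u j)‖ ≤ y) :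
    Phi z ≤ MM * ((‖z (f 0) - z (f 1)‖ + ‖z (f 1) - z (f 2)‖ + ‖z (f 0) - z (f 2)‖) / 3) +
      18 * k * y ^ 3 := by
  classical
  obtain ⟨V, hV, hm⟩ := exists_plane (hu 0) (hu 1) (hu 2) hs
  have hr := rr_pos
  have hr2 := rr_sq
  have hρ := rho_lo
  set T : Finset (Fin k) := Finset.univ.filter (fun i => ∀ j, f j ≠ i) with hT
  let M3 : E → ℝ := fun x => max ⟪z (f 0), x⟫ (max ⟪z (f 1), x⟫ ⟪z (f 2), x⟫)
  let g : Fin k → Fin 3 → E → ℝ := fun i j x =>
    max (⟪z i - (z (f j) - rr • u j), x⟫ - rr / 2 * ‖V.starProjection x‖) 0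
  have hM3 : ∀ j x, ⟪z (f j), x⟫ ≤ M3 x := by
    intro j x
    fin_cases j
    · exact le_max_left _ _
    · exact (le_max_left _ _).trans (le_max_right _ _)
    · exact (le_max_right _ _).trans (le_max_right _ _)
  have hg0 : ∀ i j x, 0 ≤ g i j x := fun i j x => le_max_right _ _
  have hpt : ∀ x, mx z x ≤ M3 x + ∑ i ∈ T, ∑ j, g i j x := by
    intro x
    have hsum0 : 0 ≤ ∑ i ∈ T, ∑ j, g i j x :=
      Finset.sum_nonneg fun i _ => Finset.sum_nonneg fun j _ => hg0 i j x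
    refine mx_le fun i => ?_
    by_cases hi : ∀ j, f j ≠ i
    · obtain ⟨j, hj⟩ := Finite.exists_max (fun j => ⟪u j, x⟫)
      have h1 := hm x ⟪u j, x⟫ (hj 0) (hj 1) (hj 2)
      have h2 : g i j x ≤ ∑ i ∈ T, ∑ j, g i j x := by
        refine le_trans ?_ (Finset.single_le_sum (f := fun i => ∑ j, g i j x)
          (fun i _ => Finset.sum_nonneg fun j _ => hg0 i j x)
          (show i ∈ T by rw [hT, Finset.mem_filter]; exact ⟨Finset.mem_univ _, hi⟩))
        exact Finset.single_le_sum (f := fun j => g i j x) (fun j _ => hg0 i j x)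
          (Finset.mem_univ j)
      have h3 : ⟪z i, x⟫ = ⟪z (f j), x⟫ + (⟪z i - (z (f j) - rr • u j), x⟫ - rr * ⟪u j, x⟫) := by
        rw [inner_sub_left, inner_sub_left, real_inner_smul_left]
        ring
      have h4 : ⟪z i - (z (f j) - rr • u j), x⟫ - rr * ⟪u j, x⟫ ≤ g i j x := by
        refine le_trans ?_ (le_max_left _ _)
        have h5 : rr / 2 * ‖V.starProjection x‖ ≤ rr / 2 * (2 * ⟪u j, x⟫) :=
          mul_le_mul_of_nonneg_left h1 (by positivity)
        linarith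
      have h6 := hM3 j x
      linarith
    · push Not at hi
      obtain ⟨j, rfl⟩ := hi
      have h6 := hM3 j x
      linarith
  have hgi : ∀ i j, Integrable (g i j) (stdGaussian E) := fun i j =>
    integrable_exc V _ (by positivity)
  have hM3i : Integrable M3 (stdGaussian E) :=
    (integrable_inner_stdGaussian _).sup
      ((integrable_inner_stdGaussian _).sup (integrable_inner_stdGaussian _))
  have hsi : Integrable (fun x => ∑ i ∈ T, ∑ j, g i j x) (stdGaussian E) :=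
    integrable_finset_sum _ fun i _ => integrable_finset_sum _ fun j _ => hgi i j
  have h1 : Phi z ≤ ∫ x, (M3 x + ∑ i ∈ T, ∑ j, g i j x) ∂(stdGaussian E) :=
    integral_mono (integrable_mx z) (hM3i.add hsi) hpt
  have h2 : ∫ x, (M3 x + ∑ i ∈ T, ∑ j, g i j x) ∂(stdGaussian E) =
      ∫ x, M3 x ∂(stdGaussian E) + ∑ i ∈ T, ∑ j, ∫ x, g i j x ∂(stdGaussian E) := by
    rw [integral_add hM3i hsi, integral_finset_sum _ fun i _ =>
      integrable_finset_sum _ fun j _ => hgi i j]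
    congr 1
    exact Finset.sum_congr rfl fun i _ => integral_finset_sum _ fun j _ => hgi i j
  have h3 : ∫ x, M3 x ∂(stdGaussian E) =
      MM * ((‖z (f 0) - z (f 1)‖ + ‖z (f 1) - z (f 2)‖ + ‖z (f 0) - z (f 2)‖) / 3) := by
    rw [integral_max3, MM_eq]
    field_simp
  have h4 : ∀ i ∈ T, ∀ j, ∫ x, g i j x ∂(stdGaussian E) ≤ 6 * y ^ 3 := by
    intro i hi j
    have hi' : ∀ j, f j ≠ i := by
      rw [hT, Finset.mem_filter] at hi
      exact hi.2
    have h5 := excess_le hV (z i - (z (f j) - rr • u j)) (c := rr / 2) (by positivity)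
    refine h5.trans ?_
    have h6 : (rr / 2) ^ 2 = rho / 4 := by rw [div_pow, hr2]; norm_num
    rw [h6, div_le_iff₀ (by linarith)]
    have h7 : ‖z i - (z (f j) - rr • u j)‖ ^ 3 ≤ y ^ 3 :=
      pow_le_pow_left₀ (norm_nonneg _) (hz i hi' j) 3
    have h8 : 0 ≤ y ^ 3 := by positivity
    nlinarith
  have h5 : ∑ i ∈ T, ∑ j, ∫ x, g i j x ∂(stdGaussian E) ≤ 18 * k * y ^ 3 := by
    have h6 : ∑ i ∈ T, ∑ j, ∫ x, g i j x ∂(stdGaussian E) ≤ ∑ i ∈ T, (18 * y ^ 3 : ℝ) := by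
      refine Finset.sum_le_sum fun i hi => ?_
      calc ∑ j, ∫ x, g i j x ∂(stdGaussian E) ≤ ∑ _j : Fin 3, (6 * y ^ 3 : ℝ) :=
            Finset.sum_le_sum fun j _ => h4 i hi j
        _ = 18 * y ^ 3 := by
          rw [Finset.sum_const, Finset.card_univ, Fintype.card_fin, nsmul_eq_mul]
          push_cast
          ring
    refine h6.trans ?_
    rw [Finset.sum_const, nsmul_eq_mul]
    have h7 : (T.card : ℝ) ≤ k := by
      have := Finset.card_le_univ T
      rw [Fintype.card_fin] at this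
      exact_mod_cast this
    have h8 : 0 ≤ 18 * y ^ 3 := by positivity
    calc (T.card : ℝ) * (18 * y ^ 3) ≤ k * (18 * y ^ 3) := mul_le_mul_of_nonneg_right h7 h8
      _ = 18 * k * y ^ 3 := by ring
  linarith

/-- The deficit inequality. -/
theorem deficit_ineq {k : ℕ} [Nonempty (Fin k)] {A : Fin k → Set E} (hA : IsPart A)
    {f : Fin 3 → Fin k} (hf : Function.Injective f) {X : ℝ}
    (hX : Phi (fun i => fm (A i)) ≤ MM * ((‖fm (A (f 0)) - fm (A (f 1))‖ +
      ‖fm (A (f 1)) - fm (A (f 2))‖ + ‖fm (A (f 0)) - fm (A (f 2))‖) / 3) + X) :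
    (∑ i ∈ Finset.univ.filter (fun i => ∀ j, f j ≠ i), ‖fm (A i)‖ ^ 2) / 2 +
      ((‖fm (A (f 0)) - fm (A (f 1))‖ - ‖fm (A (f 1)) - fm (A (f 2))‖) ^ 2 +
       (‖fm (A (f 1)) - fm (A (f 2))‖ - ‖fm (A (f 0)) - fm (A (f 2))‖) ^ 2 +
       (‖fm (A (f 0)) - fm (A (f 1))‖ - ‖fm (A (f 0)) - fm (A (f 2))‖) ^ 2 +
        3 * ‖fm (A (f 0)) + fm (A (f 1)) + fm (A (f 2))‖ ^ 2) / 18 ≤
      (MM ^ 2 - ∑ i, ‖fm (A i)‖ ^ 2) / 2 + X := by
  have h1 := perimeter_defect (fm (A (f 0))) (fm (A (f 1))) (fm (A (f 2)))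
  have h2 := sum_split hf (fun i => ‖fm (A i)‖ ^ 2)
  have h3 : ∑ i, ‖fm (A i)‖ ^ 2 ≤ Phi (fun i => fm (A i)) := by
    refine le_trans (le_of_eq ?_) (sum_inner_le_Phi hA _)
    exact Finset.sum_congr rfl fun i _ => (real_inner_self_eq_norm_sq _).symm
  set P := ‖fm (A (f 0)) - fm (A (f 1))‖ + ‖fm (A (f 1)) - fm (A (f 2))‖ +
    ‖fm (A (f 0)) - fm (A (f 2))‖ with hP
  have h4 : MM * (P / 3) ≤ (MM ^ 2 + P ^ 2 / 9) / 2 := by
    nlinarith [sq_nonneg (MM - P / 3)]
  linarith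

end Vale.Agent.P226.S765
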