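import Vale.Agent.P226.H765.Slk2
import Vale.Agent.P226.H765.Tail

set_option linter.all false

/-!
# P226, stability: obtuse near maximisers have at most four relevant cells
-/

open MeasureTheory ProbabilityTheory Set Filter Topology
open scoped RealInnerProductSpace

namespace Vale.Agent.P226.Sl.Bad

open K3

variable {E : Type*} [NormedAddCommGroup E] [InnerProductSpace ℝ E] [FiniteDimensional ℝ E]
  [MeasurableSpace E] [BorelSpace E]

theorem tail_le (B : Bad E) : ∑ i : Fin B.m, B.ζ i.succ.succ.succ.succ ^ 2 ≤ 1000 * B.s := by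
  have h2 : 0.4 < B.ζ 2 := B.span3.caseC
  have a4 := B.aff4
  have a3 := B.aff3 (.of_finrank B.finrank_V2) (.of_finrank B.finrank_V2)
    (Gauss3.integral_norm_proj_two B.finrank_V2)
  rcases le_total (B.ζ 3) 0.36 with h3 | h3
  · rcases le_total (∑ i : Fin (B.m + 1), B.ζ i.succ.succ.succ ^ 2) 0.27 with hσ | hσ
    · have h5 := a3.caseA h3 hσ
      rw [Fin.sum_univ_succ] at h5
      have h6 := sq_nonneg (B.ζ (Fin.succ (Fin.succ (Fin.succ (0 : Fin (B.m + 1))))))
      linarith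
    · have h4 : 0.2 ≤ B.ζ 3 := by
        by_contra hc
        push Not at hc
        exact absurd (B.span3.caseD hc.le) (not_lt.2 hσ)
      exact a4.caseB h2 (Or.inr ⟨h4, hσ⟩)
  · exact a4.caseB h2 (Or.inl h3)

end Vale.Agent.P226.Sl.Bad

namespace Vale.Agent.P226.S765

open K3 Eqc

variable {E : Type*} [NormedAddCommGroup E] [InnerProductSpace ℝ E] [FiniteDimensional ℝ E]
  [MeasurableSpace E] [BorelSpace E]

theorem obtuse_tail {m : ℕ} {A : Fin (m + 4) → Set E} (hA : IsPart A)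
    (hob : ∀ i j, i ≠ j → ⟪fm (A i), fm (A j)⟫ < 0) (hanti : Antitone fun i => ‖fm (A i)‖)
    (hD : MM ^ 2 - ∑ i, ‖fm (A i)‖ ^ 2 ≤ 1 / 100000) :
    ∑ i : Fin m, ‖fm (A i.succ.succ.succ.succ)‖ ^ 2 ≤
      1000 * (MM ^ 2 - ∑ i, ‖fm (A i)‖ ^ 2) := by
  have hpi := Real.pi_pos
  have hpi2 := Real.pi_lt_d2
  let B : Sl.Bad E :=
    { m := m
      A := A
      part := hA
      s := 2 * Real.pi * (MM ^ 2 - ∑ i, ‖fm (A i)‖ ^ 2)
      s_le := by
        have h0 : 2 * Real.pi * (MM ^ 2 - ∑ i, ‖fm (A i)‖ ^ 2) ≤ 2 * Real.pi * (1 / 100000) :=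
          mul_le_mul_of_nonneg_left hD (by positivity)
        linarith
      big := by
        rw [← MM_sq]
        have h0 : 2 * Real.pi * (MM ^ 2 - ∑ i, ‖fm (A i)‖ ^ 2) / (2 * Real.pi) =
            MM ^ 2 - ∑ i, ‖fm (A i)‖ ^ 2 := by
          field_simp
        rw [h0]
        linarith
      obtuse := hob
      anti := hanti }
  have h1 := B.tail_le
  have h2 : ∀ i, B.ζ i ^ 2 = 2 * Real.pi * ‖fm (A i)‖ ^ 2 := fun i => B.ζ_sq i
  simp_rw [h2] at h1
  rw [← Finset.mul_sum] at h1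
  have h3 : B.s = 2 * Real.pi * (MM ^ 2 - ∑ i, ‖fm (A i)‖ ^ 2) := rfl
  rw [h3] at h1
  have h4 : 2 * Real.pi * ∑ i : Fin m, ‖fm (A i.succ.succ.succ.succ)‖ ^ 2 ≤
      2 * Real.pi * (1000 * (MM ^ 2 - ∑ i, ‖fm (A i)‖ ^ 2)) := by linarith
  exact le_of_mul_le_mul_left h4 (by positivity)

lemma fm_push' {ι κ : Type*} [Fintype ι] [DecidableEq κ] {A : ι → Set E} (h : IsPart A)
    (φ : ι → κ) (c : κ) : fm (push A φ c) = ∑ j ∈ Finset.univ.filter (fun j => φ j = c), fm (A j) := by
  rw [fm_push h, Finset.sum_subtype (p := fun j => φ j = c) (Finset.univ.filter (fun j => φ j = c))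
    (fun x => by simp)]

/-- Case of at most four cells with nonzero moment. -/
lemma exists_phi_small {k : ℕ} {A : Fin k → Set E} {S : Finset (Fin k)}
    (hmemS : ∀ j, j ∈ S ↔ fm (A j) ≠ 0) (hc : S.card ≤ 4) :
    ∃ φ : Fin k → Fin 5, (∀ i j, φ i = φ j → φ i ≠ 4 → i = j) ∧
      ∑ i ∈ Finset.univ.filter (fun i => φ i = 4), ‖fm (A i)‖ ^ 2 = 0 := by
  classical
  obtain ⟨g⟩ : Nonempty (S ↪ Fin 4) := by
    rw [Function.Embedding.nonempty_iff_card_le]
    simpa using hc
  refine ⟨fun i => if hi : i ∈ S then (g ⟨i, hi⟩).castSucc else 4, ?_, ?_⟩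
  · intro i j hij hi4
    by_cases hi : i ∈ S
    · by_cases hj : j ∈ S
      · simp only [dif_pos hi, dif_pos hj] at hij
        have h1 := g.injective (Fin.castSucc_injective _ hij)
        exact congrArg Subtype.val h1
      · exfalso
        apply hi4
        rw [hij]
        simp only [dif_neg hj]
    · exfalso
      apply hi4
      simp only [dif_neg hi]
  · refine Finset.sum_eq_zero fun i hi => ?_
    rw [Finset.mem_filter] at hi
    by_cases hiS : i ∈ S
    · have h1 := hi.2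
      simp only [dif_pos hiS] at h1
      have h2 : ((g ⟨i, hiS⟩).castSucc : Fin 5).val = 4 := by rw [h1]; rfl
      have h3 := (g ⟨i, hiS⟩).isLt
      simp only [Fin.val_castSucc] at h2
      omega
    · have h1 : fm (A i) = 0 := by
        by_contra hne
        exact hiS ((hmemS i).2 hne)
      rw [h1]
      simp

/-- Case of at least four cells with nonzero moment. -/
lemma exists_phi_big {k : ℕ} {A : Fin k → Set E} (hA : IsPart A)
    (hob : ∀ i j, i ≠ j → fm (A i) ≠ 0 → fm (A j) ≠ 0 → ⟪fm (A i), fm (A j)⟫ < 0)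
    (hD : MM ^ 2 - ∑ i, ‖fm (A i)‖ ^ 2 ≤ 1 / 100000) {S : Finset (Fin k)}
    (hmemS : ∀ j, j ∈ S ↔ fm (A j) ≠ 0) (hc : 4 ≤ S.card) :
    ∃ φ : Fin k → Fin 5, (∀ i j, φ i = φ j → φ i ≠ 4 → i = j) ∧
      ∑ i ∈ Finset.univ.filter (fun i => φ i = 4), ‖fm (A i)‖ ^ 2 ≤
        1000 * (MM ^ 2 - ∑ i, ‖fm (A i)‖ ^ 2) := by
  classical
  obtain ⟨m, hm⟩ : ∃ m, S.card = m + 4 := ⟨S.card - 4, by omega⟩
  let e : Fin (m + 4) ≃ S := (S.equivFinOfCardEq hm).symm
  let σ : Equiv.Perm (Fin (m + 4)) := Tuple.sort fun i => -‖fm (A (e i))‖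
  have hσ : Monotone ((fun i => -‖fm (A (e i))‖) ∘ σ) := Tuple.monotone_sort _
  let τ : Fin (m + 4) ≃ S := σ.trans e
  let φ : Fin k → Fin (m + 4) := fun j => if hj : j ∈ S then τ.symm ⟨j, hj⟩ else 0
  have hφ : ∀ i, φ (τ i) = i := by
    intro i
    simp only [φ]
    rw [dif_pos (τ i).2]
    simp
  let A' : Fin (m + 4) → Set E := push A φ
  have hA' : IsPart A' := isPart_push hA φ
  have hfm : ∀ i, fm (A' i) = fm (A (τ i)) := by
    intro i
    have h1 : fm (A' i) = ∑ j : {j : Fin k // φ j = i}, fm (A j) := fm_push hA φ i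
    rw [h1, Fintype.sum_eq_single (⟨(τ i : Fin k), hφ i⟩ : {j : Fin k // φ j = i})]
    intro j hj
    by_contra hne
    have hjS : (j : Fin k) ∈ S := (hmemS _).2 hne
    apply hj
    have h2 : φ j = i := j.2
    simp only [φ] at h2
    rw [dif_pos hjS] at h2
    apply Subtype.ext
    have h3 : (⟨(j : Fin k), hjS⟩ : S) = τ i := (Equiv.symm_apply_eq τ).1 h2
    exact congrArg (Subtype.val : S → Fin k) h3
  have hsum : ∑ i, ‖fm (A' i)‖ ^ 2 = ∑ i, ‖fm (A i)‖ ^ 2 := by
    simp_rw [hfm]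
    rw [Equiv.sum_comp τ (fun s : S => ‖fm (A s)‖ ^ 2),
      Finset.sum_coe_sort S (fun j => ‖fm (A j)‖ ^ 2)]
    refine Finset.sum_subset (Finset.subset_univ _) fun j _ hj => ?_
    have : fm (A j) = 0 := by
      by_contra hne
      exact hj ((hmemS j).2 hne)
    rw [this]
    simp
  have htail := obtuse_tail hA' (by
      intro i j hij
      rw [hfm, hfm]
      exact hob _ _ (fun hc => hij (τ.injective (Subtype.ext hc)))
        ((hmemS _).1 (τ i).2) ((hmemS _).1 (τ j).2)) (by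
      intro i j hij
      have := hσ hij
      simp only [Function.comp] at this
      simp only [hfm]
      exact neg_le_neg_iff.1 this) (by rw [hsum]; exact hD)
  rw [hsum] at htail
  -- the map to five cells
  let ψ : Fin (m + 4) → Fin 5 := fun i => ⟨min i.val 4, by omega⟩
  refine ⟨fun j => if hj : j ∈ S then ψ (τ.symm ⟨j, hj⟩) else 4, ?_, ?_⟩
  · intro i j hij hi4
    by_cases hi : i ∈ S
    · by_cases hj : j ∈ S
      · simp only [dif_pos hi, dif_pos hj] at hij hi4
        have h1 : (τ.symm ⟨i, hi⟩) = τ.symm ⟨j, hj⟩ := by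
          have h2 := congrArg Fin.val hij
          have h3 : (ψ (τ.symm ⟨i, hi⟩)).val ≠ 4 := fun hc => hi4 (Fin.ext hc)
          simp only [ψ] at h2 h3
          apply Fin.ext
          omega
        exact congrArg Subtype.val (τ.symm.injective h1)
      · exfalso
        apply hi4
        rw [hij]
        simp only [dif_neg hj]
    · exfalso
      apply hi4
      simp only [dif_neg hi]
  · refine le_trans (le_of_eq ?_) htail
    -- sum over the fibre of 4
    have h1 : ∑ i ∈ Finset.univ.filter (fun i => (if hj : i ∈ S then ψ (τ.symm ⟨i, hj⟩) else 4) = 4),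
        ‖fm (A i)‖ ^ 2 = ∑ i ∈ S, (if 4 ≤ (φ i).val then ‖fm (A i)‖ ^ 2 else 0) := by
      rw [Finset.sum_filter]
      rw [← Finset.sum_subset (Finset.subset_univ S)]
      · refine Finset.sum_congr rfl fun i hi => ?_
        simp only [dif_pos hi, φ]
        by_cases h4 : 4 ≤ (τ.symm ⟨i, hi⟩).val
        · rw [if_pos h4, if_pos]
          apply Fin.ext
          simp only [ψ]
          show min (τ.symm ⟨i, hi⟩).val 4 = 4
          omega
        · rw [if_neg h4, if_neg]
          intro hc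
          have h5 := congrArg Fin.val hc
          simp only [ψ] at h5
          have h6 : ((4 : Fin 5) : ℕ) = 4 := rfl
          rw [h6] at h5
          omega
      · intro i _ hi
        have : fm (A i) = 0 := by
          by_contra hne
          exact hi ((hmemS i).2 hne)
        rw [this]
        simp
    rw [h1, ← Finset.sum_coe_sort S (fun i => if 4 ≤ (φ i).val then ‖fm (A i)‖ ^ 2 else 0),
      ← Equiv.sum_comp τ (fun s : S => if 4 ≤ (φ s).val then ‖fm (A s)‖ ^ 2 else 0)]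
    simp_rw [hφ, ← hfm]
    rw [Fin.sum_univ_succ, Fin.sum_univ_succ, Fin.sum_univ_succ, Fin.sum_univ_succ]
    have v0 : ¬ 4 ≤ ((0 : Fin (m + 4)) : ℕ) := by simp
    have v1 : ¬ 4 ≤ ((Fin.succ (0 : Fin (m + 3)) : Fin (m + 4)) : ℕ) := by
      simp only [Fin.val_succ, Fin.val_zero]; omega
    have v2 : ¬ 4 ≤ ((Fin.succ (Fin.succ (0 : Fin (m + 2))) : Fin (m + 4)) : ℕ) := by
      simp only [Fin.val_succ, Fin.val_zero]; omega
    have v3 : ¬ 4 ≤ ((Fin.succ (Fin.succ (Fin.succ (0 : Fin (m + 1)))) : Fin (m + 4)) : ℕ) := by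
      simp only [Fin.val_succ, Fin.val_zero]; omega
    have v4 : ∀ i : Fin m, 4 ≤ ((i.succ.succ.succ.succ : Fin (m + 4)) : ℕ) := by
      intro i
      simp only [Fin.val_succ]; omega
    rw [if_neg v0, if_neg v1, if_neg v2, if_neg v3, zero_add, zero_add, zero_add, zero_add]
    exact Finset.sum_congr rfl fun i _ => if_pos (v4 i)

end Vale.Agent.P226.S765
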