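import Vale.Agent.P226.H765.Boot
import Vale.Agent.P226.H765.Obt

set_option linter.all false

/-!
# P226, stability: merging of cells
-/

open MeasureTheory ProbabilityTheory Set Filter Topology
open scoped RealInnerProductSpace

namespace Vale.Agent.P226.S765

open K3 Eqc

universe u

/-- The fixed closeness. -/
noncomputable def s0 : ℝ := 1 / 1000000000

lemma s0_pos : 0 < s0 := by unfold s0; norm_num

lemma s0_sq : s0 ^ 2 = 1 / 1000000000000000000 := by unfold s0; norm_num

variable {E : Type*} [NormedAddCommGroup E] [InnerProductSpace ℝ E] [FiniteDimensional ℝ E]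
  [MeasurableSpace E] [BorelSpace E]

lemma sum_sq_push {k : ℕ} {A : Fin k → Set E} (hA : IsPart A) {φ : Fin k → Fin 5}
    (hφ : ∀ i j, φ i = φ j → φ i ≠ 4 → i = j) {c : Fin 5} (hc : c ≠ 4) :
    ‖fm (push A φ c)‖ ^ 2 = ∑ i ∈ Finset.univ.filter (fun i => φ i = c), ‖fm (A i)‖ ^ 2 := by
  classical
  rw [fm_push' hA]
  rcases (Finset.univ.filter (fun i => φ i = c)).eq_empty_or_nonempty with he | ⟨i, hi⟩
  · rw [he]
    simp
  · have hi' := (Finset.mem_filter.1 hi).2
    have : Finset.univ.filter (fun i => φ i = c) = {i} := by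
      ext l
      rw [Finset.mem_filter, Finset.mem_singleton]
      constructor
      · rintro ⟨-, hl⟩
        exact hφ l i (by rw [hl, hi']) (by rw [hl]; exact hc)
      · rintro rfl
        exact ⟨Finset.mem_univ _, hi'⟩
    rw [this, Finset.sum_singleton, Finset.sum_singleton]

lemma sum_five (g : Fin 5 → ℝ) : ∑ c, g c = ∑ c ∈ Finset.univ.erase 4, g c + g 4 := by
  rw [Finset.sum_erase_add _ _ (Finset.mem_univ 4)]

/-- **At most five cells after merging.** -/
theorem five : ∃ δ : ℝ, 0 < δ ∧ ∀ (E : Type u) [NormedAddCommGroup E] [InnerProductSpace ℝ E]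
      [FiniteDimensional ℝ E] [MeasurableSpace E] [BorelSpace E] (k : ℕ) (A : Fin k → Set E)
      (φ : Fin k → Fin 5), IsPart A → (∀ i j, φ i = φ j → φ i ≠ 4 → i = j) →
      ∑ i ∈ Finset.univ.filter (fun i => φ i = 4), ‖fm (A i)‖ ^ 2 ≤
        1000 * (MM ^ 2 - ∑ i, ‖fm (A i)‖ ^ 2) →
      MM ^ 2 - ∑ i, ‖fm (A i)‖ ^ 2 < δ →
      ∃ f : Fin 3 → Fin k, Function.Injective f ∧
        Gram3 (s0 ^ 2) (fm (A (f 0))) (fm (A (f 1))) (fm (A (f 2))) ∧
        ∑ i ∈ Finset.univ.filter (fun i => ∀ j, f j ≠ i), ‖fm (A i)‖ ^ 2 ≤ 36 * s0 ^ 2 := by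
  have hs0 := s0_pos
  obtain ⟨δ5, hδ5, h5⟩ := near_of_part.{u} 5 (ε := s0 ^ 2) (by positivity)
  refine ⟨min (δ5 / 2000) (s0 ^ 2 / 2000), lt_min (by positivity) (by positivity), ?_⟩
  intro E _ _ _ _ _ k A φ hA hφ hR hD
  classical
  have hD1 := lt_of_lt_of_le hD (min_le_left _ _)
  have hD2 := lt_of_lt_of_le hD (min_le_right _ _)
  have hρ1 := rho_lo
  have hs2 := s0_sq
  obtain ⟨R, hRd⟩ : ∃ R : ℝ, R = ∑ i ∈ Finset.univ.filter (fun i => φ i = 4), ‖fm (A i)‖ ^ 2 :=
    ⟨_, rfl⟩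
  rw [← hRd] at hR
  have hB : IsPart (push A φ) := isPart_push hA φ
  have hF : ∑ i, ‖fm (A i)‖ ^ 2 =
      ∑ c ∈ Finset.univ.erase 4, ‖fm (push A φ c)‖ ^ 2 + R := by
    rw [← Finset.sum_fiberwise Finset.univ φ, sum_five, hRd]
    congr 1
    refine Finset.sum_congr rfl fun c hc => ?_
    exact (sum_sq_push hA hφ (Finset.ne_of_mem_erase hc)).symm
  have hFB := sum_five (fun c => ‖fm (push A φ c)‖ ^ 2)
  have hBM : ∑ c, ‖fm (push A φ c)‖ ^ 2 ≤ MM ^ 2 := by rw [MM_sq]; exact bdd 5 _ hB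
  have h4 : ‖fm (push A φ 4)‖ ^ 2 < s0 ^ 2 := by linarith
  have h40 : 0 ≤ ‖fm (push A φ 4)‖ ^ 2 := by positivity
  obtain ⟨g, hg, g1, g2, g3⟩ := h5 E (push A φ) hB (by linarith)
  have hρ : 3 / (8 * Real.pi) = rho := rfl
  have hρ' : 3 / (16 * Real.pi) = rho / 2 := by
    rw [← hρ]
    field_simp
    norm_num
  rw [hρ] at g1
  rw [hρ'] at g2
  have hg4 : ∀ m, g m ≠ 4 := by
    intro m hm
    have := (abs_lt.1 (g1 m)).1
    rw [hm] at this
    linarith
  have hex : ∀ m, ∃ i, φ i = g m := by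
    intro m
    by_contra hc
    push Not at hc
    have h6 := sum_sq_push hA hφ (hg4 m)
    have h7 : Finset.univ.filter (fun i => φ i = g m) = ∅ := by
      rw [Finset.filter_eq_empty_iff]
      intro i _
      exact hc i
    rw [h7, Finset.sum_empty] at h6
    have := (abs_lt.1 (g1 m)).1
    rw [h6] at this
    linarith
  choose f hf using hex
  have hfinj : Function.Injective f := by
    intro a b hab
    apply hg
    rw [← hf, ← hf, hab]
  have hfm : ∀ m, fm (push A φ (g m)) = fm (A (f m)) := by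
    intro m
    rw [fm_push' hA]
    have : Finset.univ.filter (fun i => φ i = g m) = {f m} := by
      ext l
      rw [Finset.mem_filter, Finset.mem_singleton]
      constructor
      · rintro ⟨-, hl⟩
        exact hφ l (f m) (by rw [hl, hf]) (by rw [hl]; exact hg4 m)
      · rintro rfl
        exact ⟨Finset.mem_univ _, hf m⟩
    rw [this, Finset.sum_singleton]
  simp only [hfm] at g1 g2
  refine ⟨f, hfinj, ⟨(g1 0).le, (g1 1).le, (g1 2).le, (g2 0 1 (by decide)).le,
    (g2 1 2 (by decide)).le, (g2 0 2 (by decide)).le⟩, ?_⟩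
  have hR0 : 0 ≤ R := by rw [hRd]; exact Finset.sum_nonneg fun i _ => by positivity
  rw [← Finset.sum_fiberwise (Finset.univ.filter (fun i => ∀ j, f j ≠ i)) φ]
  have hin : ∀ c : Fin 5, ∑ i ∈ (Finset.univ.filter (fun i => ∀ j, f j ≠ i)).filter
      (fun i => φ i = c), ‖fm (A i)‖ ^ 2 ≤ 2 * s0 ^ 2 := by
    intro c
    by_cases hc4 : c = 4
    · subst hc4
      have h6 : ∑ i ∈ (Finset.univ.filter (fun i => ∀ j, f j ≠ i)).filter
          (fun i => φ i = 4), ‖fm (A i)‖ ^ 2 ≤ R := by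
        rw [hRd]
        refine Finset.sum_le_sum_of_subset_of_nonneg ?_ fun _ _ _ => by positivity
        exact Finset.filter_subset_filter _ (Finset.subset_univ _)
      linarith
    · by_cases hcg : ∃ m, g m = c
      · obtain ⟨m, rfl⟩ := hcg
        refine le_trans (le_of_eq (Finset.sum_eq_zero fun i hi => ?_)) (by positivity)
        rw [Finset.mem_filter, Finset.mem_filter] at hi
        exfalso
        have h6 : i = f m := hφ i (f m) (by rw [hi.2, hf]) (by rw [hi.2]; exact hg4 m)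
        exact hi.1.2 m h6.symm
      · have h6 : ∑ i ∈ (Finset.univ.filter (fun i => ∀ j, f j ≠ i)).filter
            (fun i => φ i = c), ‖fm (A i)‖ ^ 2 ≤ ‖fm (push A φ c)‖ ^ 2 := by
          rw [sum_sq_push hA hφ hc4]
          refine Finset.sum_le_sum_of_subset_of_nonneg ?_ fun _ _ _ => by positivity
          exact Finset.filter_subset_filter _ (Finset.subset_univ _)
        have h7 := g3 c (fun hc => hcg hc)
        have h8 : 0 < s0 ^ 2 := by positivity
        linarith
  calc ∑ c, ∑ i ∈ (Finset.univ.filter (fun i => ∀ j, f j ≠ i)).filter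
        (fun i => φ i = c), ‖fm (A i)‖ ^ 2 ≤ ∑ _c : Fin 5, 2 * s0 ^ 2 :=
        Finset.sum_le_sum fun c _ => hin c
    _ = 10 * s0 ^ 2 := by
      rw [Finset.sum_const, Finset.card_univ, Fintype.card_fin, nsmul_eq_mul]
      push_cast
      ring
    _ ≤ 36 * s0 ^ 2 := by nlinarith

end Vale.Agent.P226.S765
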