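import Vale.Agent.P226.H765.Glob

set_option linter.all false

/-!
# P226, stability: near maximisers are Gram close to a propeller, in every dimension
-/

open MeasureTheory ProbabilityTheory Set Filter Topology
open scoped RealInnerProductSpace

namespace Vale.Agent.P226.S765

open K3 Eqc

universe u

theorem near_of_part (k : ℕ) [Nonempty (Fin k)] {ε : ℝ} (hε : 0 < ε) :
    ∃ δ : ℝ, 0 < δ ∧ ∀ (E : Type u) [NormedAddCommGroup E] [InnerProductSpace ℝ E]
      [FiniteDimensional ℝ E] [MeasurableSpace E] [BorelSpace E] (A : Fin k → Set E),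
      IsPart A → MM ^ 2 - δ < ∑ i, ‖fm (A i)‖ ^ 2 → Near ε (fun i => fm (A i)) := by
  obtain ⟨δ₁, hδ₁, hc⟩ := compact_step k (half_pos hε)
  have hM := MM_pos
  refine ⟨min (ε / 2) (min (MM * δ₁) (MM ^ 2 / 2)), by positivity, ?_⟩
  intro E _ _ _ _ _ A hA hF
  set δ := min (ε / 2) (min (MM * δ₁) (MM ^ 2 / 2)) with hδ
  have d1 : δ ≤ ε / 2 := min_le_left _ _
  have d2 : δ ≤ MM * δ₁ := (min_le_right _ _).trans (min_le_left _ _)
  have d3 : δ ≤ MM ^ 2 / 2 := (min_le_right _ _).trans (min_le_right _ _)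
  set F := ∑ i, ‖fm (A i)‖ ^ 2 with hFd
  have hF0 : 0 < F := by nlinarith
  have hFM : F ≤ MM ^ 2 := by rw [MM_sq]; exact bdd k _ hA
  set s := √F with hs
  have hs0 : 0 < s := Real.sqrt_pos.2 hF0
  have hs2 : s ^ 2 = F := Real.sq_sqrt hF0.le
  have hsM : s ≤ MM := by
    rw [hs]
    exact Real.sqrt_le_iff.2 ⟨hM.le, hFM⟩
  obtain ⟨w, hw⟩ := exists_gram (fun i => s⁻¹ • fm (A i))
  have hin : ∀ i j, ⟪fm (A i), fm (A j)⟫ = F * ⟪w i, w j⟫ := by
    intro i j
    rw [← hw i j, real_inner_smul_left, real_inner_smul_right, ← hs2]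
    field_simp
  have hno : ∀ i, ‖fm (A i)‖ ^ 2 = F * ‖w i‖ ^ 2 := by
    intro i
    rw [← real_inner_self_eq_norm_sq, ← real_inner_self_eq_norm_sq, hin]
  have hw1 : ∑ i, ‖w i‖ ^ 2 = 1 := by
    have h1 : F * ∑ i, ‖w i‖ ^ 2 = F := by
      rw [Finset.mul_sum, hFd]
      exact Finset.sum_congr rfl fun i _ => (hno i).symm
    have h2 : F * (∑ i, ‖w i‖ ^ 2 - 1) = 0 := by rw [mul_sub, h1]; ring
    rcases mul_eq_zero.1 h2 with h | h
    · exact absurd h hF0.ne'
    · linarith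
  have hP : s ≤ Phi w := by
    rw [← Phi_congr hw]
    refine le_trans (le_of_eq ?_) (sum_inner_le_Phi hA _)
    have h3 : ∑ i, ⟪s⁻¹ • fm (A i), fm (A i)⟫ = s⁻¹ * F := by
      rw [hFd, Finset.mul_sum]
      exact Finset.sum_congr rfl fun i _ => by
        rw [real_inner_smul_left, real_inner_self_eq_norm_sq]
    rw [h3, ← hs2]
    field_simp
  have hPs : MM - δ₁ < Phi w := by
    have h4 : MM * (MM - δ₁) < MM * s := by nlinarith
    have h5 := lt_of_mul_lt_mul_left h4 hM.le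
    linarith
  obtain ⟨f, hf, h1, h2, h3⟩ := hc w hw1 hPs
  have hle : ∀ i, ‖w i‖ ^ 2 ≤ 1 := by
    intro i
    rw [← hw1]
    exact Finset.single_le_sum (f := fun i => ‖w i‖ ^ 2) (fun i _ => by positivity)
      (Finset.mem_univ i)
  have hno' : ∀ i, ‖MM • w i‖ ^ 2 = MM ^ 2 * ‖w i‖ ^ 2 := by
    intro i
    rw [norm_smul, mul_pow, Real.norm_eq_abs, sq_abs]
  have hin' : ∀ i j, ⟪MM • w i, MM • w j⟫ = MM ^ 2 * ⟪w i, w j⟫ := by
    intro i j
    rw [real_inner_smul_left, real_inner_smul_right]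
    ring
  have hil : ∀ i j, |⟪w i, w j⟫| ≤ 1 := by
    intro i j
    have h6 := abs_real_inner_le_norm (w i) (w j)
    have h7 : ‖w i‖ ≤ 1 := (sq_le_one_iff₀ (norm_nonneg _)).1 (hle i)
    have h8 : ‖w j‖ ≤ 1 := (sq_le_one_iff₀ (norm_nonneg _)).1 (hle j)
    have h9 := mul_le_mul h7 h8 (norm_nonneg _) zero_le_one
    linarith
  refine ⟨f, hf, fun j => ?_, fun i j hij => ?_, fun i hi => ?_⟩
  · have h6 := h1 j
    simp only at h6 ⊢
    rw [hno'] at h6
    rw [hno]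
    have h7 := hle (f j)
    have h8 : 0 ≤ ‖w (f j)‖ ^ 2 := by positivity
    rw [abs_lt] at h6 ⊢
    constructor <;> nlinarith
  · have h6 := h2 i j hij
    simp only at h6 ⊢
    rw [hin'] at h6
    rw [hin]
    have h7 := hil (f i) (f j)
    rw [abs_le] at h7
    rw [abs_lt] at h6 ⊢
    constructor <;> nlinarith
  · have h6 := h3 i hi
    simp only at h6 ⊢
    rw [hno'] at h6
    rw [hno]
    have h8 : 0 ≤ ‖w i‖ ^ 2 := by positivity
    nlinarith

end Vale.Agent.P226.S765
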