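import Vale.Agent.P226.H700.Final

set_option linter.all false

/-!
# P226, stability: the mean of the maximum of finitely many linear forms
-/

open MeasureTheory ProbabilityTheory Set
open scoped RealInnerProductSpace

namespace Vale.Agent.P226.S765

open K3

variable {E : Type*} [NormedAddCommGroup E] [InnerProductSpace ℝ E] [FiniteDimensional ℝ E]
  [MeasurableSpace E] [BorelSpace E]
variable {F : Type*} [NormedAddCommGroup F] [InnerProductSpace ℝ F] [FiniteDimensional ℝ F]
  [MeasurableSpace F] [BorelSpace F]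

/-- The maximum of the linear forms `⟪w i, ·⟫`. -/
noncomputable def mx {ι : Type*} (w : ι → E) (x : E) : ℝ := ⨆ i, ⟪w i, x⟫

/-- Its mean. -/
noncomputable def Phi {ι : Type*} (w : ι → E) : ℝ := ∫ x, mx w x ∂(stdGaussian E)

section mx

variable {ι : Type*} [Finite ι] [Nonempty ι] {w : ι → E}

omit [FiniteDimensional ℝ E] [MeasurableSpace E] [BorelSpace E] [Nonempty ι] in
lemma le_mx (w : ι → E) (i : ι) (x : E) : ⟪w i, x⟫ ≤ mx w x :=
  le_ciSup (f := fun i => ⟪w i, x⟫) (Set.finite_range _).bddAbove i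

omit [FiniteDimensional ℝ E] [MeasurableSpace E] [BorelSpace E] [Finite ι] in
lemma mx_le {w : ι → E} {x : E} {c : ℝ} (h : ∀ i, ⟪w i, x⟫ ≤ c) : mx w x ≤ c := ciSup_le h

omit [FiniteDimensional ℝ E] [MeasurableSpace E] [BorelSpace E] in
lemma exists_mx (w : ι → E) (x : E) : ∃ i, mx w x = ⟪w i, x⟫ := by
  obtain ⟨i, hi⟩ := exists_eq_ciSup_of_finite (f := fun i => ⟪w i, x⟫)
  exact ⟨i, hi.symm⟩

lemma measurable_mx (w : ι → E) : Measurable (mx w) := by
  unfold mx
  exact Measurable.iSup fun i => by fun_prop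

lemma integrable_mx (w : ι → E) : Integrable (mx w) (stdGaussian E) := by
  classical
  have : Fintype ι := Fintype.ofFinite ι
  have h : Integrable (fun x => ∑ i, |⟪w i, x⟫|) (stdGaussian E) :=
    integrable_finset_sum _ fun i _ => (integrable_inner_stdGaussian (w i)).abs
  refine h.mono' (measurable_mx w).aestronglyMeasurable (Filter.Eventually.of_forall fun x => ?_)
  obtain ⟨i, hi⟩ := exists_mx w x
  rw [hi, Real.norm_eq_abs]
  exact Finset.single_le_sum (f := fun i => |⟪w i, x⟫|) (fun i _ => abs_nonneg _)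
    (Finset.mem_univ i)

end mx

/-- The joint law of the linear forms depends only on the Gram matrix. -/
lemma map_congr {ι : Type*} [Fintype ι] {z : ι → E} {w : ι → F}
    (h : ∀ i j, ⟪z i, z j⟫ = ⟪w i, w j⟫) :
    (stdGaussian E).map (fun x i => ⟪z i, x⟫) = (stdGaussian F).map (fun x i => ⟪w i, x⟫) := by
  classical
  let T : E →L[ℝ] (ι → ℝ) := ContinuousLinearMap.pi fun i => innerSL ℝ (z i)
  let S : F →L[ℝ] (ι → ℝ) := ContinuousLinearMap.pi fun i => innerSL ℝ (w i)
  have hT : (fun x i => ⟪z i, x⟫ : E → ι → ℝ) = T := by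
    funext x i; rfl
  have hS : (fun x i => ⟪w i, x⟫ : F → ι → ℝ) = S := by
    funext x i; rfl
  rw [hT, hS]
  apply Measure.ext_of_charFunDual
  ext L
  rw [charFunDual_map, charFunDual_map, charFunDual_stdGaussian, charFunDual_stdGaussian]
  have key : ‖L.comp T‖ ^ 2 = ‖L.comp S‖ ^ 2 := by
    have e1 : L.comp T = innerSL ℝ (∑ i, L (Pi.single i 1) • z i) := by
      ext x
      have hx : T x = ∑ i, (⟪z i, x⟫ : ℝ) • (Pi.single i 1 : ι → ℝ) := by
        funext j
        simp [T, Finset.sum_apply, Pi.single_apply]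
      simp only [ContinuousLinearMap.comp_apply, innerSL_apply_apply]
      rw [hx, map_sum, sum_inner]
      refine Finset.sum_congr rfl fun i _ => ?_
      rw [map_smul, real_inner_smul_left, smul_eq_mul]
      ring
    have e2 : L.comp S = innerSL ℝ (∑ i, L (Pi.single i 1) • w i) := by
      ext x
      have hx : S x = ∑ i, (⟪w i, x⟫ : ℝ) • (Pi.single i 1 : ι → ℝ) := by
        funext j
        simp [S, Finset.sum_apply, Pi.single_apply]
      simp only [ContinuousLinearMap.comp_apply, innerSL_apply_apply]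
      rw [hx, map_sum, sum_inner]
      refine Finset.sum_congr rfl fun i _ => ?_
      rw [map_smul, real_inner_smul_left, smul_eq_mul]
      ring
    rw [e1, e2, innerSL_apply_norm, innerSL_apply_norm, ← real_inner_self_eq_norm_sq,
      ← real_inner_self_eq_norm_sq]
    simp only [sum_inner, inner_sum, real_inner_smul_left, real_inner_smul_right, h]
  have : ((‖L.comp T‖ : ℂ)) ^ 2 = (‖L.comp S‖ : ℂ) ^ 2 := by exact_mod_cast key
  rw [this]

lemma Phi_congr {ι : Type*} [Fintype ι] [Nonempty ι] {z : ι → E} {w : ι → F}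
    (h : ∀ i j, ⟪z i, z j⟫ = ⟪w i, w j⟫) : Phi z = Phi w := by
  have hm : Measurable (fun v : ι → ℝ => ⨆ i, v i) := Measurable.iSup fun i => measurable_pi_apply i
  have h1 : Phi z = ∫ v, (⨆ i, v i) ∂((stdGaussian E).map (fun x i => ⟪z i, x⟫)) := by
    rw [integral_map (by fun_prop) hm.aestronglyMeasurable]
    rfl
  have h2 : Phi w = ∫ v, (⨆ i, v i) ∂((stdGaussian F).map (fun x i => ⟪w i, x⟫)) := by
    rw [integral_map (by fun_prop) hm.aestronglyMeasurable]
    rfl
  rw [h1, h2, map_congr h]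

open scoped MatrixOrder ComplexOrder in
/-- A finite family of vectors has the Gram matrix of a family in `ℝ^k`. -/
lemma exists_gram {k : ℕ} (z : Fin k → E) :
    ∃ w : Fin k → EuclideanSpace ℝ (Fin k), ∀ i j, ⟪z i, z j⟫ = ⟪w i, w j⟫ := by
  have h := Matrix.posSemidef_gram ℝ z
  obtain ⟨B, hB⟩ := CStarAlgebra.nonneg_iff_eq_star_mul_self.1 h.nonneg
  refine ⟨fun i => WithLp.toLp 2 (fun l => B l i), fun i j => ?_⟩
  have h1 := congrFun (congrFun hB i) j
  simp only [Matrix.gram_apply] at h1
  rw [h1]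
  simp [Matrix.mul_apply, PiLp.inner_apply, mul_comm]

end Vale.Agent.P226.S765
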