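import Vale.Agent.P226.H765.Core

set_option linter.all false

/-!
# P226, stability: from moments to cells
-/

open MeasureTheory ProbabilityTheory Set Filter Topology
open scoped RealInnerProductSpace

namespace Vale.Agent.P226.S765

open K3 Eqc

universe u

variable {E : Type*} [NormedAddCommGroup E] [InnerProductSpace ℝ E] [FiniteDimensional ℝ E]
  [MeasurableSpace E] [BorelSpace E]

/-- The sector of `u j`. -/
def sec (u : Fin 3 → E) (j : Fin 3) : Set E := {x | ∀ l, ⟪u l, x⟫ ≤ ⟪u j, x⟫}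

lemma measurableSet_sec (u : Fin 3 → E) (j : Fin 3) : MeasurableSet (sec u j) := by
  have : sec u j = ⋂ l, {x : E | ⟪u l, x⟫ ≤ ⟪u j, x⟫} := by
    ext x
    simp [sec]
  rw [this]
  exact MeasurableSet.iInter fun l => measurableSet_le (by fun_prop) (by fun_prop)

lemma exists_sec (u : Fin 3 → E) (x : E) : ∃ j, x ∈ sec u j := by
  obtain ⟨j, hj⟩ := Finite.exists_max (fun j => ⟪u j, x⟫)
  exact ⟨j, hj⟩

/-- The gap on each cell. -/
lemma gap_le {k : ℕ} [Nonempty (Fin k)] {A : Fin k → Set E} (hA : IsPart A) (i : Fin k) :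
    ∫ x in A i, (mx (fun i => fm (A i)) x - ⟪fm (A i), x⟫) ∂(stdGaussian E) ≤
      (MM ^ 2 - ∑ i, ‖fm (A i)‖ ^ 2) / 2 := by
  have h1 := sum_sq_sub (fun i => fm (A i)) 1
  have h2 := amc_le (fun i => fm (A i))
  have h3 : 0 ≤ ∑ i, ‖fm (amc (fun i => fm (A i)) i) - (1 : ℝ) • fm (A i)‖ ^ 2 :=
    Finset.sum_nonneg fun i _ => by positivity
  have h4 := Phi_sub hA (fun i => fm (A i))
  have h5 : ∑ i, ⟪fm (A i), fm (A i)⟫ = ∑ i, ‖fm (A i)‖ ^ 2 :=
    Finset.sum_congr rfl fun i _ => real_inner_self_eq_norm_sq _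
  have h6 : ∫ x in A i, (mx (fun i => fm (A i)) x - ⟪fm (A i), x⟫) ∂(stdGaussian E) ≤
      ∑ i, ∫ x in A i, (mx (fun i => fm (A i)) x - ⟪fm (A i), x⟫) ∂(stdGaussian E) :=
    Finset.single_le_sum
      (f := fun i => ∫ x in A i, (mx (fun i => fm (A i)) x - ⟪fm (A i), x⟫) ∂(stdGaussian E))
      (fun i _ => integral_nonneg fun x => sub_nonneg.2 (le_mx (fun i => fm (A i)) i x))
      (Finset.mem_univ i)
  rw [h5] at h4
  linarith

/-- The part of the sector `j` occupied by a cell other than `f j`. -/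
theorem sec_inter_le {k : ℕ} [Nonempty (Fin k)] {A : Fin k → Set E} (hA : IsPart A)
    {u : Fin 3 → E} {f : Fin 3 → Fin k} (hu : ∀ j, ‖u j‖ = 1) (hus : u 0 + u 1 + u 2 = 0)
    (hf : Function.Injective f) {c : ℝ} (hc : 0 ≤ c) (hcr : c ≤ 1 / 20)
    (h1 : ∀ j, ‖fm (A (f j)) - rr • u j‖ ≤ c) (h2 : ∀ i, (∀ j, f j ≠ i) → ‖fm (A i)‖ ≤ c)
    (j : Fin 3) (i : Fin k) (hij : f j ≠ i) :
    (stdGaussian E).real (sec u j ∩ A i) ≤
      4 * √(MM ^ 2 - ∑ i, ‖fm (A i)‖ ^ 2) + 24 * c := by
  obtain ⟨D, hD⟩ : ∃ D : ℝ, D = MM ^ 2 - ∑ i, ‖fm (A i)‖ ^ 2 := ⟨_, rfl⟩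
  have hD0 : 0 ≤ D := by
    have h0 : ∑ i, ‖fm (A i)‖ ^ 2 ≤ MM ^ 2 := by rw [MM_sq]; exact bdd k _ hA
    rw [hD]; linarith
  have hgap := gap_le hA i
  rw [← hD] at hgap ⊢
  have hr1 := rr_lo
  have hr2 := rr_hi
  -- the reference normal
  have href : ∃ w0 : E, rr ≤ ‖w0‖ ∧ ‖w0 - (fm (A (f j)) - fm (A i))‖ ≤ 2 * c ∧
      ∀ x ∈ sec u j, 0 ≤ ⟪w0, x⟫ := by
    by_cases hi : ∀ l, f l ≠ i
    · refine ⟨rr • u j, ?_, ?_, ?_⟩
      · rw [norm_smul, hu, mul_one, Real.norm_eq_abs, abs_of_pos rr_pos]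
      · have e1 : rr • u j - (fm (A (f j)) - fm (A i)) =
            -(fm (A (f j)) - rr • u j) + fm (A i) := by abel
        rw [e1]
        have e2 := norm_add_le (-(fm (A (f j)) - rr • u j)) (fm (A i))
        rw [norm_neg] at e2
        have e3 := h1 j
        have e4 := h2 i hi
        linarith
      · intro x hx
        rw [real_inner_smul_left]
        refine mul_nonneg rr_pos.le ?_
        have e1 : ⟪u 0, x⟫ + ⟪u 1, x⟫ + ⟪u 2, x⟫ = 0 := by
          rw [← inner_add_left, ← inner_add_left, hus, inner_zero_left]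
        have e2 := hx 0
        have e3 := hx 1
        have e4 := hx 2
        linarith
    · push Not at hi
      obtain ⟨l, rfl⟩ := hi
      have hjl : j ≠ l := fun h => hij (by rw [h])
      refine ⟨rr • u j - rr • u l, ?_, ?_, ?_⟩
      · rw [← smul_sub, norm_smul, Real.norm_eq_abs, abs_of_pos rr_pos]
        have e1 : 1 ≤ ‖u j - u l‖ := by
          have e2 : ⟪u j, u l⟫ ≤ 0 := by
            obtain ⟨a, ha⟩ : ∃ a : E, u j + u l = -a ∧ ‖a‖ = 1 := by
              have h3 : ∃ m : Fin 3, m ≠ j ∧ m ≠ l ∧ ∀ g : Fin 3 → E,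
                  g 0 + g 1 + g 2 = g j + g l + g m := by
                fin_cases j <;> fin_cases l
                · exact absurd rfl hjl
                · exact ⟨2, by decide, by decide, fun g => rfl⟩
                · exact ⟨1, by decide, by decide, fun g => by simp only [Fin.zero_eta, Fin.reduceFinMk]; abel⟩
                · exact ⟨2, by decide, by decide, fun g => by simp only [Fin.zero_eta, Fin.mk_one]; abel⟩
                · exact absurd rfl hjl
                · exact ⟨0, by decide, by decide, fun g => by simp only [Fin.mk_one, Fin.reduceFinMk]; abel⟩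
                · exact ⟨1, by decide, by decide, fun g => by simp only [Fin.zero_eta, Fin.reduceFinMk]; abel⟩
                · exact ⟨0, by decide, by decide, fun g => by simp only [Fin.mk_one, Fin.reduceFinMk]; abel⟩
                · exact absurd rfl hjl
              obtain ⟨m, -, -, hm⟩ := h3
              refine ⟨u m, ?_, hu m⟩
              rw [hm u] at hus
              exact eq_neg_of_add_eq_zero_left hus
            have e3 := norm_add_sq_real (u j) (u l)
            rw [ha.1, norm_neg, ha.2, hu, hu] at e3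
            linarith
          have e3 := norm_sub_sq_real (u j) (u l)
          rw [hu, hu] at e3
          refine le_of_sq_le_sq ?_ (norm_nonneg _)
          rw [e3]
          linarith
        nlinarith [rr_pos]
      · have e1 : rr • u j - rr • u l - (fm (A (f j)) - fm (A (f l))) =
            -(fm (A (f j)) - rr • u j) + (fm (A (f l)) - rr • u l) := by abel
        rw [e1]
        have e2 := norm_add_le (-(fm (A (f j)) - rr • u j)) (fm (A (f l)) - rr • u l)
        rw [norm_neg] at e2
        have e3 := h1 j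
        have e4 := h1 l
        linarith
      · intro x hx
        rw [inner_sub_left, real_inner_smul_left, real_inner_smul_left, ← mul_sub]
        exact mul_nonneg rr_pos.le (sub_nonneg.2 (hx l))
  obtain ⟨w0, hw1, hw2, hw3⟩ := href
  obtain ⟨w, hw⟩ : ∃ w : E, w = fm (A (f j)) - fm (A i) := ⟨_, rfl⟩
  rw [← hw] at hw2
  have hw0n : 0 < ‖w0‖ := by linarith
  have hw0 : w0 ≠ 0 := norm_pos_iff.1 hw0n
  have hwn : ‖w0‖ / 2 ≤ ‖w‖ := by
    have e1 := norm_sub_norm_le w0 w
    linarith
  have hwn' : 0.17 ≤ ‖w‖ := by linarith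
  have hw' : w ≠ 0 := norm_pos_iff.1 (by linarith)
  -- the two parts
  set B : Set E := A i ∩ {x | 0 ≤ ⟪w, x⟫} with hB
  have hBm : MeasurableSet B := (hA.meas i).inter (measurableSet_le measurable_const (by fun_prop))
  have hsub : sec u j ∩ A i ⊆ B ∪ {x | 0 ≤ ⟪w0, x⟫ ∧ ⟪w, x⟫ < 0} := by
    rintro x ⟨hx1, hx2⟩
    rcases le_or_gt 0 ⟪w, x⟫ with h | h
    · exact Or.inl ⟨hx2, h⟩
    · exact Or.inr ⟨hw3 x hx1, h⟩
  have hle : (stdGaussian E).real (sec u j ∩ A i) ≤ (stdGaussian E).real B +
      (stdGaussian E).real {x | 0 ≤ ⟪w0, x⟫ ∧ ⟪w, x⟫ < 0} :=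
    (measureReal_mono hsub).trans (measureReal_union_le _ _)
  have hW := wedge_le hw0 hwn
  have hW' : 4 * (‖w0 - w‖ / ‖w0‖) ≤ 24 * c := by
    have : ‖w0 - w‖ / ‖w0‖ ≤ 6 * c := by
      rw [div_le_iff₀ hw0n]
      nlinarith
    linarith
  have hBb : (stdGaussian E).real B ≤ 4 * √D := by
    have e1 := sq_le_integral w hw' hBm
    have e2 : ∫ x in B, |⟪w, x⟫| ∂(stdGaussian E) ≤ D / 2 := by
      refine le_trans ?_ hgap
      have hI : Integrable (fun x => mx (fun i => fm (A i)) x - ⟪fm (A i), x⟫) (stdGaussian E) :=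
        (integrable_mx _).sub (integrable_inner_stdGaussian _)
      refine le_trans ?_ (setIntegral_mono_set (s := B) hI.integrableOn
        (Filter.Eventually.of_forall fun x => sub_nonneg.2 (le_mx (fun i => fm (A i)) i x))
        (Filter.Eventually.of_forall fun x hx => hx.1))
      refine setIntegral_mono_on ((integrable_inner_stdGaussian w).abs).integrableOn
        hI.integrableOn hBm fun x hx => ?_
      rw [abs_of_nonneg hx.2, hw, inner_sub_left]
      have := le_mx (fun i => fm (A i)) (f j) x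
      linarith
    have hs0 := Real.sqrt_nonneg D
    have hs2 : √D ^ 2 = D := Real.sq_sqrt hD0
    refine le_of_sq_le_sq ?_ (by positivity)
    rw [mul_pow, hs2]
    have e3 : (stdGaussian E).real B ^ 2 * 0.17 ≤ (stdGaussian E).real B ^ 2 * ‖w‖ :=
      mul_le_mul_of_nonneg_left hwn' (sq_nonneg _)
    linarith
  linarith

/-- The conclusion for the cells. -/
theorem sets_le {k : ℕ} [Nonempty (Fin k)] {A : Fin k → Set E} (hA : IsPart A)
    {u : Fin 3 → E} {f : Fin 3 → Fin k} (hf : Function.Injective f) {b : ℝ} (hb : 0 ≤ b)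
    (h : ∀ j i, f j ≠ i → (stdGaussian E).real (sec u j ∩ A i) ≤ b) :
    (∀ j, (stdGaussian E).real (symmDiff (A (f j)) (sec u j)) ≤ (k + 3) * b) ∧
    ∀ i, (∀ j, f j ≠ i) → (stdGaussian E).real (A i) ≤ 3 * b := by
  classical
  constructor
  · intro j
    have hs1 : A (f j) \ sec u j ⊆ ⋃ l ∈ Finset.univ.filter (fun l => l ≠ j), sec u l ∩ A (f j) := by
      rintro x ⟨hx1, hx2⟩
      obtain ⟨l, hl⟩ := exists_sec u x
      have hlj : l ≠ j := by rintro rfl; exact hx2 hl
      simp only [mem_iUnion]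
      exact ⟨l, by rw [Finset.mem_filter]; exact ⟨Finset.mem_univ _, hlj⟩, hl, hx1⟩
    have hs2 : sec u j \ A (f j) ⊆ ⋃ i ∈ Finset.univ.filter (fun i => f j ≠ i), sec u j ∩ A i := by
      rintro x ⟨hx1, hx2⟩
      have hx : x ∈ ⋃ i, A i := by rw [hA.cover]; exact mem_univ x
      obtain ⟨i, hi⟩ := mem_iUnion.1 hx
      have hne : f j ≠ i := by rintro rfl; exact hx2 hi
      simp only [mem_iUnion]
      exact ⟨i, by rw [Finset.mem_filter]; exact ⟨Finset.mem_univ _, hne⟩, hx1, hi⟩
    have c1 : (stdGaussian E).real (A (f j) \ sec u j) ≤ 3 * b := by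
      refine (measureReal_mono hs1 (measure_ne_top _ _)).trans ((measureReal_biUnion_finset_le _ _).trans ?_)
      calc ∑ l ∈ Finset.univ.filter (fun l => l ≠ j), (stdGaussian E).real (sec u l ∩ A (f j))
          ≤ ∑ l ∈ Finset.univ.filter (fun l => l ≠ j), b :=
            Finset.sum_le_sum fun l hl => h l (f j) fun hc => by
              rw [Finset.mem_filter] at hl
              exact hl.2 (hf hc)
        _ ≤ ∑ _l : Fin 3, b :=
            Finset.sum_le_sum_of_subset_of_nonneg (Finset.filter_subset _ _) fun _ _ _ => hb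
        _ = 3 * b := by
          rw [Finset.sum_const, Finset.card_univ, Fintype.card_fin, nsmul_eq_mul]
          norm_num
    have c2 : (stdGaussian E).real (sec u j \ A (f j)) ≤ k * b := by
      refine (measureReal_mono hs2 (measure_ne_top _ _)).trans ((measureReal_biUnion_finset_le _ _).trans ?_)
      calc ∑ i ∈ Finset.univ.filter (fun i => f j ≠ i), (stdGaussian E).real (sec u j ∩ A i)
          ≤ ∑ i ∈ Finset.univ.filter (fun i => f j ≠ i), b :=
            Finset.sum_le_sum fun i hi => h j i (by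
              rw [Finset.mem_filter] at hi
              exact hi.2)
        _ ≤ ∑ _i : Fin k, b :=
            Finset.sum_le_sum_of_subset_of_nonneg (Finset.filter_subset _ _) fun _ _ _ => hb
        _ = k * b := by
          rw [Finset.sum_const, Finset.card_univ, Fintype.card_fin, nsmul_eq_mul]
    have c3 := measureReal_union_le (μ := stdGaussian E) (A (f j) \ sec u j) (sec u j \ A (f j))
    have c4 : symmDiff (A (f j)) (sec u j) = A (f j) \ sec u j ∪ sec u j \ A (f j) := rfl
    rw [c4]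
    linarith
  · intro i hi
    have hs : A i ⊆ ⋃ l, sec u l ∩ A i := by
      intro x hx
      obtain ⟨l, hl⟩ := exists_sec u x
      exact mem_iUnion.2 ⟨l, hl, hx⟩
    refine (measureReal_mono hs).trans ((measureReal_iUnion_fintype_le _).trans ?_)
    calc ∑ l, (stdGaussian E).real (sec u l ∩ A i) ≤ ∑ _l : Fin 3, b :=
          Finset.sum_le_sum fun l _ => h l i (hi l)
      _ = 3 * b := by
        rw [Finset.sum_const, Finset.card_univ, Fintype.card_fin, nsmul_eq_mul]
        norm_num

end Vale.Agent.P226.S765
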