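import Vale.Agent.P226.H765.Free
import Vale.Agent.P226.H765.Fin

set_option linter.all false

/-!
# P226, stability: the cells, uniformly in the number of cells
-/

open MeasureTheory ProbabilityTheory Set Filter Topology
open scoped RealInnerProductSpace

namespace Vale.Agent.P226.S765

open K3 Eqc

universe u

variable {E : Type*} [NormedAddCommGroup E] [InnerProductSpace ℝ E] [FiniteDimensional ℝ E]
  [MeasurableSpace E] [BorelSpace E]

/-- The total gap. -/
lemma gap_sum {k : ℕ} [Nonempty (Fin k)] {A : Fin k → Set E} (hA : IsPart A) :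
    ∑ i, ∫ x in A i, (mx (fun i => fm (A i)) x - ⟪fm (A i), x⟫) ∂(stdGaussian E) ≤
      (MM ^ 2 - ∑ i, ‖fm (A i)‖ ^ 2) / 2 := by
  have h1 := sum_sq_sub (fun i => fm (A i)) 1
  have h2 := amc_le (fun i => fm (A i))
  have h3 : 0 ≤ ∑ i, ‖fm (amc (fun i => fm (A i)) i) - (1 : ℝ) • fm (A i)‖ ^ 2 :=
    Finset.sum_nonneg fun i _ => by positivity
  have h4 := Phi_sub hA (fun i => fm (A i))
  have h5 : ∑ i, ⟪fm (A i), fm (A i)⟫ = ∑ i, ‖fm (A i)‖ ^ 2 :=
    Finset.sum_congr rfl fun i _ => real_inner_self_eq_norm_sq _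
  rw [h5] at h4
  linarith

/-- The integral of the mean maximum over the tail cells. -/
lemma tail_mx {k : ℕ} [Nonempty (Fin k)] {A : Fin k → Set E} (hA : IsPart A) (T : Finset (Fin k)) :
    ∑ i ∈ T, ∫ x in A i, mx (fun i => fm (A i)) x ∂(stdGaussian E) ≤
      (MM ^ 2 - ∑ i, ‖fm (A i)‖ ^ 2) / 2 + ∑ i ∈ T, ‖fm (A i)‖ ^ 2 := by
  have h1 : ∀ i, ∫ x in A i, mx (fun i => fm (A i)) x ∂(stdGaussian E) =
      ∫ x in A i, (mx (fun i => fm (A i)) x - ⟪fm (A i), x⟫) ∂(stdGaussian E) +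
        ‖fm (A i)‖ ^ 2 := by
    intro i
    rw [integral_sub (integrable_mx _).integrableOn (integrable_inner_stdGaussian _).integrableOn,
      ← inner_fm, real_inner_self_eq_norm_sq]
    ring
  simp_rw [h1]
  rw [Finset.sum_add_distrib]
  have h2 : ∑ i ∈ T, ∫ x in A i, (mx (fun i => fm (A i)) x - ⟪fm (A i), x⟫) ∂(stdGaussian E) ≤
      ∑ i, ∫ x in A i, (mx (fun i => fm (A i)) x - ⟪fm (A i), x⟫) ∂(stdGaussian E) :=
    Finset.sum_le_sum_of_subset_of_nonneg (Finset.subset_univ _) fun i _ _ =>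
      integral_nonneg fun x => sub_nonneg.2 (le_mx (fun i => fm (A i)) i x)
  have h3 := gap_sum hA
  linarith

/-- **The measure of the tail.** -/
theorem tail_measure {k : ℕ} [Nonempty (Fin k)] {A : Fin k → Set E} (hA : IsPart A)
    {u : Fin 3 → E} {f : Fin 3 → Fin k} (hu : ∀ j, ‖u j‖ = 1) (hus : u 0 + u 1 + u 2 = 0)
    {e : ℝ} (he : 0 ≤ e) (hf : ∀ j, ‖fm (A (f j)) - rr • u j‖ ≤ e) (T : Finset (Fin k)) :
    (stdGaussian E).real (⋃ i ∈ T, A i) ^ 2 ≤
      48 * ((MM ^ 2 - ∑ i, ‖fm (A i)‖ ^ 2) / 2 + ∑ i ∈ T, ‖fm (A i)‖ ^ 2 + 138 * e ^ 3) := by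
  obtain ⟨V, hV, hm⟩ := exists_plane (hu 0) (hu 1) (hu 2) hus
  have hr := rr_pos
  have hr1 := rr_lo
  have hr2 := rr_sq
  have hρ := rho_lo
  let h : Fin 3 → E → ℝ := fun j x =>
    max (⟪-(fm (A (f j)) - rr • u j), x⟫ - rr / 4 * ‖V.starProjection x‖) 0
  have hh0 : ∀ j x, 0 ≤ h j x := fun i x => le_max_right _ _
  have hhi : ∀ j, Integrable (h j) (stdGaussian E) := fun j =>
    integrable_exc V _ (by positivity)
  have hti : Integrable (fun x => ∑ j, h j x) (stdGaussian E) :=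
    integrable_finset_sum _ fun j _ => hhi j
  have hpt : ∀ x, rr / 4 * |⟪u 0, x⟫| ≤ mx (fun i => fm (A i)) x + ∑ j, h j x := by
    intro x
    obtain ⟨j, hj⟩ := Finite.exists_max (fun j => ⟪u j, x⟫)
    have h1 := hm x ⟪u j, x⟫ (hj 0) (hj 1) (hj 2)
    have h3 : h j x ≤ ∑ j, h j x :=
      Finset.single_le_sum (f := fun j => h j x) (fun j _ => hh0 j x) (Finset.mem_univ j)
    have h4 : ⟪-(fm (A (f j)) - rr • u j), x⟫ = rr * ⟪u j, x⟫ - ⟪fm (A (f j)), x⟫ := by
      rw [inner_neg_left, inner_sub_left, real_inner_smul_left]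
      ring
    have h6 : ⟪-(fm (A (f j)) - rr • u j), x⟫ - rr / 4 * ‖V.starProjection x‖ ≤ h j x :=
      le_max_left _ _
    have h7 : rr / 4 * ‖V.starProjection x‖ ≤ rr / 4 * (2 * ⟪u j, x⟫) :=
      mul_le_mul_of_nonneg_left h1 (by positivity)
    have h8 := le_mx (fun i => fm (A i)) (f j) x
    have h9 : |⟪u 0, x⟫| ≤ 2 * ⟪u j, x⟫ := by
      have e1 : ⟪u 0, x⟫ + ⟪u 1, x⟫ + ⟪u 2, x⟫ = 0 := by
        rw [← inner_add_left, ← inner_add_left, hus, inner_zero_left]
      have e2 := hj 0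
      have e3 := hj 1
      have e4 := hj 2
      rw [abs_le]
      constructor <;> linarith
    have h10 : rr / 4 * |⟪u 0, x⟫| ≤ rr / 4 * (2 * ⟪u j, x⟫) :=
      mul_le_mul_of_nonneg_left h9 (by positivity)
    linarith
  set U : Set E := ⋃ i ∈ T, A i with hU
  have hUm : MeasurableSet U := Finset.measurableSet_biUnion T fun i _ => hA.meas i
  have h1 : rr / 4 * ∫ x in U, |⟪u 0, x⟫| ∂(stdGaussian E) ≤
      ∫ x in U, mx (fun i => fm (A i)) x ∂(stdGaussian E) +
        ∫ x in U, ∑ j, h j x ∂(stdGaussian E) := by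
    rw [← integral_const_mul, ← integral_add (integrable_mx _).integrableOn hti.integrableOn]
    exact setIntegral_mono ((integrable_inner_stdGaussian _).abs.const_mul _).integrableOn
      ((integrable_mx _).add hti).integrableOn hpt
  have h2 : ∫ x in U, mx (fun i => fm (A i)) x ∂(stdGaussian E) =
      ∑ i ∈ T, ∫ x in A i, mx (fun i => fm (A i)) x ∂(stdGaussian E) :=
    integral_biUnion_finset T (fun i _ => hA.meas i) (fun i _ j _ hij => hA.disj hij)
      fun i _ => (integrable_mx _).integrableOn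
  have h3 : ∫ x in U, ∑ j, h j x ∂(stdGaussian E) ≤ ∫ x, ∑ j, h j x ∂(stdGaussian E) :=
    setIntegral_le_integral hti (Filter.Eventually.of_forall fun x =>
      Finset.sum_nonneg fun j _ => hh0 j x)
  have h4 : ∫ x, ∑ j, h j x ∂(stdGaussian E) ≤ 69 * e ^ 3 := by
    rw [integral_finset_sum _ fun j _ => hhi j]
    calc ∑ j, ∫ x, h j x ∂(stdGaussian E) ≤ ∑ _j : Fin 3, 23 * e ^ 3 := by
          refine Finset.sum_le_sum fun j _ => ?_
          refine (excess_le hV _ (c := rr / 4) (by positivity)).trans ?_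
          have h6 : (rr / 4) ^ 2 = rho / 16 := by rw [div_pow, hr2]; norm_num
          rw [h6, div_le_iff₀ (by linarith), norm_neg]
          have h7 : ‖fm (A (f j)) - rr • u j‖ ^ 3 ≤ e ^ 3 :=
            pow_le_pow_left₀ (norm_nonneg _) (hf j) 3
          have h8 : 0 ≤ e ^ 3 := by positivity
          nlinarith
      _ = 69 * e ^ 3 := by
          rw [Finset.sum_const, Finset.card_univ, Fintype.card_fin, nsmul_eq_mul]
          push_cast
          ring
  have h5 := tail_mx hA T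
  have hu0 : u 0 ≠ 0 := by
    intro hc
    have := hu 0
    rw [hc, norm_zero] at this
    norm_num at this
  have h6 := sq_le_integral (u 0) hu0 hUm
  rw [hu 0, mul_one] at h6
  have he3 : 0 ≤ e ^ 3 := by positivity
  set m := (stdGaussian E).real U with hmd
  set I := ∫ x in U, |⟪u 0, x⟫| ∂(stdGaussian E) with hI
  have hI0 : 0 ≤ I := integral_nonneg fun x => abs_nonneg _
  have h7 : rr / 4 * I ≤ (MM ^ 2 - ∑ i, ‖fm (A i)‖ ^ 2) / 2 + ∑ i ∈ T, ‖fm (A i)‖ ^ 2 +
      138 * e ^ 3 := by linarith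
  have h8 : 0.34 / 4 * I ≤ rr / 4 * I := mul_le_mul_of_nonneg_right (by linarith) hI0
  linarith

/-- Small deficit. -/
theorem concl_free {k : ℕ} [Nonempty (Fin k)] {A : Fin k → Set E} (hA : IsPart A)
    {u : Fin 3 → E} {f : Fin 3 → Fin k} (hu : ∀ j, ‖u j‖ = 1) (hus : u 0 + u 1 + u 2 = 0)
    (hf : Function.Injective f)
    (hD : MM ^ 2 - ∑ i, ‖fm (A i)‖ ^ 2 ≤ 1 / 10000000000000000)
    (h1 : ∀ j, ‖fm (A (f j)) - rr • u j‖ ≤ 252 * √(MM ^ 2 - ∑ i, ‖fm (A i)‖ ^ 2))
    (h2 : ∑ i ∈ Finset.univ.filter (fun i => ∀ j, f j ≠ i), ‖fm (A i)‖ ^ 2 ≤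
      2 * (MM ^ 2 - ∑ i, ‖fm (A i)‖ ^ 2)) :
    Concl 40000 A := by
  classical
  have hU := tail_measure hA hu hus (e := 252 * √(MM ^ 2 - ∑ i, ‖fm (A i)‖ ^ 2))
    (by positivity) h1 (Finset.univ.filter (fun i => ∀ j, f j ≠ i))
  obtain ⟨D, hDd⟩ : ∃ D : ℝ, D = MM ^ 2 - ∑ i, ‖fm (A i)‖ ^ 2 := ⟨_, rfl⟩
  rw [← hDd] at hD h1 h2 hU
  have hD0 : 0 ≤ D := by
    have h0 : ∑ i, ‖fm (A i)‖ ^ 2 ≤ MM ^ 2 := by rw [MM_sq]; exact bdd k _ hA
    rw [hDd]; linarith
  have hs0 := Real.sqrt_nonneg D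
  have hs2 : √D ^ 2 = D := Real.sq_sqrt hD0
  have hs1 : √D ≤ 1 / 100000000 := by
    rw [Real.sqrt_le_left (by norm_num)]
    linarith
  set U : Set E := ⋃ i ∈ Finset.univ.filter (fun i => ∀ j, f j ≠ i), A i with hUd
  have hm : (stdGaussian E).real U ≤ 100 * √D := by
    refine le_of_sq_le_sq ?_ (by positivity)
    have e1 : (252 * √D) ^ 3 ≤ D := by
      have e2 : (252 * √D) ^ 3 = 16003008 * (√D ^ 2) * √D := by ring
      rw [e2, hs2]
      nlinarith
    rw [mul_pow, hs2]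
    linarith
  have hti : ∀ i, (∀ j, f j ≠ i) → ‖fm (A i)‖ ≤ 252 * √D := by
    intro i hi
    refine le_of_sq_le_sq ?_ (by positivity)
    have h3 : ‖fm (A i)‖ ^ 2 ≤
        ∑ i ∈ Finset.univ.filter (fun i => ∀ j, f j ≠ i), ‖fm (A i)‖ ^ 2 :=
      Finset.single_le_sum (f := fun i => ‖fm (A i)‖ ^ 2) (fun i _ => by positivity)
        (show i ∈ Finset.univ.filter (fun i => ∀ j, f j ≠ i) by
          rw [Finset.mem_filter]; exact ⟨Finset.mem_univ _, hi⟩)
    rw [mul_pow, hs2]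
    linarith
  have h3 : ∀ j i, f j ≠ i → (stdGaussian E).real (sec u j ∩ A i) ≤ 6100 * √D := by
    intro j i hij
    have h4 := sec_inter_le hA hu hus hf (c := 252 * √D) (by positivity) (by linarith) h1
      hti j i hij
    rw [← hDd] at h4
    linarith
  have hb : 0 ≤ 6100 * √D := by positivity
  have hDe : 9 / (8 * Real.pi) - ∑ i, ‖∫ x in A i, x ∂(stdGaussian E)‖ ^ 2 = D := by
    rw [hDd, MM_sq]
    rfl
  refine ⟨u, f, hu, by rw [Fin.sum_univ_three]; exact hus, hf, fun j => ?_, ?_⟩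
  · rw [hDe]
    have hs1 : A (f j) \ sec u j ⊆ ⋃ l ∈ Finset.univ.filter (fun l => l ≠ j), sec u l ∩ A (f j) := by
      rintro x ⟨hx1, hx2⟩
      obtain ⟨l, hl⟩ := exists_sec u x
      have hlj : l ≠ j := by rintro rfl; exact hx2 hl
      simp only [mem_iUnion]
      exact ⟨l, by rw [Finset.mem_filter]; exact ⟨Finset.mem_univ _, hlj⟩, hl, hx1⟩
    have hs2 : sec u j \ A (f j) ⊆ U ∪
        ⋃ l ∈ Finset.univ.filter (fun l => l ≠ j), sec u j ∩ A (f l) := by
      rintro x ⟨hx1, hx2⟩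
      have hx : x ∈ ⋃ i, A i := by rw [hA.cover]; exact mem_univ x
      obtain ⟨i, hi⟩ := mem_iUnion.1 hx
      by_cases hif : ∀ l, f l ≠ i
      · left
        simp only [hUd, mem_iUnion]
        exact ⟨i, by rw [Finset.mem_filter]; exact ⟨Finset.mem_univ _, hif⟩, hi⟩
      · right
        push Not at hif
        obtain ⟨l, rfl⟩ := hif
        have hlj : l ≠ j := by rintro rfl; exact hx2 hi
        simp only [mem_iUnion]
        exact ⟨l, by rw [Finset.mem_filter]; exact ⟨Finset.mem_univ _, hlj⟩, hx1, hi⟩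
    have c1 : (stdGaussian E).real (A (f j) \ sec u j) ≤ 3 * (6100 * √D) := by
      refine (measureReal_mono hs1 (measure_ne_top _ _)).trans
        ((measureReal_biUnion_finset_le _ _).trans ?_)
      calc ∑ l ∈ Finset.univ.filter (fun l => l ≠ j), (stdGaussian E).real (sec u l ∩ A (f j))
          ≤ ∑ l ∈ Finset.univ.filter (fun l => l ≠ j), 6100 * √D :=
            Finset.sum_le_sum fun l hl => h3 l (f j) fun hc => by
              rw [Finset.mem_filter] at hl
              exact hl.2 (hf hc)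
        _ ≤ ∑ _l : Fin 3, 6100 * √D :=
            Finset.sum_le_sum_of_subset_of_nonneg (Finset.filter_subset _ _) fun _ _ _ => hb
        _ = 3 * (6100 * √D) := by
          rw [Finset.sum_const, Finset.card_univ, Fintype.card_fin, nsmul_eq_mul]
          norm_num
    have c2 : (stdGaussian E).real (sec u j \ A (f j)) ≤ 100 * √D + 3 * (6100 * √D) := by
      refine (measureReal_mono hs2 (measure_ne_top _ _)).trans
        ((measureReal_union_le _ _).trans (add_le_add hm ?_))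
      refine (measureReal_biUnion_finset_le _ _).trans ?_
      calc ∑ l ∈ Finset.univ.filter (fun l => l ≠ j), (stdGaussian E).real (sec u j ∩ A (f l))
          ≤ ∑ l ∈ Finset.univ.filter (fun l => l ≠ j), 6100 * √D :=
            Finset.sum_le_sum fun l hl => h3 j (f l) fun hc => by
              rw [Finset.mem_filter] at hl
              exact hl.2 (hf hc).symm
        _ ≤ ∑ _l : Fin 3, 6100 * √D :=
            Finset.sum_le_sum_of_subset_of_nonneg (Finset.filter_subset _ _) fun _ _ _ => hb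
        _ = 3 * (6100 * √D) := by
          rw [Finset.sum_const, Finset.card_univ, Fintype.card_fin, nsmul_eq_mul]
          norm_num
    have c3 := measureReal_union_le (μ := stdGaussian E) (A (f j) \ sec u j) (sec u j \ A (f j))
    have c4 : symmDiff (A (f j)) {x | ∀ l, ⟪u l, x⟫ ≤ ⟪u j, x⟫} =
        A (f j) \ sec u j ∪ sec u j \ A (f j) := rfl
    rw [c4]
    linarith
  · rw [hDe]
    have hsub : (⋃ i ∈ (Set.range f)ᶜ, A i) ⊆ U := by
      intro x hx
      simp only [hUd, mem_iUnion] at hx ⊢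
      obtain ⟨i, hi, hx⟩ := hx
      refine ⟨i, ?_, hx⟩
      rw [Finset.mem_filter]
      exact ⟨Finset.mem_univ _, fun j hj => hi ⟨j, hj⟩⟩
    refine (measureReal_mono hsub (measure_ne_top _ _)).trans ?_
    linarith

/-- **Stability, with one constant for all numbers of cells and all dimensions.** -/
theorem stab : ∃ C : ℝ, 0 < C ∧ ∀ (E : Type u) [NormedAddCommGroup E] [InnerProductSpace ℝ E]
      [FiniteDimensional ℝ E] [MeasurableSpace E] [BorelSpace E] (k : ℕ), 3 ≤ k →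
      2 ≤ Module.finrank ℝ E →
      ∀ A : Fin k → Set E, (∀ i, NullMeasurableSet (A i) (stdGaussian E)) →
      (Pairwise fun i j => AEDisjoint (stdGaussian E) (A i) (A j)) →
      (∀ᵐ x ∂(stdGaussian E), x ∈ ⋃ i, A i) → Concl C A := by
  obtain ⟨δ, hδ, hc⟩ := near_free.{u}
  set δ' := min δ (1 / 100000000000000000) with hδ'
  have hδ'0 : 0 < δ' := lt_min hδ (by norm_num)
  refine ⟨max (1 / √δ') 40000, lt_max_of_lt_right (by norm_num), ?_⟩
  intro E _ _ _ _ _ k hk hE A hm hd hcov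
  have : Nonempty (Fin k) := ⟨⟨0, by omega⟩⟩
  obtain ⟨B, hB, hBA⟩ := exists_isPart (Classical.arbitrary (Fin k)) hm
    (fun i j hij => hd hij) hcov
  refine Concl.congr ?_ hBA
  rcases le_or_gt δ' (MM ^ 2 - ∑ i, ‖fm (B i)‖ ^ 2) with h | h
  · refine (concl_triv hk hE hδ'0 ?_).mono (le_max_left _ _)
    rw [MM_sq] at h
    exact h
  · obtain ⟨f, hf, hG, hT⟩ := hc E k B hB (h.trans_le (min_le_left _ _))
    have h16 := (h.trans_le (min_le_right _ _)).le
    have hT36 : ∑ i ∈ Finset.univ.filter (fun i => ∀ j, f j ≠ i), ‖fm (B i)‖ ^ 2 ≤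
        36 * s0 ^ 2 := by
      rw [s0_sq]
      linarith
    obtain ⟨u, hu, hus, h1, h2⟩ := boot hB hf s0_pos (by unfold s0; norm_num) hG hT36
      (by linarith)
    exact (concl_free hB hu hus hf (by linarith) h1 h2).mono (le_max_right _ _)

end Vale.Agent.P226.S765
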