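import Vale.Agent.P226.H765.Sets2

set_option linter.all false

/-!
# P226, stability: the exponent one half cannot be improved
-/

open MeasureTheory ProbabilityTheory Set Filter Topology
open scoped RealInnerProductSpace

namespace Vale.Agent.P226.S765

open K3 Eqc

universe u

variable {E : Type*} [NormedAddCommGroup E] [InnerProductSpace ℝ E] [FiniteDimensional ℝ E]
  [MeasurableSpace E] [BorelSpace E]

/-- The moments of the three sectors. -/
theorem fm_cell {u : Fin 3 → E} (hu : ∀ j, ‖u j‖ = 1) (hs : ∑ j, u j = 0) (j : Fin 3) :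
    fm (cell u j) = rr • u j := by
  obtain ⟨h01, h12, h02⟩ := norm_sub_of_sum_zero hu hs
  have hA3 := isPart_cell u
  have hS : ∑ i, ⟪u i, fm (cell u i)⟫ = (√3 + √3 + √3) / (2 * √(2 * Real.pi)) := by
    have h4 := integral_max3 (u 0) (u 1) (u 2)
    rw [h01, h12, h02] at h4
    rw [← h4]
    have h5 : ∀ i, ⟪u i, fm (cell u i)⟫
        = ∫ x in cell u i, max ⟪u 0, x⟫ (max ⟪u 1, x⟫ ⟪u 2, x⟫) ∂(stdGaussian E) := by
      intro i
      rw [inner_fm]
      refine setIntegral_congr_fun (hA3.meas i) fun x hx => ?_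
      have hx' : argmax3 u x = i := hx
      have h6 := inner_argmax3 u x
      rw [hx'] at h6
      exact h6
    simp_rw [h5]
    rw [← integral_iUnion_fintype hA3.meas hA3.disj
      fun i => (integrable_max3 (u 0) (u 1) (u 2)).integrableOn, hA3.cover, setIntegral_univ]
  have hrr : rr = √3 / (2 * √(2 * Real.pi)) := by
    have h1 : (√3 / (2 * √(2 * Real.pi))) ^ 2 = 3 / (8 * Real.pi) := by
      rw [div_pow, mul_pow, Real.sq_sqrt (by positivity), Real.sq_sqrt (by positivity)]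
      field_simp
      norm_num
    rw [rr, rho, ← h1, Real.sqrt_sq (by positivity)]
  have hS' : ∑ i, ⟪u i, fm (cell u i)⟫ = 3 * rr := by
    rw [hS, hrr]
    ring
  have h8 : ∀ i, ‖fm (cell u i) - rr • u i‖ ^ 2
      = ‖fm (cell u i)‖ ^ 2 - 2 * rr * ⟪u i, fm (cell u i)⟫ + rr ^ 2 := by
    intro i
    rw [norm_sub_sq_real, inner_smul_right, real_inner_comm, norm_smul, mul_pow, hu,
      Real.norm_eq_abs, sq_abs]
    ring
  have hle : ∑ i, ‖fm (cell u i)‖ ^ 2 ≤ MM ^ 2 := by rw [MM_sq]; exact bdd 3 _ hA3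
  have h9 : ∑ i, ‖fm (cell u i) - rr • u i‖ ^ 2 ≤ 0 := by
    simp_rw [h8]
    rw [Finset.sum_add_distrib, Finset.sum_sub_distrib, ← Finset.mul_sum, hS']
    simp only [Finset.sum_const, Finset.card_univ, Fintype.card_fin, nsmul_eq_mul]
    have h1 := rr_sq
    rw [MM_sq'] at hle
    push_cast
    nlinarith
  have h10 : ‖fm (cell u j) - rr • u j‖ ^ 2 ≤ ∑ i, ‖fm (cell u i) - rr • u i‖ ^ 2 :=
    Finset.single_le_sum (f := fun i => ‖fm (cell u i) - rr • u i‖ ^ 2)
      (fun i _ => by positivity) (Finset.mem_univ j)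
  have h11 : ‖fm (cell u j) - rr • u j‖ ^ 2 = 0 := le_antisymm (h10.trans h9) (by positivity)
  exact sub_eq_zero.1 (norm_eq_zero.1 (pow_eq_zero_iff two_ne_zero |>.1 h11))

/-- The measure of a set of arguments of linear forms depends only on the Gram matrix. -/
lemma measure_congr_gram {ι : Type*} [Fintype ι] {z w : ι → E}
    (h : ∀ i j, ⟪z i, z j⟫ = ⟪w i, w j⟫) {S : Set (ι → ℝ)} (hS : MeasurableSet S) :
    (stdGaussian E).real {x | (fun i => ⟪z i, x⟫) ∈ S} =
      (stdGaussian E).real {x | (fun i => ⟪w i, x⟫) ∈ S} := by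
  have h1 := map_congr h
  have hz : Measurable (fun (x : E) (i : ι) => ⟪z i, x⟫) := by fun_prop
  have hw : Measurable (fun (x : E) (i : ι) => ⟪w i, x⟫) := by fun_prop
  have h2 : (stdGaussian E) {x | (fun i => ⟪z i, x⟫) ∈ S} =
      (stdGaussian E).map (fun x i => ⟪z i, x⟫) S := (Measure.map_apply hz hS).symm
  have h3 : (stdGaussian E) {x | (fun i => ⟪w i, x⟫) ∈ S} =
      (stdGaussian E).map (fun x i => ⟪w i, x⟫) S := (Measure.map_apply hw hS).symm
  rw [Measure.real, Measure.real, h2, h3, h1]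

lemma inner_eq_of_sum_zero {u : Fin 3 → E} (hu : ∀ j, ‖u j‖ = 1) (hs : ∑ j, u j = 0)
    (i j : Fin 3) : ⟪u i, u j⟫ = if i = j then 1 else -(1 / 2) := by
  obtain ⟨h01, h12, h02⟩ := inner_of_sum_zero hu hs
  by_cases hij : i = j
  · subst hij
    rw [if_pos rfl, real_inner_self_eq_norm_sq, hu]
    norm_num
  · rw [if_neg hij]
    fin_cases i <;> fin_cases j
    · exact absurd rfl hij
    · exact h01
    · exact h02
    · exact (real_inner_comm _ _).trans h01
    · exact absurd rfl hij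
    · exact h12
    · exact (real_inner_comm _ _).trans h02
    · exact (real_inner_comm _ _).trans h12
    · exact absurd rfl hij

/-- Each sector has measure one third. -/
theorem sec_third {u : Fin 3 → E} (hu : ∀ j, ‖u j‖ = 1) (hs : ∑ j, u j = 0) (j : Fin 3) :
    (stdGaussian E).real (sec u j) = 1 / 3 := by
  have hmS : ∀ j : Fin 3, MeasurableSet {v : Fin 3 → ℝ | ∀ l, v l ≤ v j} := by
    intro j
    have : {v : Fin 3 → ℝ | ∀ l, v l ≤ v j} = ⋂ l, {v | v l ≤ v j} := by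
      ext v
      simp
    rw [this]
    exact MeasurableSet.iInter fun l =>
      measurableSet_le (measurable_pi_apply l) (measurable_pi_apply j)
  have hsym : ∀ i j : Fin 3, (stdGaussian E).real (sec u i) = (stdGaussian E).real (sec u j) := by
    intro i j
    have h1 := measure_congr_gram (E := E) (z := u) (w := fun l => u (Equiv.swap i j l))
      (fun a b => by
        rw [inner_eq_of_sum_zero hu hs, inner_eq_of_sum_zero hu hs]
        by_cases hab : a = b
        · rw [if_pos hab, if_pos (by rw [hab])]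
        · rw [if_neg hab, if_neg (fun h => hab ((Equiv.swap i j).injective h))]) (hmS i)
    have h2 : {x : E | (fun l => ⟪u (Equiv.swap i j l), x⟫) ∈ {v : Fin 3 → ℝ | ∀ l, v l ≤ v i}} =
        sec u j := by
      ext x
      simp only [mem_setOf_eq, sec, Equiv.swap_apply_left]
      constructor
      · intro h l
        have := h (Equiv.swap i j l)
        rwa [Equiv.swap_apply_self] at this
      · intro h l
        exact h _
    rw [h2] at h1
    exact h1
  have hsum : ∑ j, (stdGaussian E).real (sec u j) = 1 := by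
    have h1 : ∀ j, (stdGaussian E).real (sec u j) = (stdGaussian E).real (cell u j) := fun j =>
      measureReal_congr (cell_ae (injective_of_sum_zero hu hs) j).symm
    simp_rw [h1]
    have hP := isPart_cell u
    rw [← measureReal_iUnion_fintype hP.disj hP.meas, hP.cover, probReal_univ]
  rw [Fin.sum_univ_three, hsym 1 0, hsym 2 0] at hsum
  rw [hsym j 0]
  linarith

/-- Lower bound of the measure of a slab. -/
lemma slab_ge (w : E) (hw : ‖w‖ ≤ 2) (hw0 : w ≠ 0) {t : ℝ} (ht : 0 < t) (ht1 : t ≤ 1)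
    (hw1 : 1 ≤ ‖w‖) : t / 12 ≤ (stdGaussian E).real {x | 0 ≤ ⟪w, x⟫ ∧ ⟪w, x⟫ ≤ t} := by
  have hn : 0 < ‖w‖ := norm_pos_iff.2 hw0
  have h1 : stdGaussian E {x | 0 ≤ ⟪w, x⟫ ∧ ⟪w, x⟫ ≤ t} = gaussianReal 0 1 (Icc 0 (t / ‖w‖)) := by
    have h2 : {x : E | 0 ≤ ⟪w, x⟫ ∧ ⟪w, x⟫ ≤ t} = (fun x => ⟪w, x⟫) ⁻¹' (Icc 0 t) := rfl
    rw [h2, ← Measure.map_apply (by fun_prop) measurableSet_Icc, map_inner_stdGaussian,
      Measure.map_apply (by fun_prop) measurableSet_Icc]
    congr 1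
    ext y
    simp only [mem_preimage, mem_Icc]
    rw [le_div_iff₀ hn, mul_comm y]
    constructor
    · rintro ⟨a, b⟩
      exact ⟨nonneg_of_mul_nonneg_right a hn, b⟩
    · rintro ⟨a, b⟩
      exact ⟨mul_nonneg hn.le a, b⟩
  have h3 : ENNReal.ofReal (t / 12) ≤ gaussianReal 0 1 (Icc 0 (t / ‖w‖)) := by
    rw [gaussianReal_apply 0 one_ne_zero]
    have h4 : ∀ x ∈ Icc 0 (t / ‖w‖), ENNReal.ofReal (1 / 6) ≤ gaussianPDF 0 1 x := by
      intro x hx
      have hx1 : x ≤ 1 := by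
        refine hx.2.trans ?_
        rw [div_le_one hn]
        linarith
      unfold gaussianPDF
      refine ENNReal.ofReal_le_ofReal ?_
      simp only [gaussianPDFReal]
      have h5 : (0.5 : ℝ) ≤ Real.exp (-(x - 0) ^ 2 / (2 * ((1 : NNReal) : ℝ))) := by
        have e1 : -(1 / 2 : ℝ) ≤ -(x - 0) ^ 2 / (2 * ((1 : NNReal) : ℝ)) := by
          simp only [NNReal.coe_one, sub_zero, mul_one]
          have := hx.1
          nlinarith
        have e2 : (0.5 : ℝ) ≤ Real.exp (-(1 / 2)) := by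
          have := Real.add_one_le_exp (-(1 / 2) : ℝ)
          linarith
        exact e2.trans (Real.exp_le_exp.2 e1)
      have h6 : (0.39 : ℝ) ≤ (√(2 * Real.pi * ((1 : NNReal) : ℝ)))⁻¹ := by
        rw [NNReal.coe_one, mul_one, le_inv_comm₀ (by norm_num) (by positivity)]
        rw [Real.sqrt_le_left (by norm_num)]
        have := Real.pi_lt_d2
        norm_num at this ⊢
        linarith
      calc (1 / 6 : ℝ) ≤ 0.39 * 0.5 := by norm_num
        _ ≤ _ := mul_le_mul h6 h5 (by norm_num) (by positivity)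
    calc ENNReal.ofReal (t / 12) ≤ ENNReal.ofReal (1 / 6) * ENNReal.ofReal (t / ‖w‖ - 0) := by
          rw [← ENNReal.ofReal_mul (by norm_num), sub_zero]
          refine ENNReal.ofReal_le_ofReal ?_
          have h7 : t / 2 ≤ t / ‖w‖ := div_le_div_of_nonneg_left ht.le hn hw
          linarith
      _ = ∫⁻ _ in Icc 0 (t / ‖w‖), ENNReal.ofReal (1 / 6) := by
          rw [lintegral_const, Measure.restrict_apply MeasurableSet.univ, univ_inter,
            Real.volume_Icc]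
      _ ≤ ∫⁻ x in Icc 0 (t / ‖w‖), gaussianPDF 0 1 x :=
          setLIntegral_mono' measurableSet_Icc fun x hx => h4 x hx
  rw [Measure.real, h1]
  refine (ENNReal.ofReal_le_iff_le_toReal (measure_ne_top _ _)).1 h3

/-- The set moved from the first cell to the second one. -/
def strip (u : Fin 3 → E) (t : ℝ) : Set E := cell u 0 ∩ {x | ⟪u 0 - u 1, x⟫ ≤ t}

lemma measurableSet_strip (u : Fin 3 → E) (t : ℝ) : MeasurableSet (strip u t) :=
  ((isPart_cell u).meas 0).inter (measurableSet_le (by fun_prop) measurable_const)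

/-- Lower bound of the measure of the strip. -/
theorem strip_ge {u : Fin 3 → E} (hu : ∀ j, ‖u j‖ = 1) (hs : ∑ j, u j = 0) {t : ℝ} (ht : 0 < t)
    (ht1 : t ≤ 1) : t / 24 ≤ (stdGaussian E).real (strip u t) := by
  obtain ⟨h01, h12, h02⟩ := norm_sub_of_sum_zero hu hs
  have hs3 : √3 ^ 2 = (3 : ℝ) := Real.sq_sqrt (by norm_num)
  have hs30 : 0 ≤ √3 := Real.sqrt_nonneg 3
  obtain ⟨w, hw⟩ : ∃ w : E, w = u 0 - u 1 := ⟨_, rfl⟩
  have hwn : ‖w‖ = √3 := by rw [hw]; exact h01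
  have hw2 : ‖w‖ ≤ 2 := by rw [hwn]; nlinarith
  have hw1 : 1 ≤ ‖w‖ := by rw [hwn]; nlinarith
  have hw0 : w ≠ 0 := by
    rintro rfl
    rw [norm_zero] at hw1
    linarith
  have hslab := slab_ge w hw2 hw0 ht ht1 hw1
  have horth : ⟪w, u 2⟫ = 0 := by
    rw [hw, inner_sub_left, inner_eq_of_sum_zero hu hs, inner_eq_of_sum_zero hu hs,
      if_neg (by decide), if_neg (by decide), sub_self]
  -- reflection
  let S : Set (Fin 2 → ℝ) := {v | 0 ≤ v 0 ∧ v 0 ≤ t ∧ v 1 ≤ 0}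
  have hSm : MeasurableSet S := by
    have e1 : S = {v : Fin 2 → ℝ | 0 ≤ v 0} ∩ ({v | v 0 ≤ t} ∩ {v | v 1 ≤ 0}) := rfl
    rw [e1]
    exact (measurableSet_le measurable_const (measurable_pi_apply 0)).inter
      ((measurableSet_le (measurable_pi_apply 0) measurable_const).inter
        (measurableSet_le (measurable_pi_apply 1) measurable_const))
  have hrefl := measure_congr_gram (E := E) (z := ![w, u 2]) (w := ![w, -u 2]) (fun i j => by
    fin_cases i <;> fin_cases j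
    · rfl
    · show ⟪w, u 2⟫ = ⟪w, -u 2⟫
      rw [inner_neg_right, horth, neg_zero]
    · show ⟪u 2, w⟫ = ⟪-u 2, w⟫
      rw [inner_neg_left, real_inner_comm, horth, neg_zero]
    · show ⟪u 2, u 2⟫ = ⟪-u 2, -u 2⟫
      rw [inner_neg_neg]) hSm
  have e1 : {x : E | (fun i => ⟪(![w, u 2] : Fin 2 → E) i, x⟫) ∈ S} =
      {x | 0 ≤ ⟪w, x⟫ ∧ ⟪w, x⟫ ≤ t ∧ ⟪u 2, x⟫ ≤ 0} := rfl
  have e2 : {x : E | (fun i => ⟪(![w, -u 2] : Fin 2 → E) i, x⟫) ∈ S} =
      {x | 0 ≤ ⟪w, x⟫ ∧ ⟪w, x⟫ ≤ t ∧ ⟪-u 2, x⟫ ≤ 0} := rfl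
  rw [e1, e2] at hrefl
  set P : Set E := {x | 0 ≤ ⟪w, x⟫ ∧ ⟪w, x⟫ ≤ t ∧ ⟪u 2, x⟫ ≤ 0} with hP
  have hcov : {x : E | 0 ≤ ⟪w, x⟫ ∧ ⟪w, x⟫ ≤ t} ⊆
      P ∪ {x | 0 ≤ ⟪w, x⟫ ∧ ⟪w, x⟫ ≤ t ∧ ⟪-u 2, x⟫ ≤ 0} := by
    rintro x ⟨h1, h2⟩
    rcases le_total ⟪u 2, x⟫ 0 with h | h
    · exact Or.inl ⟨h1, h2, h⟩
    · refine Or.inr ⟨h1, h2, ?_⟩
      rw [inner_neg_left]
      linarith
  have h1 : (stdGaussian E).real {x : E | 0 ≤ ⟪w, x⟫ ∧ ⟪w, x⟫ ≤ t} ≤
      (stdGaussian E).real P + (stdGaussian E).real P := by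
    refine (measureReal_mono hcov (measure_ne_top _ _)).trans ((measureReal_union_le _ _).trans ?_)
    rw [← hrefl]
  -- the set `P` lies in the strip up to null sets
  have h2 : (stdGaussian E).real P ≤ (stdGaussian E).real (strip u t) := by
    have h3 : P ≤ᵐ[stdGaussian E] strip u t := by
      filter_upwards [cell_ae (injective_of_sum_zero hu hs) 0] with x hx hxP
      obtain ⟨p1, p2, p3⟩ : 0 ≤ ⟪w, x⟫ ∧ ⟪w, x⟫ ≤ t ∧ ⟪u 2, x⟫ ≤ 0 := hxP
      have hsum : ⟪u 0, x⟫ + ⟪u 1, x⟫ + ⟪u 2, x⟫ = 0 := by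
        rw [Fin.sum_univ_three] at hs
        rw [← inner_add_left, ← inner_add_left, hs, inner_zero_left]
      rw [hw, inner_sub_left] at p1
      have h4 : x ∈ sector u 0 := by
        intro l
        fin_cases l
        · exact le_rfl
        · show ⟪u 1, x⟫ ≤ ⟪u 0, x⟫
          linarith
        · show ⟪u 2, x⟫ ≤ ⟪u 0, x⟫
          linarith
      have h5 : x ∈ cell u 0 := Eq.mpr hx h4
      refine ⟨h5, ?_⟩
      show ⟪u 0 - u 1, x⟫ ≤ t
      rw [← hw]
      exact p2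
    exact ENNReal.toReal_mono (measure_ne_top _ _) (measure_mono_ae h3)
  linarith

/-- The perturbed propeller. -/
def pert (k : ℕ) (hk : 3 ≤ k) (u : Fin 3 → E) (t : ℝ) : Fin k → Set E :=
  push (move (cell u) 0 1 (strip u t)) (Fin.castLE hk)

lemma isPart_pert3 (u : Fin 3 → E) (t : ℝ) : IsPart (move (cell u) 0 1 (strip u t)) :=
  isPart_move (isPart_cell u) (by decide) (measurableSet_strip u t) inter_subset_left

lemma isPart_pert {k : ℕ} (hk : 3 ≤ k) (u : Fin 3 → E) (t : ℝ) : IsPart (pert k hk u t) :=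
  isPart_push (isPart_pert3 u t) _

omit [InnerProductSpace ℝ E] [FiniteDimensional ℝ E] [BorelSpace E] [NormedAddCommGroup E] [MeasurableSpace E] in
lemma push_castLE {k : ℕ} (hk : 3 ≤ k) (B : Fin 3 → Set E) (j : Fin 3) :
    push B (Fin.castLE hk) (Fin.castLE hk j) = B j := by
  ext x
  simp only [push, mem_iUnion]
  constructor
  · rintro ⟨⟨l, hl⟩, hx⟩
    rwa [← Fin.castLE_injective hk hl]
  · intro hx
    exact ⟨⟨j, rfl⟩, hx⟩

lemma sum_pert {k : ℕ} (hk : 3 ≤ k) (u : Fin 3 → E) (t : ℝ) :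
    ∑ i, ‖fm (pert k hk u t i)‖ ^ 2 =
      ∑ j, ‖fm (move (cell u) 0 1 (strip u t) j)‖ ^ 2 := by
  rw [← Fintype.sum_of_injective (Fin.castLE hk) (Fin.castLE_injective hk)
    (fun j => ‖fm (move (cell u) 0 1 (strip u t) j)‖ ^ 2) (fun i => ‖fm (pert k hk u t i)‖ ^ 2)]
  · intro i hi
    have : pert k hk u t i = ∅ := by
      ext x
      simp only [pert, push, mem_iUnion, mem_empty_iff_false, iff_false]
      rintro ⟨⟨l, hl⟩, -⟩
      exact hi ⟨l, hl⟩
    rw [this, fm_empty, norm_zero]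
    norm_num
  · intro j
    rw [pert, push_castLE]

/-- The deficit of the perturbed propeller. -/
theorem deficit_pert {k : ℕ} (hk : 3 ≤ k) {u : Fin 3 → E} (hu : ∀ j, ‖u j‖ = 1)
    (hs : ∑ j, u j = 0) {t : ℝ} (ht : 0 ≤ t) :
    MM ^ 2 - ∑ i, ‖fm (pert k hk u t i)‖ ^ 2 ≤ t * (stdGaussian E).real (strip u t) := by
  rw [sum_pert, sum_move (isPart_cell u) (by decide) (measurableSet_strip u t) inter_subset_left]
  have h1 : ∑ l, ‖fm (cell u l)‖ ^ 2 = MM ^ 2 := by
    have h2 : ∀ l, ‖fm (cell u l)‖ ^ 2 = rho := by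
      intro l
      rw [fm_cell hu hs, norm_smul, hu, mul_one, Real.norm_eq_abs, sq_abs, rr_sq]
    simp_rw [h2]
    rw [Finset.sum_const, Finset.card_univ, Fintype.card_fin, nsmul_eq_mul, MM_sq']
    norm_num
  rw [h1, fm_cell hu hs, fm_cell hu hs]
  have h2 : ⟪rr • u 1 - rr • u 0, fm (strip u t)⟫ = -(rr * ⟪u 0 - u 1, fm (strip u t)⟫) := by
    rw [← smul_sub, real_inner_smul_left, ← neg_sub, inner_neg_left]
    ring
  have h3 : ⟪u 0 - u 1, fm (strip u t)⟫ ≤ t * (stdGaussian E).real (strip u t) := by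
    rw [inner_fm]
    have h4 : ∫ x in strip u t, ⟪u 0 - u 1, x⟫ ∂(stdGaussian E) ≤
        ∫ x in strip u t, t ∂(stdGaussian E) :=
      setIntegral_mono_on (integrable_inner_stdGaussian _).integrableOn
        (integrable_const _).integrableOn (measurableSet_strip u t) fun x hx => hx.2
    rw [setIntegral_const, smul_eq_mul] at h4
    linarith
  have h4 : 0 ≤ ‖fm (strip u t)‖ ^ 2 := by positivity
  have h5 : 0 ≤ t * (stdGaussian E).real (strip u t) := mul_nonneg ht measureReal_nonneg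
  have h6 := rr_hi
  have h7 := rr_pos
  rw [h2]
  nlinarith

/-- The measure of the second cell of the perturbed propeller. -/
lemma measure_pert {k : ℕ} (hk : 3 ≤ k) {u : Fin 3 → E} (hu : ∀ j, ‖u j‖ = 1)
    (hs : ∑ j, u j = 0) (t : ℝ) :
    (stdGaussian E).real (pert k hk u t (Fin.castLE hk 1)) =
      1 / 3 + (stdGaussian E).real (strip u t) := by
  rw [pert, push_castLE]
  have h1 : move (cell u) 0 1 (strip u t) 1 = cell u 1 ∪ strip u t := by
    simp [move]
  have hP := isPart_cell u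
  have h2 : Disjoint (cell u 1) (strip u t) :=
    (hP.disj (by decide : (1 : Fin 3) ≠ 0)).mono_right inter_subset_left
  rw [h1, measureReal_union h2 (measurableSet_strip u t)]
  congr 1
  rw [← sec_third hu hs 1]
  exact measureReal_congr (cell_ae (injective_of_sum_zero hu hs) 1)

/-- **The exponent one half is optimal.** -/
theorem sharp {k : ℕ} (hk : 3 ≤ k) (hE : 2 ≤ Module.finrank ℝ E) {ε : ℝ} (hε : 0 < ε) :
    ∃ A : Fin k → Set E, IsPart A ∧
      0 < 9 / (8 * Real.pi) - ∑ i, ‖∫ x in A i, x ∂(stdGaussian E)‖ ^ 2 ∧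
      9 / (8 * Real.pi) - ∑ i, ‖∫ x in A i, x ∂(stdGaussian E)‖ ^ 2 < ε ∧
      ∀ (u : Fin 3 → E) (f : Fin 3 → Fin k), (∀ j, ‖u j‖ = 1) → ∑ j, u j = 0 →
        (∃ j, 1 / 5 * √(9 / (8 * Real.pi) - ∑ i, ‖∫ x in A i, x ∂(stdGaussian E)‖ ^ 2) ≤
          (stdGaussian E).real (symmDiff (A (f j)) {x | ∀ l, ⟪u l, x⟫ ≤ ⟪u j, x⟫})) ∨
        1 / 5 * √(9 / (8 * Real.pi) - ∑ i, ‖∫ x in A i, x ∂(stdGaussian E)‖ ^ 2) ≤
          (stdGaussian E).real (⋃ i ∈ (Set.range f)ᶜ, A i) := by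
  obtain ⟨u, hu, hs⟩ := exists_propeller hE
  obtain ⟨t, ht⟩ : ∃ t : ℝ, t = min 1 (ε / 2) := ⟨_, rfl⟩
  have ht0 : 0 < t := by rw [ht]; exact lt_min one_pos (by positivity)
  have ht1 : t ≤ 1 := by rw [ht]; exact min_le_left _ _
  have htε : t ≤ ε / 2 := by rw [ht]; exact min_le_right _ _
  have hP := isPart_pert hk u t
  obtain ⟨m, hm⟩ : ∃ m : ℝ, m = (stdGaussian E).real (strip u t) := ⟨_, rfl⟩
  have hm1 : t / 24 ≤ m := by rw [hm]; exact strip_ge hu hs ht0 ht1
  have hm0 : 0 < m := by linarith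
  have hm2 : m ≤ 1 := by rw [hm]; exact measureReal_le_one
  have hD := deficit_pert hk hu hs ht0.le
  have hA1 := measure_pert hk hu hs t
  rw [← hm] at hD hA1
  obtain ⟨A, hA⟩ : ∃ A : Fin k → Set E, A = pert k hk u t := ⟨_, rfl⟩
  rw [← hA] at hD hA1 hP
  obtain ⟨D, hDd⟩ : ∃ D : ℝ, D = MM ^ 2 - ∑ i, ‖fm (A i)‖ ^ 2 := ⟨_, rfl⟩
  have hDe : 9 / (8 * Real.pi) - ∑ i, ‖∫ x in A i, x ∂(stdGaussian E)‖ ^ 2 = D := by
    rw [hDd, MM_sq]
    rfl
  rw [← hDd] at hD
  have hD0 : 0 ≤ D := by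
    have h0 : ∑ i, ‖fm (A i)‖ ^ 2 ≤ MM ^ 2 := by rw [MM_sq]; exact bdd k _ hP
    rw [hDd]; linarith
  -- every propeller is far
  have hfar : ∀ (v : Fin 3 → E) (f : Fin 3 → Fin k), (∀ j, ‖v j‖ = 1) → ∑ j, v j = 0 →
      (∃ j, m ≤ (stdGaussian E).real (symmDiff (A (f j)) {x | ∀ l, ⟪v l, x⟫ ≤ ⟪v j, x⟫})) ∨
        m ≤ (stdGaussian E).real (⋃ i ∈ (Set.range f)ᶜ, A i) := by
    intro v f hv hvs
    by_cases hf : ∃ j, f j = Fin.castLE hk 1
    · obtain ⟨j, hj⟩ := hf
      left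
      refine ⟨j, ?_⟩
      have h1 : A (f j) ⊆ sec v j ∪ symmDiff (A (f j)) (sec v j) := by
        intro x hx
        by_cases hxs : x ∈ sec v j
        · exact Or.inl hxs
        · exact Or.inr (Or.inl ⟨hx, hxs⟩)
      have h2 := (measureReal_mono (μ := stdGaussian E) h1 (measure_ne_top _ _)).trans
        (measureReal_union_le _ _)
      rw [sec_third hv hvs j, hj, hA1] at h2
      rw [hj]
      have h3 : symmDiff (A (Fin.castLE hk 1)) (sec v j) =
        symmDiff (A (Fin.castLE hk 1)) {x | ∀ l, ⟪v l, x⟫ ≤ ⟪v j, x⟫} := rfl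
      rw [h3] at h2
      linarith
    · right
      push Not at hf
      have h1 : A (Fin.castLE hk 1) ⊆ ⋃ i ∈ (Set.range f)ᶜ, A i := by
        intro x hx
        simp only [mem_iUnion]
        exact ⟨_, fun ⟨j, hj⟩ => hf j hj, hx⟩
      have h2 := measureReal_mono (μ := stdGaussian E) h1 (measure_ne_top _ _)
      rw [hA1] at h2
      linarith
  have hDpos : 0 < D := by
    refine lt_of_le_of_ne hD0 fun h0 => ?_
    have h1 : ∑ i, ‖∫ x in A i, x ∂(stdGaussian E)‖ ^ 2 = 9 / (8 * Real.pi) := by linarith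
    obtain ⟨v, f, hv, hvs, -, h2, h3⟩ := (eq_iff (fun i => (hP.meas i).nullMeasurableSet)
      (fun i j hij => (hP.disj hij).aedisjoint) (Filter.Eventually.of_forall fun x => by
        rw [hP.cover]; exact mem_univ x)).1 h1
    rcases hfar v f hv hvs with ⟨j, hj⟩ | hj
    · have h4 : (stdGaussian E).real (symmDiff (A (f j)) {x | ∀ l, ⟪v l, x⟫ ≤ ⟪v j, x⟫}) = 0 := by
        rw [Measure.real, measure_symmDiff_eq_zero_iff.2 (h2 j), ENNReal.toReal_zero]
      linarith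
    · have h4 : (stdGaussian E).real (⋃ i ∈ (Set.range f)ᶜ, A i) = 0 := by
        have h5 : stdGaussian E (⋃ i ∈ (Set.range f)ᶜ, A i) = 0 :=
          (measure_biUnion_null_iff (Set.to_countable _)).2 fun i hi => h3 i hi
        rw [Measure.real, h5, ENNReal.toReal_zero]
      linarith
  refine ⟨A, hP, ?_, ?_, ?_⟩
  · rw [hDe]; exact hDpos
  · rw [hDe]
    nlinarith
  · intro v f hv hvs
    rw [hDe]
    have hsq : 1 / 5 * √D ≤ m := by
      have h1 : √D ≤ 5 * m := by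
        rw [Real.sqrt_le_left (by positivity)]
        nlinarith
      linarith
    rcases hfar v f hv hvs with ⟨j, hj⟩ | hj
    · exact Or.inl ⟨j, hsq.trans hj⟩
    · exact Or.inr (hsq.trans hj)

end Vale.Agent.P226.S765
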