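import Vale.Agent.P226.H765.Slk

set_option linter.all false

/-!
# P226: strictly obtuse near maximisers: the energy of the tail is controlled by the deficit

The numerical certificate of the case analysis (`H700/Weak2`, `H700/Weak3`) has a uniform slack; this
file reads off the quantitative statement.
-/

namespace Vale.Agent.P226.CaseB

/-- The range `z₄ ≥ 0.52`, with slack. -/
lemma piece_high2 {Q T N n H ν ρ s : ℝ} (hH : 0 ≤ H) (hHt : 16 * H ≤ T) (hT : 0 ≤ T)
    (hQ : 1 + 4 / 3 * Q - 4 * ν * H ≤ n) (hn : n + N ≤ 4)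
    (hS : 9 / 4 - s ≤ Q + T) (er : ρ * T ≤ N) (hν : 0 ≤ ν) (hρ : 4 / 3 + ν / 4 + 1 / 200 ≤ ρ) :
    T ≤ 1000 * s := by
  have h1 : ν * (16 * H) ≤ ν * T := mul_le_mul_of_nonneg_left hHt hν
  have h2 : (ρ - (4 / 3 + ν / 4)) * T ≤ 4 / 3 * s := by
    linarith
  have h3 : 1 / 200 * T ≤ (ρ - (4 / 3 + ν / 4)) * T :=
    mul_le_mul_of_nonneg_right (by linarith) hT
  linarith

/-- **Case B.** -/
theorem caseB2 {ι : Type*} [Fintype ι] {z0 z1 z2 z3 H n0 n1 n2 n3 s : ℝ} {t nt : ι → ℝ}
    (hH : 0 ≤ H) (hH1 : H ≤ 1 / 16) (hHt : 16 * H ≤ ∑ j, t j ^ 2)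
    (h01 : z1 ≤ z0) (h12 : z2 ≤ z1) (h23 : z3 ≤ z2) (ht : ∀ j, t j ≤ z3)
    (c0 : TopCell z0 H n0) (c1 : TopCell z1 H n1) (c2 : TopCell z2 H n2) (c3 : TopCell z3 H n3)
    (ct : ∀ j, TailCell (t j) (nt j))
    (hn : n0 + n1 + n2 + n3 + ∑ j, nt j ≤ 4)
    (hs : s ≤ 1 / 10000)
    (hS : 9 / 4 - s ≤ z0 ^ 2 + z1 ^ 2 + z2 ^ 2 + z3 ^ 2 + ∑ j, t j ^ 2)
    (hz2 : 2 / 5 ≤ z2)
    (hcase : 36 / 100 ≤ z3 ∨ (1 / 5 ≤ z3 ∧ 27 / 100 ≤ z3 ^ 2 + ∑ j, t j ^ 2)) :
    ∑ j, t j ^ 2 ≤ 1000 * s := by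
  have hS' : 2249 / 1000 < z0 ^ 2 + z1 ^ 2 + z2 ^ 2 + z3 ^ 2 + ∑ j, t j ^ 2 := by linarith
  have hz3 : 1 / 5 ≤ z3 := by
    rcases hcase with h | h
    · linarith only [h]
    · exact h.1
  have hT : 0 ≤ ∑ j, t j ^ 2 := Finset.sum_nonneg fun j _ => sq_nonneg _
  rcases le_or_gt z3 (42 / 100) with h42 | h42
  · -- the three largest cells are at least 2/5, m = 2/5
    have e0 := c0.lin40 hH hH1 (by linarith only [h01, h12, hz2])
    have e1 := c1.lin40 hH hH1 (by linarith only [h12, hz2])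
    have e2 := c2.lin40 hH hH1 hz2
    rcases lt_or_ge z3 (36 / 100) with h36 | h36
    · have hσ : 27 / 100 ≤ z3 ^ 2 + ∑ j, t j ^ 2 := by
        rcases hcase with h | h
        · exact absurd h36 (not_lt.2 h)
        · exact h.2
      rcases le_or_gt z3 (30 / 100) with h30 | h30
      · rcases le_or_gt z3 (25 / 100) with h25 | h25
        · exact (piece' (Q := z0 ^ 2 + z1 ^ 2 + z2 ^ 2) (T := ∑ j, t j ^ 2) (N := ∑ j, nt j)
            (p := 3 / 20) (μ := 125 / 84) (ν := 3 / 10) (ρ := 11 / 5) (x₀ := 9 / 10)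
            (lo := 1 / 5) (hi := 1 / 4) (am := 0) (θ := 1 / 2) hH hH1 hHt c3 hz3
            (h25.trans (by norm_num)) (by linarith only [hn, e0, e1, e2]) hS' (by linarith only [hσ])
            (sum_row fun j => (ct j).row025 ((ht j).trans (h25.trans (by norm_num))))
            (by norm_num) (by norm_num) (by norm_num) (by norm_num) (by norm_num)
            (Or.inr rfl) (by norm_num) rfl rfl rfl rfl (by norm_num) (by norm_num)
            (by norm_num) (by norm_num) (by norm_num)).elim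
        · exact (piece' (Q := z0 ^ 2 + z1 ^ 2 + z2 ^ 2) (T := ∑ j, t j ^ 2) (N := ∑ j, nt j)
            (p := 3 / 20) (μ := 125 / 84) (ν := 3 / 10) (ρ := 2) (x₀ := 86 / 100)
            (lo := 25 / 100) (hi := 30 / 100) (am := 0) (θ := 3 / 5) hH hH1 hHt c3 h25.le
            h30 (by linarith only [hn, e0, e1, e2]) hS' (by linarith only [hσ])
            (sum_row fun j => (ct j).row030 ((ht j).trans (h30.trans (by norm_num))))
            (by norm_num) (by norm_num) (by norm_num) (by norm_num) (by norm_num)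
            (Or.inr rfl) (by norm_num) rfl rfl rfl rfl (by norm_num) (by norm_num)
            (by norm_num) (by norm_num) (by norm_num)).elim
      · exact (piece' (Q := z0 ^ 2 + z1 ^ 2 + z2 ^ 2) (T := ∑ j, t j ^ 2) (N := ∑ j, nt j)
          (p := 3 / 20) (μ := 125 / 84) (ν := 3 / 10) (ρ := 184 / 100) (x₀ := 82 / 100)
          (lo := 30 / 100) (hi := 36 / 100) (am := 165 / 1000) (θ := 3 / 5) hH hH1 hHt c3 h30.le
          h36.le (by linarith only [hn, e0, e1, e2]) hS' (by linarith only [hσ])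
          (sum_row fun j => (ct j).row036 ((ht j).trans h36.le))
          (by norm_num) (by norm_num) (by norm_num) (by norm_num) (by norm_num)
          (Or.inl (by norm_num)) (by norm_num) rfl rfl rfl rfl (by norm_num) (by norm_num)
          (by norm_num) (by norm_num) (by norm_num)).elim
    · exact (piece' (Q := z0 ^ 2 + z1 ^ 2 + z2 ^ 2) (T := ∑ j, t j ^ 2) (N := ∑ j, nt j)
        (p := 3 / 20) (μ := 125 / 84) (ν := 3 / 10) (ρ := 171 / 100) (x₀ := 78 / 100)
        (lo := 36 / 100) (hi := 42 / 100) (am := 259 / 1000) (θ := 1) hH hH1 hHt c3 h36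
        h42 (by linarith only [hn, e0, e1, e2]) hS' (by linarith only [])
        (sum_row fun j => (ct j).row042 ((ht j).trans h42))
        (by norm_num) (by norm_num) (by norm_num) (by norm_num) (by norm_num)
        (Or.inl (by norm_num)) (by norm_num) rfl rfl rfl rfl (by norm_num) (by norm_num)
        (by norm_num) (by norm_num) (by norm_num)).elim
  · rcases le_or_gt z3 (47 / 100) with h47 | h47
    · have e0 := c0.lin42 hH hH1 (by linarith only [h01, h12, h23, h42])
      have e1 := c1.lin42 hH hH1 (by linarith only [h12, h23, h42])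
      have e2 := c2.lin42 hH hH1 (by linarith only [h23, h42])
      exact (piece' (Q := z0 ^ 2 + z1 ^ 2 + z2 ^ 2) (T := ∑ j, t j ^ 2) (N := ∑ j, nt j)
        (p := 4 / 21) (μ := 343 / 240) (ν := 55 / 100) (ρ := 163 / 100) (x₀ := 73 / 100)
        (lo := 42 / 100) (hi := 47 / 100) (am := 337 / 1000) (θ := 1) hH hH1 hHt c3 h42.le
        h47 (by linarith only [hn, e0, e1, e2]) hS' (by linarith only [])
        (sum_row fun j => (ct j).row047 ((ht j).trans h47))
        (by norm_num) (by norm_num) (by norm_num) (by norm_num) (by norm_num)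
        (Or.inl (by norm_num)) (by norm_num) rfl rfl rfl rfl (by norm_num) (by norm_num)
        (by norm_num) (by norm_num) (by norm_num)).elim
    · rcases le_or_gt z3 (52 / 100) with h52 | h52
      · have e0 := c0.lin47 hH hH1 (by linarith only [h01, h12, h23, h47])
        have e1 := c1.lin47 hH hH1 (by linarith only [h12, h23, h47])
        have e2 := c2.lin47 hH hH1 (by linarith only [h23, h47])
        exact (piece' (Q := z0 ^ 2 + z1 ^ 2 + z2 ^ 2) (T := ∑ j, t j ^ 2) (N := ∑ j, nt j)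
          (p := 4 / 21) (μ := 343 / 240) (ν := 33 / 100) (ρ := 157 / 100) (x₀ := 73 / 100)
          (lo := 47 / 100) (hi := 52 / 100) (am := 397 / 1000) (θ := 1) hH hH1 hHt c3 h47.le
          h52 (by linarith only [hn, e0, e1, e2]) hS' (by linarith only [])
          (sum_row fun j => (ct j).row052 ((ht j).trans h52))
          (by norm_num) (by norm_num) (by norm_num) (by norm_num) (by norm_num)
          (Or.inl (by norm_num)) (by norm_num) rfl rfl rfl rfl (by norm_num) (by norm_num)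
          (by norm_num) (by norm_num) (by norm_num)).elim
      · rcases le_or_gt z3 (58 / 100) with h58 | h58
        · have e0 := c0.lin52 hH hH1 (by linarith only [h01, h12, h23, h52])
          have e1 := c1.lin52 hH hH1 (by linarith only [h12, h23, h52])
          have e2 := c2.lin52 hH hH1 (by linarith only [h23, h52])
          have e3 := c3.lin52 hH hH1 h52.le
          exact (piece_high2 (Q := z0 ^ 2 + z1 ^ 2 + z2 ^ 2 + z3 ^ 2) (n := n0 + n1 + n2 + n3)
            (s := s) (ν := 70 / 100) (ρ := 152 / 100) hH hHt hT (by linarith only [e0, e1, e2, e3]) hn hS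
            (sum_row fun j => (ct j).row058 ((ht j).trans h58)) (by norm_num) (by norm_num))
        · rcases le_or_gt z3 (649 / 1000) with h64 | h64
          · have e0 := c0.lin58 hH hH1 (by linarith only [h01, h12, h23, h58])
            have e1 := c1.lin58 hH hH1 (by linarith only [h12, h23, h58])
            have e2 := c2.lin58 hH hH1 (by linarith only [h23, h58])
            have e3 := c3.lin58 hH hH1 h58.le
            exact (piece_high2 (Q := z0 ^ 2 + z1 ^ 2 + z2 ^ 2 + z3 ^ 2) (n := n0 + n1 + n2 + n3)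
              (s := s) (ν := 55 / 100) (ρ := 148 / 100) hH hHt hT (by linarith only [e0, e1, e2, e3]) hn hS
              (sum_row fun j => (ct j).row064 ((ht j).trans h64)) (by norm_num) (by norm_num))
          · have e0 := c0.lin64 hH hH1 (by linarith only [h01, h12, h23, h64])
            have e1 := c1.lin64 hH hH1 (by linarith only [h12, h23, h64])
            have e2 := c2.lin64 hH hH1 (by linarith only [h23, h64])
            have e3 := c3.lin64 hH hH1 h64.le
            exact (piece_high2 (Q := z0 ^ 2 + z1 ^ 2 + z2 ^ 2 + z3 ^ 2) (n := n0 + n1 + n2 + n3)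
              (s := s) (ν := 46 / 100) (ρ := 1457 / 1000) hH hHt hT (by linarith only [e0, e1, e2, e3]) hn hS
              (sum_row fun j => (ct j).row_all) (by norm_num) (by norm_num))

end Vale.Agent.P226.CaseB

namespace Vale.Agent.P226.Sl

open Real CaseB

/-- Case A: fourth largest moment at most `0.36` and tail energy at most `0.27`. -/
theorem Aff3.caseA {m : ℕ} {ζ n : Fin (m + 4) → ℝ} {H s : ℝ} (h : Aff3 ζ n H s)
    (h3 : ζ 3 ≤ 0.36) (hσ : ∑ i : Fin (m + 1), ζ i.succ.succ.succ ^ 2 ≤ 0.27) :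
    ∑ i : Fin (m + 1), ζ i.succ.succ.succ ^ 2 ≤ 1000 * s := by
  have hπ := pi_pos
  set σ := ∑ i : Fin (m + 1), ζ i.succ.succ.succ ^ 2 with hσdef
  have hσ0 : 0 ≤ σ := Finset.sum_nonneg fun i _ => by positivity
  have hH0 := h.H_nonneg
  have hH9 := h.H_tail
  have hH : H ≤ 0.03 := by linarith only [hσ, hH9]
  -- tail cells
  have htail : ∀ i : Fin (m + 1), 1.255 * ζ i.succ.succ.succ ^ 2 ≤ n i.succ.succ.succ := by
    intro i
    apply (h.vert _).le (h.nonneg _)
    have h4 : ζ i.succ.succ.succ ≤ ζ 3 := by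
      apply h.anti
      change (0 : Fin (m + 1)).succ.succ.succ ≤ i.succ.succ.succ
      simp only [Fin.succ_le_succ_iff]
      exact Fin.zero_le i
    linarith only [h3, h4]
  have htailsum : 1.255 * σ ≤ ∑ i : Fin (m + 1), n i.succ.succ.succ := by
    rw [hσdef, Finset.mul_sum]
    exact Finset.sum_le_sum fun i _ => htail i
  have hsumn := h.sum
  rw [sum_split3] at hsumn
  have hbig := h.big
  rw [sum_split3 (fun i => ζ i ^ 2)] at hbig
  -- big cells
  have hcell : ∀ j : Fin (m + 4), InV2 (√(ζ j ^ 2 - H)) H (n j) → H ≤ ζ j ^ 2 →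
      ζ j ^ 2 ≤ (1 - H / 2) ^ 2 * sin (min (n j) (π / 2)) ^ 2 + H := by
    intro j hj hHj
    have h5 := hj.le (h.n_nonneg j)
    have h6 : √(ζ j ^ 2 - H) ^ 2 = ζ j ^ 2 - H := sq_sqrt (by linarith only [hHj])
    have h7 : √(ζ j ^ 2 - H) ^ 2 ≤ ((1 - H / 2) * sin (min (n j) (π / 2))) ^ 2 := by
      (clear * - h5; gcongr)
    rw [mul_pow] at h7
    linarith only [h6, h7]
  have hle : ∀ j : Fin (m + 4), j ≤ 2 → H ≤ ζ j ^ 2 := by
    intro j hj
    have h8 : ζ 2 ≤ ζ j := h.anti hj
    have h9 := h.H_le2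
    have h10 := h.nonneg 2
    nlinarith only [h9, h8, h10]
  have c0 := hcell 0 h.in0 (hle 0 (by simp))
  have c1 := hcell 1 h.in1 (hle 1 (by
    change (0 : Fin (m + 3)).succ ≤ (1 : Fin (m + 3)).succ
    simp only [Fin.succ_le_succ_iff]
    exact Fin.zero_le _))
  have c2 := hcell 2 h.in2 (hle 2 le_rfl)
  have hmin0 : ∀ j : Fin (m + 4), 0 ≤ min (n j) (π / 2) := fun j =>
    le_min (h.n_nonneg j) (by positivity)
  have hfin := Wk.caseA_real' (hmin0 0) (hmin0 1) (hmin0 2) (min_le_right _ _) (min_le_right _ _)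
    (min_le_right _ _) hσ0 hσ hH0 hH9 (by
      have a0 : min (n 0) (π / 2) ≤ n 0 := min_le_left _ _
      have a1 : min (n 1) (π / 2) ≤ n 1 := min_le_left _ _
      have a2 : min (n 2) (π / 2) ≤ n 2 := min_le_left _ _
      linarith only [htailsum, hsumn, a0, a1, a2])
  linarith only [hbig, c0, c1, c2, hfin]


/-- **Case B**: either the fourth size is at least `0.36`, or it is at least `0.2` and the sum of
the squares of all sizes but the three largest is at least `0.27`. -/
theorem Aff4.caseB {m : ℕ} {ζ n : Fin (m + 4) → ℝ} {H s : ℝ} (h : Aff4 ζ n H s) (h2 : 0.4 < ζ 2)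
    (hcase : 0.36 ≤ ζ 3 ∨
      (0.2 ≤ ζ 3 ∧ 0.27 ≤ ∑ i : Fin (m + 1), ζ i.succ.succ.succ ^ 2)) :
    ∑ i : Fin m, ζ i.succ.succ.succ.succ ^ 2 ≤ 1000 * s := by
  have hs := h.sum
  have hb := h.big
  rw [sum_split4] at hs hb
  have h01 : ζ 1 ≤ ζ 0 := h.anti (Fin.zero_le _)
  have h12 : ζ 2 ≤ ζ 1 := h.anti (by
    rw [Fin.le_def]
    have e1 : (1 : Fin (m + 4)).val = 1 := rfl
    have e2 : (2 : Fin (m + 4)).val = 2 := rfl
    omega)
  have h23 : ζ 3 ≤ ζ 2 := h.anti (by
    rw [Fin.le_def]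
    have e1 : (3 : Fin (m + 4)).val = 3 := rfl
    have e2 : (2 : Fin (m + 4)).val = 2 := rfl
    omega)
  have htail : ∀ i : Fin m, ζ i.succ.succ.succ.succ ≤ ζ 3 := fun i => h.anti (by
    rw [Fin.le_def]
    simp only [Fin.val_succ]
    have : (3 : Fin (m + 4)).val = 3 := rfl
    omega)
  have q : ∀ i j : Fin (m + 4), ζ j ≤ ζ i → ζ j ^ 2 ≤ ζ i ^ 2 := fun i j hij =>
    pow_le_pow_left₀ (h.nonneg j) hij 2
  have H3 := h.H_le3
  have H2 : H ≤ ζ 2 ^ 2 := H3.trans (q _ _ h23)
  have H1 : H ≤ ζ 1 ^ 2 := H2.trans (q _ _ h12)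
  have H0 : H ≤ ζ 0 ^ 2 := H1.trans (q _ _ h01)
  refine CaseB.caseB2 (t := fun i : Fin m => ζ i.succ.succ.succ.succ)
    (nt := fun i : Fin m => n i.succ.succ.succ.succ) h.H_nonneg h.H_le h.H_tail h01 h12 h23 htail
    (h.in0.topCell H0) (h.in1.topCell H1) (h.in2.topCell H2) (h.in3.topCell H3)
    (fun j => (h.vert _).tailCell (h.nonneg _)) hs.le h.s_le hb (by linarith only [h2]) ?_
  rcases hcase with h5 | ⟨h5, h6⟩
  · left; linarith only [h5]
  · right
    refine ⟨by linarith only [h5], ?_⟩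
    rw [Fin.sum_univ_succ] at h6
    have e3 : ζ (Fin.succ (Fin.succ (Fin.succ (0 : Fin (m + 1))))) = ζ 3 := rfl
    rw [e3] at h6
    linarith only [h6]

end Vale.Agent.P226.Sl
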